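import Crest.Agent.Lib.PT.Iter

/-!
# Linear-time list programs (machine level)

Explicit `Cmd` programs on coded lists with linear step bounds (`Run` statements only; the typed
`TC`/`LT` versions are in `X326/TC/ListLin.lean`).
-/

set_option autoImplicit false

namespace Crest.Agent.X326.ListRun

open Function Crest.Agent.Lib.PT

/-- doubling of a bit string, the first part of `pair` -/
def dbl (x : List Bool) : List Bool := x.flatMap (fun b => [true, b])

/-- one list cell -/
def cell (x : List Bool) : List Bool := dbl x ++ [false]

theorem pair_eq_cell (x y : List Bool) : pair x y = cell x ++ y := by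
  simp [pair, cell, dbl]

theorem pair_eq_dbl (x y : List Bool) : pair x y = dbl x ++ false :: y := rfl

@[simp] theorem length_dbl (x : List Bool) : (dbl x).length = 2 * x.length := by
  induction x with
  | nil => rfl
  | cons b x ih => simp [dbl] at ih ⊢; omega

@[simp] theorem length_cell (x : List Bool) : (cell x).length = 2 * x.length + 1 := by
  simp [cell]

theorem dbl_append (x y : List Bool) : dbl (x ++ y) = dbl x ++ dbl y := by simp [dbl]

theorem reverse_dbl (x : List Bool) :
    (dbl x).reverse = x.reverse.flatMap (fun b => [b, true]) := by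
  induction x with
  | nil => rfl
  | cons b x ih => simp [dbl] at ih ⊢; simp [ih]

theorem reverse_cell (x : List Bool) :
    (cell x).reverse = false :: x.reverse.flatMap (fun b => [b, true]) := by
  simp [cell, reverse_dbl]

theorem reverse_dbl_cell (x : List Bool) :
    (dbl (cell x)).reverse =
      [false, true] ++ x.reverse.flatMap (fun b => [b, true, true, true]) := by
  have h : ∀ x : List Bool, (dbl (dbl x)).reverse =
      x.reverse.flatMap (fun b => [b, true, true, true]) := by
    intro x
    induction x with
    | nil => rfl
    | cons b x ih =>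
      have e : dbl (dbl (b :: x)) = [true, true, true, b] ++ dbl (dbl x) := by simp [dbl]
      rw [e, List.reverse_append, ih]
      simp
  rw [cell, dbl_append, List.reverse_append, h]
  rfl

section enc

variable {α β : Type} [PTCode α] [PTCode β]

theorem enc_cons' (a : α) (l : List α) : enc (a :: l) = cell (enc a) ++ enc l := by
  rw [enc_cons, pair_eq_cell]

theorem enc_append (l l' : List α) : enc (l ++ l') = enc l ++ enc l' := by
  induction l with
  | nil => simp
  | cons a l ih => rw [List.cons_append, enc_cons', enc_cons', ih, List.append_assoc]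

theorem enc_cons_ne_nil (a : α) (l : List α) : enc (a :: l) ≠ [] := by
  rw [enc_cons]; exact pair_ne_nil _ _

theorem enc_flatten (L : List (List α)) : enc L.flatten = (L.map enc).flatten := by
  induction L with
  | nil => simp
  | cons a L ih => simp [enc_append, ih]

theorem length_enc (a : α) : (enc a).length = sz a := rfl

end enc

/-! ### processing one cell -/

/-- body of the cell loop -/
def cellBody (a b f : ℕ) (h : Bool → List Bool) (e : List Bool) : Cmd :=
  .ite a (.pop f)
    (.seq (.pop a)
      (.ite a .skip (.seq (.pop a) (pushAll b (h true))) (.seq (.pop a) (pushAll b (h false)))))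
    (.seq (.pop a) (.seq (pushAll b e) (.pop f)))

/-- Remove the first cell from stack `a`; push `h c` on stack `b` for each of its data bits `c` and
`e` at its end. Stack `f` is an auxiliary flag (empty before and after). -/
def cellMap (a b f : ℕ) (h : Bool → List Bool) (e : List Bool) : Cmd :=
  .seq (.push f true) (.loop f (cellBody a b f h e))

theorem run_cellLoop {a b f : ℕ} (hab : a ≠ b) (haf : a ≠ f) (hbf : b ≠ f)
    (h : Bool → List Bool) (e : List Bool) (x r : List Bool) (S : Store)
    (hS : S a = pair x r) (hf : S f = [true]) :
    Run (.loop f (cellBody a b f h e)) S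
      (update (update (update S a r) b (e ++ (x.reverse.flatMap h ++ S b))) f [])
      (((h true).length + (h false).length + 6) * x.length + e.length + 6) := by
  induction x generalizing S with
  | nil =>
    have hne : S f ≠ [] := by rw [hf]; simp
    rw [pair_nil] at hS
    set S' : Store := update (update (update S a r) b (e ++ S b)) f [] with hS'
    have hbody : Run (cellBody a b f h e) S S' (1 + (1 + ((e.length + 1) + 1))) := by
      refine Run.ite_false hS (((run_pop a S).seq ((run_pushAll b e _).seq (run_pop f _))).of_eq
        ?_ le_rfl)
      rw [hS', hS]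
      simp [hab.symm, haf.symm, hbf.symm, hf]
    refine (Run.loop_cons hne hbody (Run.loop_nil (by simp [hS']))).of_eq ?_ ?_
    · simp [hS']
    · simp; omega
  | cons c x ih =>
    have hne : S f ≠ [] := by rw [hf]; simp
    rw [pair_cons] at hS
    set S' : Store := update (update S a (pair x r)) b (h c ++ S b) with hS'
    have hbody : Run (cellBody a b f h e) S S'
        (1 + (1 + ((h true).length + (h false).length + 3))) := by
      refine Run.ite_true hS ((run_pop a S).seq ?_)
      have h1 : (update S a (S a).tail) a = c :: pair x r := by simp [hS]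
      have e1 : update (update (update S a (S a).tail) a ((update S a (S a).tail) a).tail) b
          (h c ++ (update (update S a (S a).tail) a ((update S a (S a).tail) a).tail) b) = S' := by
        rw [h1, hS']
        simp [hab.symm]
      cases c
      · exact (Run.ite_false (n := 1 + ((h false).length + 1)) h1
          (((run_pop a _).seq (run_pushAll b (h false) _)).of_eq e1 le_rfl)).mono (by omega)
      · exact (Run.ite_true (n := 1 + ((h true).length + 1)) h1
          (((run_pop a _).seq (run_pushAll b (h true) _)).of_eq e1 le_rfl)).mono (by omega)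
    have h2 := ih S' (by simp [hS', hab]) (by simp [hS', haf.symm, hbf.symm, hf])
    refine (Run.loop_cons hne hbody h2).of_eq ?_ ?_
    · funext j
      by_cases h1 : j = f
      · subst h1; simp
      · by_cases h2 : j = b
        · subst h2; simp [h1, hS']
        · by_cases h3 : j = a
          · subst h3; simp [h1, hab]
          · simp [h1, h2, h3, hS']
    · simp only [List.length_cons]
      ring_nf
      omega

theorem run_cellMap {a b f : ℕ} (hab : a ≠ b) (haf : a ≠ f) (hbf : b ≠ f)
    (h : Bool → List Bool) (e : List Bool) (x r : List Bool) (S : Store)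
    (hS : S a = pair x r) (hf : S f = []) :
    Run (cellMap a b f h e) S
      (update (update S a r) b (e ++ (x.reverse.flatMap h ++ S b)))
      (((h true).length + (h false).length + 6) * x.length + e.length + 7) := by
  have h1 := run_push f true S
  have h2 := run_cellLoop hab haf hbf h e x r (update S f (true :: S f))
    (by simp [haf, hS]) (by simp [hf])
  refine (h1.seq h2).of_eq ?_ (by omega)
  funext j
  by_cases h1 : j = f
  · subst h1; simp [hbf.symm, haf.symm, hf]
  · by_cases h2 : j = b
    · subst h2; simp [h1]
    · by_cases h3 : j = a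
      · subst h3; simp [h1, hab]
      · simp [h1, h2, h3]

/-- move one cell, raw and reversed, from stack `a` to stack `b` -/
def mvCell (a b f : ℕ) : Cmd := cellMap a b f (fun c => [c, true]) [false]

theorem run_mvCell {a b f : ℕ} (hab : a ≠ b) (haf : a ≠ f) (hbf : b ≠ f)
    (x r : List Bool) (S : Store) (hS : S a = pair x r) (hf : S f = []) :
    Run (mvCell a b f) S (update (update S a r) b ((cell x).reverse ++ S b))
      (10 * x.length + 8) := by
  refine (run_cellMap hab haf hbf _ _ x r S hS hf).of_eq ?_ (by simp)
  rw [reverse_cell]
  rfl

/-- parsing a pair: second component on stack `0`, reversed first component on stack `1` -/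
theorem run_parse_pair (x y : List Bool) :
    Run parse (init (pair x y)) (st4 y x.reverse [] []) (6 * (pair x y).length + 7) := by
  refine (run_parse (pair x y)).of_eq ?_ le_rfl
  funext j
  rcases j with _ | _ | _ | _ | j <;> simp [st3, st4]

/-- branching on a nonempty stack with equal branches -/
theorem run_ite_ne {k : ℕ} {e c : Cmd} {s s' : Store} {n : ℕ} (hk : s k ≠ [])
    (h : Run c s s' n) : Run (Cmd.ite k e c c) s s' (1 + n) := by
  obtain ⟨b, l, hl⟩ := List.exists_cons_of_ne_nil hk
  cases b
  · exact Run.ite_false hl h
  · exact Run.ite_true hl h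

section progs

variable {α β : Type} [PTCode α] [PTCode β]

/-! ### append -/

/-- program for `append` -/
def appendP : Cmd := .seq parse (mv 1 0)

theorem run_append (p : List α × List α) :
    Run appendP (init (enc p)) (init (enc (p.1 ++ p.2))) (10 * sz p + 8) := by
  rw [enc_prod]
  refine ((run_parse_pair _ _).seq (run_mv (by decide) _)).of_eq ?_ ?_
  · simp [init_eq_st4, enc_append]
  · simp [length_enc]; omega

/-! ### reverse -/

/-- program for `reverse` -/
def reverseP : Cmd :=
  .seq (.loop 0 (.seq (mvCell 0 1 3) (mv 1 2))) (.seq (mv 2 1) (mv 1 0))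

theorem run_reverse_loop (l : List α) (acc : List Bool) :
    Run (.loop 0 (.seq (mvCell 0 1 3) (mv 1 2))) (st4 (enc l) [] acc [])
      (st4 [] [] (enc l.reverse ++ acc) []) (14 * sz l + 1) := by
  induction l generalizing acc with
  | nil => exact (Run.loop_nil rfl).of_eq (by simp) (by simp)
  | cons a l ih =>
    have h1 : Run (mvCell 0 1 3) (st4 (enc (a :: l)) [] acc [])
        (st4 (enc l) (cell (enc a)).reverse acc []) (10 * sz a + 8) :=
      (run_mvCell (by decide) (by decide) (by decide) (enc a) (enc l) _ rfl rfl).of_eq
        (by simp) le_rfl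
    have h2 : Run (mv 1 2) (st4 (enc l) (cell (enc a)).reverse acc [])
        (st4 (enc l) [] (cell (enc a) ++ acc) []) (4 * (2 * sz a + 1) + 1) :=
      (run_mv (by decide) _).of_eq (by simp) (by simp [length_enc])
    refine (Run.loop_cons (k := 0) (enc_cons_ne_nil a l) (h1.seq h2) (ih _)).of_eq ?_ ?_
    · simp [enc_append, pair_eq_cell]
    · simp; omega

theorem run_reverse (l : List α) :
    Run reverseP (init (enc l)) (init (enc l.reverse)) (22 * sz l + 3) := by
  rw [init_eq_st4]
  refine ((run_reverse_loop l []).seq ((run_mv (by decide) _).seq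
    (run_mv (by decide) _))).of_eq ?_ ?_
  · simp [init_eq_st4]
  · simp [length_enc, sz_reverse]; omega

/-! ### a loop over all cells -/

/-- process all cells of stack `0`, collecting the (reversed) output on stack `1` -/
def allCells (h : Bool → List Bool) (e : List Bool) : Cmd :=
  .seq (.loop 0 (cellMap 0 1 2 h e)) (mv 1 0)

theorem run_allCells_loop (h : Bool → List Bool) (e : List Bool) (l : List α) (acc : List Bool) :
    Run (.loop 0 (cellMap 0 1 2 h e)) (st4 (enc l) acc [] [])
      (st4 [] (l.reverse.flatMap (fun a => e ++ (enc a).reverse.flatMap h) ++ acc) [] [])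
      (((h true).length + (h false).length + e.length + 8) * sz l + 1) := by
  induction l generalizing acc with
  | nil => exact (Run.loop_nil rfl).of_eq (by simp) (by simp)
  | cons a l ih =>
    have h1 : Run (cellMap 0 1 2 h e) (st4 (enc (a :: l)) acc [] [])
        (st4 (enc l) (e ++ ((enc a).reverse.flatMap h ++ acc)) [] [])
        (((h true).length + (h false).length + 6) * sz a + e.length + 7) :=
      (run_cellMap (by decide) (by decide) (by decide) h e (enc a) (enc l) _ rfl rfl).of_eq
        (by simp) le_rfl
    refine (Run.loop_cons (k := 0) (enc_cons_ne_nil a l) h1 (ih _)).of_eq ?_ ?_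
    · simp
    · simp only [sz_cons]
      ring_nf
      omega

/-! ### flatten -/

/-- program for `flatten` -/
def flattenP : Cmd := allCells (fun c => [c]) []

theorem run_flatten (L : List (List α)) :
    Run flattenP (init (enc L)) (init (enc L.flatten)) (14 * sz L + 2) := by
  rw [init_eq_st4]
  have e : L.reverse.flatMap (fun a => [] ++ (enc a).reverse.flatMap (fun c => [c])) =
      (enc L.flatten).reverse := by
    induction L with
    | nil => simp
    | cons a L ih => simp [enc_append] at ih ⊢; rw [ih]
  have hl : sz L.flatten ≤ sz L := by
    clear e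
    induction L with
    | nil => simp
    | cons a L ih => simp [sz_append]; omega
  refine ((run_allCells_loop _ _ L []).seq (run_mv (by decide) _)).of_eq ?_ ?_
  · rw [e]; simp [init_eq_st4]
  · rw [e]; simp [length_enc]; omega

/-! ### length -/

/-- program for the unary length -/
def lengthP : Cmd := allCells (fun _ => []) [true]

theorem run_length (l : List α) :
    Run lengthP (init (enc l)) (init (enc (Un.mk l.length))) (13 * sz l + 2) := by
  rw [init_eq_st4]
  have e : l.reverse.flatMap (fun a => [true] ++ (enc a).reverse.flatMap (fun _ => [])) =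
      List.replicate l.length true := by
    have e0 : ∀ y : List Bool, y.flatMap (fun _ => ([] : List Bool)) = [] := by simp
    simp only [e0, List.append_nil]
    induction l with
    | nil => simp
    | cons a l ih => simp [ih, List.replicate_succ']
  have hl := length_le_sz l
  refine ((run_allCells_loop _ _ l []).seq (run_mv (by decide) _)).of_eq ?_ ?_
  · rw [e]; simp [init_eq_st4]
  · rw [e]; simp; omega

/-! ### zip -/

/-- one round of `zip` -/
def zipBody : Cmd :=
  .seq (cellMap 2 3 1 (fun c => [c, true, true, true]) [false, true]) (mvCell 0 3 1)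

/-- program for `zip` -/
def zipP : Cmd :=
  .seq parse (.seq (mv 1 2) (.seq (.loop 2 (.ite 0 (clear 2) zipBody zipBody))
    (.seq (clear 0) (mv 3 0))))

theorem run_zip_loop (l : List α) (m : List β) (acc : List Bool) :
    Run (.loop 2 (.ite 0 (clear 2) zipBody zipBody)) (st4 (enc m) [] (enc l) acc)
      (st4 (enc (m.drop l.length)) [] [] ((enc (l.zip m)).reverse ++ acc))
      (20 * sz l + 5 * sz m + 4) := by
  induction l generalizing m acc with
  | nil => exact (Run.loop_nil rfl).of_eq (by simp) (by simp)
  | cons a l ih =>
    cases m with
    | nil =>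
      have h1 : Run (clear 2) (st4 (enc ([] : List β)) [] (enc (a :: l)) acc)
          (st4 [] [] [] acc) (2 * sz (a :: l) + 1) :=
        (run_clear 2 _).of_eq (by simp) le_rfl
      refine (Run.loop_cons (k := 2) (enc_cons_ne_nil a l) (Run.ite_nil rfl h1)
        (Run.loop_nil rfl)).of_eq (by simp) ?_
      omega
    | cons b m =>
      have h1 : Run (cellMap 2 3 1 (fun c => [c, true, true, true]) [false, true])
          (st4 (enc (b :: m)) [] (enc (a :: l)) acc)
          (st4 (enc (b :: m)) [] (enc l) ((dbl (cell (enc a))).reverse ++ acc))
          (14 * sz a + 9) := by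
        refine (run_cellMap (by decide) (by decide) (by decide) _ _ (enc a) (enc l) _ rfl
          rfl).of_eq ?_ (by simp [length_enc])
        rw [reverse_dbl_cell]
        simp
      have h2 : Run (mvCell 0 3 1)
          (st4 (enc (b :: m)) [] (enc l) ((dbl (cell (enc a))).reverse ++ acc))
          (st4 (enc m) [] (enc l)
            ((cell (enc b)).reverse ++ ((dbl (cell (enc a))).reverse ++ acc)))
          (10 * sz b + 8) :=
        (run_mvCell (by decide) (by decide) (by decide) (enc b) (enc m) _ rfl rfl).of_eq
          (by simp) le_rfl
      refine (Run.loop_cons (k := 2) (enc_cons_ne_nil a l)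
        (run_ite_ne (k := 0) (enc_cons_ne_nil b m) (h1.seq h2)) (ih m _)).of_eq ?_ ?_
      · have e : enc ((a, b) :: l.zip m) =
            dbl (cell (enc a)) ++ (cell (enc b) ++ enc (l.zip m)) := by
          rw [enc_cons', enc_prod, pair_eq_cell]
          simp [cell, dbl]
        simp [e]
      · simp; omega

theorem sz_zip_le (l : List α) (m : List β) : sz (l.zip m) ≤ 3 * sz l + sz m := by
  induction l generalizing m with
  | nil => simp
  | cons a l ih =>
    cases m with
    | nil => simp
    | cons b m => have := ih m; simp; omega

theorem run_zip (p : List α × List β) :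
    Run zipP (init (enc p)) (init (enc (p.1.zip p.2))) (30 * sz p + 20) := by
  obtain ⟨l, m⟩ := p
  rw [enc_prod]
  have h1 := run_parse_pair (enc l) (enc m)
  have h2 : Run (mv 1 2) (st4 (enc m) (enc l).reverse [] []) (st4 (enc m) [] (enc l) [])
      (4 * sz l + 1) := (run_mv (by decide) _).of_eq (by simp) (by simp [length_enc])
  have h3 := run_zip_loop l m []
  have h4 : Run (clear 0) (st4 (enc (m.drop l.length)) [] [] ((enc (l.zip m)).reverse ++ []))
      (st4 [] [] [] (enc (l.zip m)).reverse) (2 * sz (m.drop l.length) + 1) :=
    (run_clear 0 _).of_eq (by simp) le_rfl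
  have h5 : Run (mv 3 0) (st4 [] [] [] (enc (l.zip m)).reverse) (init (enc (l.zip m)))
      (4 * sz (l.zip m) + 1) :=
    (run_mv (by decide) _).of_eq (by simp [init_eq_st4]) (by simp [length_enc])
  refine (h1.seq (h2.seq (h3.seq (h4.seq h5)))).mono ?_
  have b1 := sz_zip_le l m
  have b2 := sz_drop_le m l.length
  simp [length_enc]
  omega

/-! ### replicate -/

/-- program for `replicate` -/
def replicateP : Cmd :=
  .seq parse (.seq (mvMap 0 2 (fun c => [c, true])) (.seq (.push 2 false)
    (.seq (.loop 1 (.seq (.pop 1) (.seq (mv2 2 0 3) (mv 3 2)))) (clear 2))))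

theorem run_replicate_loop (a : α) (n : ℕ) (acc : List Bool) :
    Run (.loop 1 (.seq (.pop 1) (.seq (mv2 2 0 3) (mv 3 2))))
      (st4 acc (List.replicate n true) (cell (enc a)).reverse [])
      (st4 (enc (List.replicate n a) ++ acc) [] (cell (enc a)).reverse [])
      (n * (18 * sz a + 13) + 1) := by
  induction n generalizing acc with
  | zero => exact (Run.loop_nil rfl).of_eq (by simp) (by simp)
  | succ n ih =>
    have h1 : Run (.pop 1) (st4 acc (List.replicate (n + 1) true) (cell (enc a)).reverse [])
        (st4 acc (List.replicate n true) (cell (enc a)).reverse []) 1 :=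
      (run_pop 1 _).of_eq (by simp [List.replicate_succ]) le_rfl
    have h2 : Run (mv2 2 0 3) (st4 acc (List.replicate n true) (cell (enc a)).reverse [])
        (st4 (cell (enc a) ++ acc) (List.replicate n true) [] (cell (enc a)))
        (5 * (2 * sz a + 1) + 1) :=
      (run_mv2 (by decide) (by decide) (by decide) _).of_eq (by simp) (by simp [length_enc])
    have h3 : Run (mv 3 2) (st4 (cell (enc a) ++ acc) (List.replicate n true) [] (cell (enc a)))
        (st4 (cell (enc a) ++ acc) (List.replicate n true) (cell (enc a)).reverse [])
        (4 * (2 * sz a + 1) + 1) :=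
      (run_mv (by decide) _).of_eq (by simp) (by simp [length_enc])
    refine (Run.loop_cons (k := 1) (by simp) (h1.seq (h2.seq h3)) (ih _)).of_eq ?_ ?_
    · rw [List.replicate_succ', enc_append]
      simp [pair_eq_cell]
    · ring_nf
      omega

theorem run_replicate (p : Un × α) :
    Run replicateP (init (enc p)) (init (enc (List.replicate p.1.val p.2)))
      (18 * (p.1.val * (sz p.2 + 1)) + 18 * sz p + 13) := by
  obtain ⟨⟨n⟩, a⟩ := p
  rw [enc_prod, enc_un]
  have h1 := run_parse_pair (List.replicate n true) (enc a)
  have h2 : Run (mvMap 0 2 (fun c => [c, true]))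
      (st4 (enc a) (List.replicate n true).reverse [] [])
      (st4 [] (List.replicate n true) ((enc a).reverse.flatMap (fun c => [c, true])) [])
      (8 * sz a + 1) :=
    (run_mvMap (by decide) _ _).of_eq (by simp) (by simp [length_enc])
  have h3 : Run (.push 2 false)
      (st4 [] (List.replicate n true) ((enc a).reverse.flatMap (fun c => [c, true])) [])
      (st4 [] (List.replicate n true) (cell (enc a)).reverse []) 1 :=
    (run_push 2 false _).of_eq (by simp [reverse_cell]) le_rfl
  have h4 := run_replicate_loop a n []
  have h5 : Run (clear 2) (st4 (enc (List.replicate n a) ++ []) [] (cell (enc a)).reverse [])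
      (init (enc (List.replicate n a))) (2 * (2 * sz a + 1) + 1) :=
    (run_clear 2 _).of_eq (by simp [init_eq_st4]) (by simp [length_enc])
  refine (h1.seq (h2.seq (h3.seq (h4.seq h5)))).mono ?_
  simp [length_enc]
  ring_nf
  omega

/-! ### take and drop -/

/-- program for `splitAt` with a unary counter -/
def splitP : Cmd :=
  .seq parse (.seq (.loop 1 (.seq (.pop 1) (.ite 0 .skip (mvCell 0 2 3) (mvCell 0 2 3))))
    (.seq (.push 0 false) (mvMap 2 0 (fun c => [true, c]))))

theorem run_split_loop (n : ℕ) (l : List α) (acc : List Bool) :
    Run (.loop 1 (.seq (.pop 1) (.ite 0 .skip (mvCell 0 2 3) (mvCell 0 2 3))))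
      (st4 (enc l) (List.replicate n true) acc [])
      (st4 (enc (l.drop n)) [] ((enc (l.take n)).reverse ++ acc) [])
      (11 * n + 5 * sz l + 1) := by
  induction n generalizing l acc with
  | zero => exact (Run.loop_nil rfl).of_eq (by simp) (by simp)
  | succ n ih =>
    have h1 : Run (.pop 1) (st4 (enc l) (List.replicate (n + 1) true) acc [])
        (st4 (enc l) (List.replicate n true) acc []) 1 :=
      (run_pop 1 _).of_eq (by simp [List.replicate_succ]) le_rfl
    cases l with
    | nil =>
      have h2 : Run (.ite 0 .skip (mvCell 0 2 3) (mvCell 0 2 3))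
          (st4 (enc ([] : List α)) (List.replicate n true) acc [])
          (st4 (enc ([] : List α)) (List.replicate n true) acc []) (1 + 1) :=
        Run.ite_nil rfl (run_skip _)
      refine (Run.loop_cons (k := 1) (by simp) (h1.seq h2) (ih [] acc)).of_eq (by simp) ?_
      omega
    | cons a l =>
      have h2 : Run (mvCell 0 2 3) (st4 (enc (a :: l)) (List.replicate n true) acc [])
          (st4 (enc l) (List.replicate n true) ((cell (enc a)).reverse ++ acc) [])
          (10 * sz a + 8) :=
        (run_mvCell (by decide) (by decide) (by decide) (enc a) (enc l) _ rfl rfl).of_eq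
          (by simp) le_rfl
      refine (Run.loop_cons (k := 1) (by simp) (h1.seq (run_ite_ne (k := 0) (enc_cons_ne_nil a l) h2))
        (ih l _)).of_eq ?_ ?_
      · simp [pair_eq_cell]
      · simp; omega

theorem run_split (p : Un × List α) :
    Run splitP (init (enc p)) (init (enc (p.2.take p.1.val, p.2.drop p.1.val)))
      (20 * sz p + 10) := by
  obtain ⟨⟨n⟩, l⟩ := p
  rw [enc_prod, enc_un]
  have h1 : Run parse (init (pair (List.replicate n true) (enc l)))
      (st4 (enc l) (List.replicate n true) [] []) (6 * (2 * n + 1 + sz l) + 7) :=
    (run_parse_pair _ _).of_eq (by simp) (by simp [length_enc])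
  have h2 := run_split_loop n l []
  have h3 : Run (.push 0 false) (st4 (enc (l.drop n)) [] ((enc (l.take n)).reverse ++ []) [])
      (st4 (false :: enc (l.drop n)) [] (enc (l.take n)).reverse []) 1 :=
    (run_push 0 false _).of_eq (by simp) le_rfl
  have h4 : Run (mvMap 2 0 (fun c => [true, c]))
      (st4 (false :: enc (l.drop n)) [] (enc (l.take n)).reverse [])
      (init (enc (l.take n, l.drop n))) (8 * sz (l.take n) + 1) :=
    (run_mvMap (by decide) _ _).of_eq (by simp [init_eq_st4, pair])
      (by simp [length_enc])
  refine (h1.seq (h2.seq (h3.seq h4))).mono ?_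
  have b1 := sz_take_le l n
  simp
  omega

end progs

end Crest.Agent.X326.ListRun
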