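import Crest.Agent.X326.TC.MapAccum
import Crest.Agent.X326.TC.Cases
import Crest.Agent.X326.TC.TU

/-!
# map, flatMap, filter, foldl, iterate, scan in the time calculus

Three flavours of every combinator:
* `…Ctx`: the function sees a context `c x`, which is copied once per element
  (cost `∑ S (c x, a) + length * sz (c x)`);
* primed (`map'`, …): no context, arbitrary domain `Q` and cost `S` (cost `∑ S a`);
* plain (`map`, …): no context, linear-time function; these are `fun_prop` rules.
-/

set_option autoImplicit false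
set_option linter.dupNamespace false

namespace Crest.Agent.X326

open Crest.Agent.Lib.PT Function

section pure

variable {σ κ α β : Type}

theorem accumL_ctx (f : κ × α → List β) (c : κ) (l : List α) :
    accumL (fun q : κ × α => (q.1, f q)) c l = (c, l.flatMap (fun a => f (c, a))) := by
  induction l with
  | nil => rfl
  | cons a l ih => simp [ih]

theorem accOK_ctx (f : κ × α → List β) (Q : κ × α → Prop) (c : κ) (l : List α)
    (h : ∀ a ∈ l, Q (c, a)) : AccOK (fun q : κ × α => (q.1, f q)) Q c l := by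
  induction l with
  | nil => trivial
  | cons a l ih => exact ⟨h a (by simp), ih (fun b hb => h b (by simp [hb]))⟩

theorem accSum_ctx (f : κ × α → List β) (g : κ × α → ℕ) (c : κ) (l : List α) :
    accSum (fun q : κ × α => (q.1, f q)) g c l = (l.map (fun a => g (c, a))).sum := by
  induction l with
  | nil => rfl
  | cons a l ih => simp [ih]

theorem sum_map_add_const (l : List α) (g : α → ℕ) (n : ℕ) :
    (l.map (fun a => g a + n)).sum = (l.map g).sum + l.length * n := by
  induction l with
  | nil => simp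
  | cons a l ih => simp only [List.map_cons, List.sum_cons, ih, List.length_cons]; ring

theorem sum_map_le_of_le (l : List α) {g g' : α → ℕ} (h : ∀ a ∈ l, g a ≤ g' a) :
    (l.map g).sum ≤ (l.map g').sum := by
  induction l with
  | nil => simp
  | cons a l ih =>
    have h1 := h a (by simp)
    have h2 := ih (fun b hb => h b (by simp [hb]))
    simp only [List.map_cons, List.sum_cons]
    omega

theorem sum_map_le_length_mul (l : List α) {g : α → ℕ} {n : ℕ} (h : ∀ a ∈ l, g a ≤ n) :
    (l.map g).sum ≤ l.length * n := by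
  have := sum_map_le_of_le l (g' := fun _ => 0 + n) (fun a ha => by simpa using h a ha)
  rw [sum_map_add_const] at this
  simpa using this

/-- all the steps of a fold are in the domain `Q` -/
def FoldOK (f : σ → α → σ) (Q : σ × α → Prop) : σ → List α → Prop
  | _, [] => True
  | s, a :: l => Q (s, a) ∧ FoldOK f Q (f s a) l

/-- sum of `g` over all the steps of a fold -/
def foldSum (f : σ → α → σ) (g : σ × α → ℕ) : σ → List α → ℕ
  | _, [] => 0
  | s, a :: l => g (s, a) + foldSum f g (f s a) l

@[simp] theorem foldOK_nil (f : σ → α → σ) (Q : σ × α → Prop) (s : σ) : FoldOK f Q s [] := trivial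

@[simp] theorem foldOK_cons (f : σ → α → σ) (Q : σ × α → Prop) (s : σ) (a : α) (l : List α) :
    FoldOK f Q s (a :: l) ↔ Q (s, a) ∧ FoldOK f Q (f s a) l := Iff.rfl

@[simp] theorem foldSum_nil (f : σ → α → σ) (g : σ × α → ℕ) (s : σ) : foldSum f g s [] = 0 := rfl

@[simp] theorem foldSum_cons (f : σ → α → σ) (g : σ × α → ℕ) (s : σ) (a : α) (l : List α) :
    foldSum f g s (a :: l) = g (s, a) + foldSum f g (f s a) l := rfl

theorem accOK_iff_foldOK (f : σ × α → σ × List β) (Q : σ × α → Prop) (s : σ) (l : List α) :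
    AccOK f Q s l ↔ FoldOK (fun s a => (f (s, a)).1) Q s l := by
  induction l generalizing s with
  | nil => simp
  | cons a l ih => simp [ih]

theorem accSum_eq_foldSum (f : σ × α → σ × List β) (g : σ × α → ℕ) (s : σ) (l : List α) :
    accSum f g s l = foldSum (fun s a => (f (s, a)).1) g s l := by
  induction l generalizing s with
  | nil => simp
  | cons a l ih => simp [ih]

theorem foldOK_of_inv {f : σ → α → σ} {Q : σ × α → Prop} (I : σ → List α → Prop)
    (hI : ∀ s a l, I s (a :: l) → Q (s, a) ∧ I (f s a) l) {s : σ} {l : List α}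
    (h : I s l) : FoldOK f Q s l := by
  induction l generalizing s with
  | nil => trivial
  | cons a l ih => exact ⟨(hI s a l h).1, ih (hI s a l h).2⟩

theorem foldSum_le_of_potential {f : σ → α → σ} {g : σ × α → ℕ}
    (I : σ → List α → Prop) (Φ : σ → List α → ℕ)
    (hI : ∀ s a l, I s (a :: l) → g (s, a) + Φ (f s a) l ≤ Φ s (a :: l) ∧ I (f s a) l)
    {s : σ} {l : List α} (h : I s l) : foldSum f g s l ≤ Φ s l := by
  induction l generalizing s with
  | nil => simp
  | cons a l ih =>
    have h1 := hI s a l h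
    have h2 := ih h1.2
    simp only [foldSum_cons]
    omega

/-- the domain condition of a fold, by positions -/
theorem foldOK_iff (f : σ → α → σ) (Q : σ × α → Prop) (s : σ) (l : List α) :
    FoldOK f Q s l ↔ ∀ (i : ℕ) (hi : i < l.length), Q ((l.take i).foldl f s, l[i]) := by
  induction l generalizing s with
  | nil => simp
  | cons a l ih =>
    rw [foldOK_cons, ih]
    constructor
    · rintro ⟨h0, h1⟩ i hi
      cases i with
      | zero => simpa using h0
      | succ i => simpa using h1 i (by simpa using hi)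
    · intro h
      exact ⟨h 0 (by simp), fun i hi => h (i + 1) (by simpa using hi)⟩

theorem foldl_replicate_unit (f : σ → σ) (s : σ) (n : ℕ) :
    (List.replicate n ()).foldl (fun s _ => f s) s = f^[n] s := by
  induction n generalizing s with
  | zero => rfl
  | succ n ih => simp [List.replicate_succ, ih]

theorem foldSum_replicate_unit (f : σ → σ) (g : σ → ℕ) (s : σ) (n : ℕ) :
    foldSum (fun s (_ : Unit) => f s) (fun q => g q.1) s (List.replicate n ()) =
      ∑ i ∈ Finset.range n, g (f^[i] s) := by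
  induction n generalizing s with
  | zero => rfl
  | succ n ih =>
    rw [List.replicate_succ, foldSum_cons, ih, Finset.sum_range_succ']
    simp [add_comm]

/-- `mapAccum`: one output per element -/
def mapAcc (f : σ → α → σ × β) : σ → List α → List β
  | _, [] => []
  | s, a :: l => (f s a).2 :: mapAcc f (f s a).1 l

@[simp] theorem mapAcc_nil (f : σ → α → σ × β) (s : σ) : mapAcc f s [] = [] := rfl

@[simp] theorem mapAcc_cons (f : σ → α → σ × β) (s : σ) (a : α) (l : List α) :
    mapAcc f s (a :: l) = (f s a).2 :: mapAcc f (f s a).1 l := rfl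

@[simp] theorem length_mapAcc (f : σ → α → σ × β) (s : σ) (l : List α) :
    (mapAcc f s l).length = l.length := by
  induction l generalizing s with
  | nil => rfl
  | cons a l ih => simp [ih]

theorem getElem_mapAcc (f : σ → α → σ × β) (s : σ) (l : List α) (i : ℕ)
    (hi : i < (mapAcc f s l).length) :
    (mapAcc f s l)[i] = (f ((l.take i).foldl (fun s a => (f s a).1) s)
      (l[i]'(by simpa using hi))).2 := by
  induction l generalizing s i with
  | nil => simp at hi
  | cons a l ih =>
    cases i with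
    | zero => simp
    | succ i => simp [ih]

theorem accumL_singleton (f : σ → α → σ × β) (s : σ) (l : List α) :
    (accumL (fun q : σ × α => ((f q.1 q.2).1, [(f q.1 q.2).2])) s l).2 = mapAcc f s l := by
  induction l generalizing s with
  | nil => rfl
  | cons a l ih => simp [ih]

end pure

variable {γ σ κ α β : Type} [PTCode γ] [PTCode σ] [PTCode κ] [PTCode α] [PTCode β]
  {P : γ → Prop} {T : γ → ℕ}

theorem sum_map_sz_le (l : List α) : (l.map sz).sum ≤ sz l := by
  have := ma_sum_sz_le l
  rw [sum_map_add_const] at this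
  omega

/-- `length` is within every budget that pays for the list -/
theorem TC.bud_length {l : γ → List α} (hl : TC P T l) : Bud P T (fun x => (l x).length) :=
  hl.sz.mono (fun x _ => length_le_sz (l x))

/-- a sum of per-element costs `≤ B x + C * sz a` -/
theorem Bud.sum_map {l : γ → List α} (hl : Bud P T (fun x => Lib.PT.sz (l x))) {g : γ → α → ℕ}
    (B : γ → ℕ) (C : ℕ) (h : ∀ x, P x → ∀ a ∈ l x, g x a ≤ B x + C * Lib.PT.sz a)
    (hB : Bud P T (fun x => (l x).length * B x)) :
    Bud P T (fun x => ((l x).map (g x)).sum) := by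
  refine (hB.add (hl.const_mul C)).mono (fun x hx => ?_)
  have h1 := sum_map_le_of_le (l x) (g := g x) (g' := fun a => C * Lib.PT.sz a + B x)
    (fun a ha => by have := h x hx a ha; omega)
  rw [sum_map_add_const, List.sum_map_mul_left] at h1
  have h2 := Nat.mul_le_mul_left C (sum_map_sz_le (l x))
  omega

/-! ### with a context -/

section ctx

variable {Q : κ × α → Prop} {S : κ × α → ℕ} {c : γ → κ} {l : γ → List α}

/-- `flatMap` with a context -/
theorem TC.flatMapCtx {f : κ → α → List β} (hf : TC Q S (fun q => f q.1 q.2)) (hc : TC P T c)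
    (hl : TC P T l) (hQ : ∀ x, P x → ∀ a ∈ l x, Q (c x, a))
    (hS : Bud P T (fun x => ((l x).map (fun a => S (c x, a))).sum))
    (hC : Bud P T (fun x => (l x).length * Lib.PT.sz (c x))) :
    TC P T (fun x => (l x).flatMap (f (c x))) := by
  have h1 : TC Q S (fun q : κ × α => (q.1, f q.1 q.2)) := (TC.fst TC.id).prodMk hf
  refine (TC.snd (h1.accumL hc hl (fun x hx => accOK_ctx _ Q _ _ (hQ x hx))
    ((hS.add hC).mono (fun x _ => ?_)))).of_eq (fun x => ?_)
  · rw [accSum_ctx (fun q : κ × α => f q.1 q.2)]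
    exact (sum_map_add_const (l x) (fun a => S (c x, a)) (Lib.PT.sz (c x))).le
  · rw [accumL_ctx (fun q : κ × α => f q.1 q.2)]

/-- `map` with a context -/
theorem TC.mapCtx {f : κ → α → β} (hf : TC Q S (fun q => f q.1 q.2)) (hc : TC P T c)
    (hl : TC P T l) (hQ : ∀ x, P x → ∀ a ∈ l x, Q (c x, a))
    (hS : Bud P T (fun x => ((l x).map (fun a => S (c x, a))).sum))
    (hC : Bud P T (fun x => (l x).length * Lib.PT.sz (c x))) :
    TC P T (fun x => (l x).map (f (c x))) :=
  (TC.flatMapCtx (f := fun k a => [f k a]) (hf.listCons (TC.const [])) hc hl hQ hS hC).of_eq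
    (fun x => by induction l x <;> simp_all)

/-- `filterMap` with a context -/
theorem TC.filterMapCtx {f : κ → α → Option β} (hf : TC Q S (fun q => f q.1 q.2))
    (hc : TC P T c) (hl : TC P T l) (hQ : ∀ x, P x → ∀ a ∈ l x, Q (c x, a))
    (hS : Bud P T (fun x => ((l x).map (fun a => S (c x, a))).sum))
    (hC : Bud P T (fun x => (l x).length * Lib.PT.sz (c x))) :
    TC P T (fun x => (l x).filterMap (f (c x))) := by
  have h0 : Lin (fun o : Option β => o.toList) :=
    (TC.optionCases (s := fun o : Option β => o) (f := fun _ => ([] : List β))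
      (g := fun _ b => [b]) TC.id (TC.const _) ((TC.snd TC.id).listCons (TC.const _))).of_eq
      (fun o => by cases o <;> rfl)
  exact (TC.flatMapCtx (f := fun k a => (f k a).toList) (TC.comp_lin h0 hf) hc hl hQ hS hC).of_eq
    (fun x => by rw [List.filterMap_eq_flatMap_toList])

/-- `filter` with a context -/
theorem TC.filterCtx {f : κ → α → Bool} (hf : TC Q S (fun q => f q.1 q.2))
    (hc : TC P T c) (hl : TC P T l) (hQ : ∀ x, P x → ∀ a ∈ l x, Q (c x, a))
    (hS : Bud P T (fun x => ((l x).map (fun a => S (c x, a))).sum))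
    (hC : Bud P T (fun x => (l x).length * Lib.PT.sz (c x))) :
    TC P T (fun x => (l x).filter (f (c x))) := by
  have h1 : TC Q S (fun q : κ × α => bif f q.1 q.2 then [q.2] else []) :=
    TC.cond hf ((TC.snd TC.id).listCons (TC.const _)) (TC.const _)
  refine (TC.flatMapCtx (f := fun k a => bif f k a then [a] else []) h1 hc hl hQ hS hC).of_eq
    (fun x => ?_)
  induction l x with
  | nil => rfl
  | cons a r ih =>
    rw [List.flatMap_cons, ih, List.filter_cons]
    cases f (c x) a <;> simp

/-- `map` with a context: every call costs at most `B x + C * sz a` -/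
theorem TC.mapCtx_le {f : κ → α → β} (hf : TC Q S (fun q => f q.1 q.2)) (hc : TC P T c)
    (hl : TC P T l) (B : γ → ℕ) (C : ℕ)
    (hQ : ∀ x, P x → ∀ a ∈ l x, Q (c x, a) ∧ S (c x, a) ≤ B x + C * Lib.PT.sz a)
    (hB : Bud P T (fun x => (l x).length * B x))
    (hC : Bud P T (fun x => (l x).length * Lib.PT.sz (c x))) :
    TC P T (fun x => (l x).map (f (c x))) :=
  TC.mapCtx hf hc hl (fun x hx a ha => (hQ x hx a ha).1)
    (Bud.sum_map hl.sz B C (fun x hx a ha => (hQ x hx a ha).2) hB) hC

/-- `map` of a linear-time function with a context -/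
theorem TC.mapCtx_lin {f : κ → α → β} (hf : Lin (fun q : κ × α => f q.1 q.2)) (hc : TC P T c)
    (hl : TC P T l) (hC : Bud P T (fun x => (l x).length * Lib.PT.sz (c x))) :
    TC P T (fun x => (l x).map (f (c x))) :=
  TC.mapCtx hf hc hl (fun _ _ _ _ => trivial) ((Bud.const 0).mono (fun x _ => by simp)) hC

/-- `flatMap` of a linear-time function with a context -/
theorem TC.flatMapCtx_lin {f : κ → α → List β} (hf : Lin (fun q : κ × α => f q.1 q.2))
    (hc : TC P T c) (hl : TC P T l) (hC : Bud P T (fun x => (l x).length * Lib.PT.sz (c x))) :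
    TC P T (fun x => (l x).flatMap (f (c x))) :=
  TC.flatMapCtx hf hc hl (fun _ _ _ _ => trivial) ((Bud.const 0).mono (fun x _ => by simp)) hC

/-- `filter` by a linear-time test with a context -/
theorem TC.filterCtx_lin {f : κ → α → Bool} (hf : Lin (fun q : κ × α => f q.1 q.2))
    (hc : TC P T c) (hl : TC P T l) (hC : Bud P T (fun x => (l x).length * Lib.PT.sz (c x))) :
    TC P T (fun x => (l x).filter (f (c x))) :=
  TC.filterCtx hf hc hl (fun _ _ _ _ => trivial) ((Bud.const 0).mono (fun x _ => by simp)) hC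

/-- `map` of a polynomial-time function over small elements with a small context: `B x` bounds
the sizes, and every polynomial in `B x`, once per element, is within the budget -/
theorem TC.mapCtx_ptf {f : κ → α → β} (hf : PTF (fun q : κ × α => f q.1 q.2)) (hc : TC P T c)
    (hl : TC P T l) (B : γ → ℕ) (hcB : ∀ x, P x → Lib.PT.sz (c x) ≤ B x)
    (hlB : ∀ x, P x → ∀ a ∈ l x, Lib.PT.sz a ≤ B x)
    (hB : ∀ k, Bud P T (fun x => (l x).length * (B x + 1) ^ k)) :
    TC P T (fun x => (l x).map (f (c x))) := by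
  obtain ⟨k, hk⟩ := exists_tc_of_ptf hf
  refine TC.mapCtx hk hc hl (fun _ _ _ _ => trivial)
    (((hB k).const_mul (3 ^ k)).mono (fun x hx => ?_)) ((hB 1).mono (fun x hx => ?_))
  · refine (sum_map_le_length_mul (l x) (n := 3 ^ k * (B x + 1) ^ k) (fun a ha => ?_)).trans
      (le_of_eq (by ring))
    rw [← mul_pow]
    refine Nat.pow_le_pow_left ?_ k
    have h1 := hcB x hx
    have h2 := hlB x hx a ha
    simp only [sz_prod]
    omega
  · have h1 := hcB x hx
    rw [pow_one]
    exact Nat.mul_le_mul_left _ (by omega)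

end ctx

/-! ### without a context -/

section noctx

variable {Q : α → Prop} {S : α → ℕ} {l : γ → List α}

theorem TC.flatMap' {f : α → List β} (hf : TC Q S f) (hl : TC P T l)
    (hQ : ∀ x, P x → ∀ a ∈ l x, Q a) (hS : Bud P T (fun x => ((l x).map S).sum)) :
    TC P T (fun x => (l x).flatMap f) :=
  TC.flatMapCtx (κ := Unit) (c := fun _ => ()) (f := fun _ a => f a)
    (hf.precomp (f := fun q : Unit × α => q.2) (TC.snd TC.id)) (TC.const _) hl hQ hS
    ((Bud.const 0).mono (fun x _ => by simp))

theorem TC.map' {f : α → β} (hf : TC Q S f) (hl : TC P T l)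
    (hQ : ∀ x, P x → ∀ a ∈ l x, Q a) (hS : Bud P T (fun x => ((l x).map S).sum)) :
    TC P T (fun x => (l x).map f) :=
  TC.mapCtx (κ := Unit) (c := fun _ => ()) (f := fun _ a => f a)
    (hf.precomp (f := fun q : Unit × α => q.2) (TC.snd TC.id)) (TC.const _) hl hQ hS
    ((Bud.const 0).mono (fun x _ => by simp))

theorem TC.filterMap' {f : α → Option β} (hf : TC Q S f) (hl : TC P T l)
    (hQ : ∀ x, P x → ∀ a ∈ l x, Q a) (hS : Bud P T (fun x => ((l x).map S).sum)) :
    TC P T (fun x => (l x).filterMap f) :=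
  TC.filterMapCtx (κ := Unit) (c := fun _ => ()) (f := fun _ a => f a)
    (hf.precomp (f := fun q : Unit × α => q.2) (TC.snd TC.id)) (TC.const _) hl hQ hS
    ((Bud.const 0).mono (fun x _ => by simp))

theorem TC.filter' {f : α → Bool} (hf : TC Q S f) (hl : TC P T l)
    (hQ : ∀ x, P x → ∀ a ∈ l x, Q a) (hS : Bud P T (fun x => ((l x).map S).sum)) :
    TC P T (fun x => (l x).filter f) :=
  TC.filterCtx (κ := Unit) (c := fun _ => ()) (f := fun _ a => f a)
    (hf.precomp (f := fun q : Unit × α => q.2) (TC.snd TC.id)) (TC.const _) hl hQ hS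
    ((Bud.const 0).mono (fun x _ => by simp))

/-- closed form of `map`: the cost is the sum of the costs -/
theorem TC.map0 {f : α → β} (hf : TC Q S f) :
    TC (fun l : List α => ∀ a ∈ l, Q a) (fun l => (l.map S).sum) (fun l => l.map f) :=
  TC.map' hf TC.id (fun _ h => h) Bud.self

/-- `map`: every call costs at most `B x + C * sz a` -/
theorem TC.map_le {f : α → β} (hf : TC Q S f) (hl : TC P T l) (B : γ → ℕ) (C : ℕ)
    (hQ : ∀ x, P x → ∀ a ∈ l x, Q a ∧ S a ≤ B x + C * Lib.PT.sz a)
    (hB : Bud P T (fun x => (l x).length * B x)) : TC P T (fun x => (l x).map f) :=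
  TC.map' hf hl (fun x hx a ha => (hQ x hx a ha).1)
    (Bud.sum_map hl.sz B C (fun x hx a ha => (hQ x hx a ha).2) hB)

@[fun_prop]
theorem TC.map {f : α → β} (hf : Lin f) (hl : TC P T l) : TC P T (fun x => (l x).map f) :=
  TC.map' hf hl (fun _ _ _ _ => trivial) ((Bud.const 0).mono (fun x _ => by simp))

@[fun_prop]
theorem TC.flatMap {f : α → List β} (hf : Lin f) (hl : TC P T l) :
    TC P T (fun x => (l x).flatMap f) :=
  TC.flatMap' hf hl (fun _ _ _ _ => trivial) ((Bud.const 0).mono (fun x _ => by simp))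

@[fun_prop]
theorem TC.filterMap {f : α → Option β} (hf : Lin f) (hl : TC P T l) :
    TC P T (fun x => (l x).filterMap f) :=
  TC.filterMap' hf hl (fun _ _ _ _ => trivial) ((Bud.const 0).mono (fun x _ => by simp))

@[fun_prop]
theorem TC.filter {f : α → Bool} (hf : Lin f) (hl : TC P T l) :
    TC P T (fun x => (l x).filter f) :=
  TC.filter' hf hl (fun _ _ _ _ => trivial) ((Bud.const 0).mono (fun x _ => by simp))

end noctx

/-! ### folds -/

section fold

variable {Q : σ × α → Prop} {S : σ × α → ℕ} {s : γ → σ} {l : γ → List α}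

/-- `foldl`: every step costs `S` plus the size of the state -/
theorem TC.foldl {f : σ → α → σ} (hf : TC Q S (fun q => f q.1 q.2)) (hs : TC P T s)
    (hl : TC P T l) (hQ : ∀ x, P x → FoldOK f Q (s x) (l x))
    (hS : Bud P T (fun x => foldSum f (fun q => S q + Lib.PT.sz q.1) (s x) (l x))) :
    TC P T (fun x => (l x).foldl f (s x)) := by
  have h1 : TC Q S (fun q : σ × α => (f q.1 q.2, ([] : List Unit))) := hf.prodMk (TC.const _)
  refine (TC.fst (h1.accumL hs hl (fun x hx => ?_) (hS.mono (fun x _ => ?_)))).of_eq (fun x => ?_)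
  · rw [accOK_iff_foldOK]; exact hQ x hx
  · rw [accSum_eq_foldSum]
  · rw [accumL_fst]

/-- `foldl`, amortised by a potential `Φ x state remaining` -/
theorem TC.foldl_pot {f : σ → α → σ} (hf : TC Q S (fun q => f q.1 q.2)) (hs : TC P T s)
    (hl : TC P T l) (I : γ → σ → List α → Prop) (Φ : γ → σ → List α → ℕ)
    (h0 : ∀ x, P x → I x (s x) (l x))
    (hI : ∀ x, P x → ∀ t a r, I x t (a :: r) →
      Q (t, a) ∧ S (t, a) + Lib.PT.sz t + Φ x (f t a) r ≤ Φ x t (a :: r) ∧ I x (f t a) r)
    (hB : Bud P T (fun x => Φ x (s x) (l x))) : TC P T (fun x => (l x).foldl f (s x)) :=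
  TC.foldl hf hs hl
    (fun x hx => foldOK_of_inv (I x)
      (fun t a r h => ⟨(hI x hx t a r h).1, (hI x hx t a r h).2.2⟩) (h0 x hx))
    (hB.mono (fun x hx => foldSum_le_of_potential (I x) (Φ x)
      (fun t a r h => ⟨(hI x hx t a r h).2.1, (hI x hx t a r h).2.2⟩) (h0 x hx)))

/-- `foldl` with an invariant `I x state`; `B x a` bounds the work and the size of the state at
the element `a` -/
theorem TC.foldl_inv {f : σ → α → σ} (hf : TC Q S (fun q => f q.1 q.2)) (hs : TC P T s)
    (hl : TC P T l) (I : γ → σ → Prop) (B : γ → α → ℕ) (h0 : ∀ x, P x → I x (s x))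
    (hI : ∀ x, P x → ∀ t, ∀ a ∈ l x, I x t →
      Q (t, a) ∧ S (t, a) + Lib.PT.sz t ≤ B x a ∧ I x (f t a))
    (hB : Bud P T (fun x => ((l x).map (B x)).sum)) : TC P T (fun x => (l x).foldl f (s x)) :=
  TC.foldl_pot hf hs hl (fun x t r => I x t ∧ ∀ a ∈ r, a ∈ l x)
    (fun x _ r => (r.map (B x)).sum) (fun x hx => ⟨h0 x hx, fun _ h => h⟩)
    (fun x hx t a r h => by
      obtain ⟨h1, h2, h3⟩ := hI x hx t a (h.2 a (by simp)) h.1
      refine ⟨h1, ?_, h3, fun b hb => h.2 b (by simp [hb])⟩
      simp only [List.map_cons, List.sum_cons]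
      omega) hB

/-- `foldl` with an invariant indexed by the position -/
theorem TC.foldl_idx {f : σ → α → σ} (hf : TC Q S (fun q => f q.1 q.2)) (hs : TC P T s)
    (hl : TC P T l) (B : γ → ℕ)
    (hI : ∀ x, P x → ∀ (i : ℕ) (hi : i < (l x).length),
      Q (((l x).take i).foldl f (s x), (l x)[i]) ∧
        S (((l x).take i).foldl f (s x), (l x)[i]) +
          Lib.PT.sz (((l x).take i).foldl f (s x)) ≤ B x)
    (hB : Bud P T (fun x => (l x).length * B x)) : TC P T (fun x => (l x).foldl f (s x)) :=
  TC.foldl_pot hf hs hl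
    (fun x t r => FoldOK f (fun q => Q q ∧ S q + Lib.PT.sz q.1 ≤ B x) t r)
    (fun x _ r => r.length * B x) (fun x hx => (foldOK_iff _ _ _ _).2 (hI x hx))
    (fun x _ t a r h => by
      refine ⟨h.1.1, ?_, h.2⟩
      have := h.1.2
      simp only [List.length_cons, Nat.succ_mul] at this ⊢
      omega) hB

/-- `mapAcc`: a state and one output per element -/
theorem TC.mapAcc {f : σ → α → σ × β} (hf : TC Q S (fun q => f q.1 q.2)) (hs : TC P T s)
    (hl : TC P T l) (hQ : ∀ x, P x → FoldOK (fun t a => (f t a).1) Q (s x) (l x))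
    (hS : Bud P T (fun x =>
      foldSum (fun t a => (f t a).1) (fun q => S q + Lib.PT.sz q.1) (s x) (l x))) :
    TC P T (fun x => X326.mapAcc f (s x) (l x)) := by
  have h1 : TC Q S (fun q : σ × α => ((f q.1 q.2).1, [(f q.1 q.2).2])) :=
    TC.comp_lin (g := fun r : σ × β => (r.1, [r.2]))
      ((TC.fst TC.id).prodMk ((TC.snd TC.id).listCons (TC.const _))) hf
  refine (TC.snd (h1.accumL hs hl (fun x hx => ?_) (hS.mono (fun x _ => ?_)))).of_eq (fun x => ?_)
  · rw [accOK_iff_foldOK]; exact hQ x hx
  · rw [accSum_eq_foldSum]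
  · rw [accumL_singleton]

/-- `mapAcc` with an invariant `I x state`; `B x a` bounds the work and the size of the state -/
theorem TC.mapAcc_inv {f : σ → α → σ × β} (hf : TC Q S (fun q => f q.1 q.2)) (hs : TC P T s)
    (hl : TC P T l) (I : γ → σ → Prop) (B : γ → α → ℕ) (h0 : ∀ x, P x → I x (s x))
    (hI : ∀ x, P x → ∀ t, ∀ a ∈ l x, I x t →
      Q (t, a) ∧ S (t, a) + Lib.PT.sz t ≤ B x a ∧ I x (f t a).1)
    (hB : Bud P T (fun x => ((l x).map (B x)).sum)) :
    TC P T (fun x => X326.mapAcc f (s x) (l x)) := by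
  have key : ∀ x, P x → ∀ t a r, (I x t ∧ ∀ b ∈ a :: r, b ∈ l x) →
      Q (t, a) ∧ S (t, a) + Lib.PT.sz t + (r.map (B x)).sum ≤ ((a :: r).map (B x)).sum ∧
        (I x (f t a).1 ∧ ∀ b ∈ r, b ∈ l x) := by
    intro x hx t a r h
    obtain ⟨h1, h2, h3⟩ := hI x hx t a (h.2 a (by simp)) h.1
    refine ⟨h1, ?_, h3, fun b hb => h.2 b (by simp [hb])⟩
    simp only [List.map_cons, List.sum_cons]
    omega
  exact TC.mapAcc hf hs hl
    (fun x hx => foldOK_of_inv (fun t r => I x t ∧ ∀ b ∈ r, b ∈ l x)
      (fun t a r h => ⟨(key x hx t a r h).1, (key x hx t a r h).2.2⟩) ⟨h0 x hx, fun _ h => h⟩)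
    (hB.mono (fun x hx => foldSum_le_of_potential (fun t r => I x t ∧ ∀ b ∈ r, b ∈ l x)
      (fun _ r => (r.map (B x)).sum)
      (fun t a r h => ⟨(key x hx t a r h).2.1, (key x hx t a r h).2.2⟩) ⟨h0 x hx, fun _ h => h⟩))

/-- a finite-state pass is linear time -/
theorem TC.mapAcc_finite [Finite σ] {f : σ → α → σ × β} (hf : Lin (fun q : σ × α => f q.1 q.2))
    (hs : TC P T s) (hl : TC P T l) : TC P T (fun x => X326.mapAcc f (s x) (l x)) := by
  obtain ⟨M, hM⟩ := OfTM.exists_sz_le σ
  refine TC.mapAcc_inv hf hs hl (fun _ _ => True) (fun _ _ => M) (fun _ _ => trivial)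
    (fun x _ t a _ _ => ⟨trivial, by simpa using hM t, trivial⟩)
    ((hl.bud_length.mul_const M).mono (fun x _ => by simp))

/-- a finite-state fold is linear time -/
theorem TC.foldl_finite [Finite σ] {f : σ → α → σ} (hf : Lin (fun q : σ × α => f q.1 q.2))
    (hs : TC P T s) (hl : TC P T l) : TC P T (fun x => (l x).foldl f (s x)) := by
  obtain ⟨M, hM⟩ := OfTM.exists_sz_le σ
  refine TC.foldl_inv hf hs hl (fun _ _ => True) (fun _ _ => M) (fun _ _ => trivial)
    (fun x _ t a _ _ => ⟨trivial, by simpa using hM t, trivial⟩)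
    ((hl.bud_length.mul_const M).mono (fun x _ => by simp))

@[fun_prop]
theorem TC.any {p : α → Bool} (hp : Lin p) (hl : TC P T l) : TC P T (fun x => (l x).any p) := by
  have h1 : Lin (fun q : Bool × α => q.1 || p q.2) :=
    (TC.fst TC.id).or (TC.comp_lin hp (TC.snd TC.id))
  refine (TC.foldl_finite (f := fun b a => b || p a) h1 (TC.const false) hl).of_eq (fun x => ?_)
  have key : ∀ (r : List α) (b : Bool), r.foldl (fun b a => b || p a) b = (b || r.any p) := by
    intro r
    induction r with
    | nil => simp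
    | cons a r ih => intro b; simp [ih, Bool.or_assoc]
  simp [key]

@[fun_prop]
theorem TC.all {p : α → Bool} (hp : Lin p) (hl : TC P T l) : TC P T (fun x => (l x).all p) :=
  (TC.any (p := fun a => !p a) hp.not hl).not.of_eq (fun x => by
    rw [List.all_eq_not_any_not])

end fold

/-! ### iteration -/

section iter

variable {Q : σ → Prop} {S : σ → ℕ} {s : γ → σ} {n : γ → ℕ}

/-- bounded iteration, the number of rounds is given in unary -/
theorem TC.iterate {f : σ → σ} (hf : TC Q S f) (hn : TU P T n) (hs : TC P T s)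
    (hQ : ∀ x, P x → ∀ i < n x, Q (f^[i] (s x)))
    (hS : Bud P T (fun x => ∑ i ∈ Finset.range (n x),
      (S (f^[i] (s x)) + Lib.PT.sz (f^[i] (s x))))) :
    TC P T (fun x => f^[n x] (s x)) := by
  refine (TC.foldl (f := fun t (_ : Unit) => f t)
    (hf.precomp (f := fun q : σ × Unit => q.1) (TC.fst TC.id)) hs hn.units (fun x hx => ?_)
    (hS.mono (fun x _ => ?_))).of_eq (fun x => foldl_replicate_unit _ _ _)
  · rw [foldOK_iff]
    intro i hi
    have hi' : i < n x := by simpa using hi
    rw [List.take_replicate, min_eq_left hi'.le, foldl_replicate_unit]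
    exact hQ x hx i hi'
  · exact (foldSum_replicate_unit f (fun t => S t + Lib.PT.sz t) (s x) (n x)).le

/-- bounded iteration with a uniform bound `B x` for the work and the size of the state -/
theorem TC.iterate_le {f : σ → σ} (hf : TC Q S f) (hn : TU P T n) (hs : TC P T s) (B : γ → ℕ)
    (hQ : ∀ x, P x → ∀ i < n x, Q (f^[i] (s x)) ∧ S (f^[i] (s x)) + Lib.PT.sz (f^[i] (s x)) ≤ B x)
    (hB : Bud P T (fun x => n x * B x)) : TC P T (fun x => f^[n x] (s x)) :=
  TC.iterate hf hn hs (fun x hx i hi => (hQ x hx i hi).1) (hB.mono (fun x hx => by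
    have := Finset.sum_le_card_nsmul (Finset.range (n x))
      (fun i => S (f^[i] (s x)) + Lib.PT.sz (f^[i] (s x))) (B x)
      (fun i hi => (hQ x hx i (Finset.mem_range.1 hi)).2)
    simpa using this))

/-- bounded iteration with an invariant `I x i state` -/
theorem TC.iterate_inv {f : σ → σ} (hf : TC Q S f) (hn : TU P T n) (hs : TC P T s)
    (I : γ → ℕ → σ → Prop) (B : γ → ℕ) (h0 : ∀ x, P x → I x 0 (s x))
    (hI : ∀ x, P x → ∀ i < n x, ∀ t, I x i t →
      Q t ∧ S t + Lib.PT.sz t ≤ B x ∧ I x (i + 1) (f t))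
    (hB : Bud P T (fun x => n x * B x)) : TC P T (fun x => f^[n x] (s x)) := by
  have key : ∀ x, P x → ∀ i ≤ n x, I x i (f^[i] (s x)) := by
    intro x hx i
    induction i with
    | zero => exact fun _ => h0 x hx
    | succ i ih =>
      intro hi
      rw [iterate_succ_apply']
      exact (hI x hx i hi _ (ih (Nat.le_of_succ_le hi))).2.2
  exact TC.iterate_le hf hn hs B
    (fun x hx i hi => ⟨(hI x hx i hi _ (key x hx i hi.le)).1,
      (hI x hx i hi _ (key x hx i hi.le)).2.1⟩) hB

/-- the list of the first `n` iterates, mapped through `g` -/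
theorem mapAcc_replicate_unit {σ β : Type} (f : σ → σ) (g : σ → β) (s : σ) (n : ℕ) :
    mapAcc (fun t (_ : Unit) => (f t, g t)) s (List.replicate n ()) =
      (List.range n).map (fun i => g (f^[i] s)) := by
  induction n generalizing s with
  | zero => rfl
  | succ n ih => simp [List.replicate_succ, ih, List.range_succ_eq_map]

/-- generate a table: the outputs `g (f^[i] s)`, `i < n` -/
theorem TC.unfold_le {f : σ → σ} {g : σ → β} (hf : TC Q S f) (hg : TC Q S g) (hn : TU P T n)
    (hs : TC P T s) (B : γ → ℕ)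
    (hQ : ∀ x, P x → ∀ i < n x, Q (f^[i] (s x)) ∧ S (f^[i] (s x)) + Lib.PT.sz (f^[i] (s x)) ≤ B x)
    (hB : Bud P T (fun x => n x * B x)) :
    TC P T (fun x => (List.range (n x)).map (fun i => g (f^[i] (s x)))) := by
  refine (TC.mapAcc (f := fun t (_ : Unit) => (f t, g t))
    ((hf.prodMk hg).precomp (f := fun q : σ × Unit => q.1) (TC.fst TC.id)) hs hn.units
    (fun x hx => ?_) (hB.mono (fun x hx => ?_))).of_eq (fun x => mapAcc_replicate_unit _ _ _ _)
  · rw [foldOK_iff]
    intro i hi
    have hi' : i < n x := by simpa using hi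
    rw [List.take_replicate, min_eq_left hi'.le, foldl_replicate_unit]
    exact (hQ x hx i hi').1
  · refine (foldSum_replicate_unit f (fun t => S t + Lib.PT.sz t) (s x) (n x)).le.trans ?_
    have := Finset.sum_le_card_nsmul (Finset.range (n x))
      (fun i => S (f^[i] (s x)) + Lib.PT.sz (f^[i] (s x))) (B x)
      (fun i hi => (hQ x hx i (Finset.mem_range.1 hi)).2)
    simpa using this

end iter

end Crest.Agent.X326
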