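import Crest.Agent.Lib.PT.Alphabet
import Crest.Agent.Lib.PT.ArithRat

/-!
# Fine-grained time calculus on coded types (core)

* `TC P T f` : on every input `x` with `P x`, one fixed program turns the code of `x` into the code
  of `f x` within `C * (T x + sz x + 1)` steps.
* `Lin f`    : notation for `TC (fun _ => True) (fun _ => 0) f`, total linear time.
* `Bud P T g`: the cost `g` is within the budget, `g x ≤ C * (T x + sz x + 1)` on `P`.

`TC P T` (fixed `P`, `T`) is a `fun_prop` property: it is closed under pairing, case distinction and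
post-composition with `Lin` functions.  Non-linear steps are composed by `TC.comp` with a `Bud`
side condition.
-/

set_option autoImplicit false
set_option linter.dupNamespace false

namespace Crest.Agent.X326

open Crest.Agent.Lib.PT Function

section defs

/-- domains (a named abbreviation so that `fun_prop` finds the function argument) -/
abbrev Dom (α : Type) : Type := α → Prop

/-- cost functions -/
abbrev Cost (α : Type) : Type := α → ℕ

variable {α β : Type} [PTCode α] [PTCode β]

/-- `f` is computed on the domain `P` within `O(T x + sz x + 1)` steps. -/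
@[fun_prop]
def TC (P : Dom α) (T : Cost α) (f : α → β) : Prop :=
  ∃ (c : Cmd) (C : ℕ), ∀ x, P x → Run c (init (enc x)) (init (enc (f x))) (C * (T x + sz x + 1))

/-- total linear time -/
scoped notation "Lin" => TC (fun _ => True) (fun _ => 0)

/-- the cost `g` is within the budget `T` on the domain `P` -/
@[fun_prop]
def Bud (P : Dom α) (T : Cost α) (g : α → ℕ) : Prop :=
  ∃ C : ℕ, ∀ x, P x → g x ≤ C * (T x + sz x + 1)

end defs

/-! ### budgets -/

section bud

variable {α β : Type} [PTCode α] [PTCode β] {P P' : α → Prop} {T T' : α → ℕ}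

theorem Bud.intro {g : α → ℕ} (C : ℕ) (h : ∀ x, P x → g x ≤ C * (T x + sz x + 1)) :
    Bud P T g := ⟨C, h⟩

/-- the usual way to prove a budget: `g ≤ C * T + C * sz + C` -/
theorem Bud.of_le {g : α → ℕ} (a b c : ℕ) (h : ∀ x, P x → g x ≤ a * T x + b * sz x + c) :
    Bud P T g := by
  refine ⟨a + b + c, fun x hx => (h x hx).trans ?_⟩
  have : (a + b + c) * (T x + sz x + 1) = a * T x + b * sz x + c +
      (a * (sz x + 1) + b * (T x + 1) + c * (T x + sz x)) := by ring
  omega

theorem Bud.of_le_mul {g : α → ℕ} (a : ℕ) (h : ∀ x, P x → g x ≤ a * T x) : Bud P T g :=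
  Bud.of_le a 0 0 (fun x hx => by simpa using h x hx)

theorem Bud.mono {g g' : α → ℕ} (hg : Bud P T g) (h : ∀ x, P x → g' x ≤ g x) : Bud P T g' := by
  obtain ⟨C, hC⟩ := hg
  exact ⟨C, fun x hx => (h x hx).trans (hC x hx)⟩

theorem Bud.restrict {g : α → ℕ} (hg : Bud P T g) (h : ∀ x, P' x → P x) : Bud P' T g := by
  obtain ⟨C, hC⟩ := hg
  exact ⟨C, fun x hx => hC x (h x hx)⟩

theorem Bud.self : Bud P T T := Bud.of_le 1 0 0 (fun x _ => by simp)

theorem Bud.sz : Bud P T (fun x => sz x) := Bud.of_le 0 1 0 (fun x _ => by simp)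

@[fun_prop]
theorem Bud.const (n : ℕ) : Bud P T (fun _ => n) := Bud.of_le 0 0 n (fun x _ => by simp)

@[fun_prop]
theorem Bud.add {g g' : α → ℕ} (hg : Bud P T g) (hg' : Bud P T g') :
    Bud P T (fun x => g x + g' x) := by
  obtain ⟨C, hC⟩ := hg
  obtain ⟨D, hD⟩ := hg'
  refine ⟨C + D, fun x hx => ?_⟩
  rw [add_mul]
  exact Nat.add_le_add (hC x hx) (hD x hx)

@[fun_prop]
theorem Bud.const_mul (n : ℕ) {g : α → ℕ} (hg : Bud P T g) : Bud P T (fun x => n * g x) := by
  obtain ⟨C, hC⟩ := hg
  refine ⟨n * C, fun x hx => ?_⟩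
  rw [mul_assoc]
  exact Nat.mul_le_mul_left n (hC x hx)

@[fun_prop]
theorem Bud.mul_const (n : ℕ) {g : α → ℕ} (hg : Bud P T g) : Bud P T (fun x => g x * n) :=
  (hg.const_mul n).mono (fun x _ => by rw [mul_comm])

@[fun_prop]
theorem Bud.max {g g' : α → ℕ} (hg : Bud P T g) (hg' : Bud P T g') :
    Bud P T (fun x => max (g x) (g' x)) :=
  (hg.add hg').mono (fun x _ => by omega)

@[fun_prop]
theorem Bud.sub {g : α → ℕ} (g' : α → ℕ) (hg : Bud P T g) :
    Bud P T (fun x => g x - g' x) := hg.mono (fun x _ => by omega)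

/-- budgets are transitive -/
theorem Bud.trans {g : α → ℕ} (hg : Bud P T g) (hT : Bud P T' T) : Bud P T' g := by
  obtain ⟨C, hC⟩ := hg
  have h : Bud P T' (fun x => C * (T x + Lib.PT.sz x + 1)) :=
    ((hT.add Bud.sz).add (Bud.const 1)).const_mul C
  exact h.mono hC

/-- a finite sum of costs within the budget -/
theorem Bud.finset_sum {ι : Type} (s : Finset ι) {g : ι → α → ℕ} (h : ∀ i ∈ s, Bud P T (g i)) :
    Bud P T (fun x => ∑ i ∈ s, g i x) := by
  classical
  induction s using Finset.induction_on with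
  | empty => simpa using Bud.const 0
  | insert i s hi ih =>
    simp only [Finset.sum_insert hi]
    exact (h i (by simp)).add (ih (fun j hj => h j (by simp [hj])))

/-- a budget on the domain of `f` pulled back along `e` -/
theorem Bud.comp {Q : β → Prop} {S : β → ℕ} {g : β → ℕ} (hg : Bud Q S g) {e : α → β}
    (hQ : ∀ x, P x → Q (e x)) (hS : Bud P T (fun x => S (e x)))
    (hsz : Bud P T (fun x => Lib.PT.sz (e x))) : Bud P T (fun x => g (e x)) := by
  obtain ⟨C, hC⟩ := hg
  exact (((hS.add hsz).add (Bud.const 1)).const_mul C).mono (fun x hx => hC _ (hQ x hx))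

end bud

/-! ### introduction, weakening, recoding -/

section basic

variable {α β γ δ : Type} [PTCode α] [PTCode β] [PTCode γ] [PTCode δ]
  {P P' : α → Prop} {T T' : α → ℕ}

/-- introduction rule: a program and a cost within the budget -/
theorem TC.of_run {f : α → β} (c : Cmd) {n : α → ℕ} (hn : Bud P T n)
    (h : ∀ x, P x → Run c (init (enc x)) (init (enc (f x))) (n x)) : TC P T f := by
  obtain ⟨C, hC⟩ := hn
  exact ⟨c, C, fun x hx => (h x hx).mono (hC x hx)⟩

/-- elimination rule: a program and a cost within the budget -/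
theorem TC.exists_run {f : α → β} (hf : TC P T f) : ∃ (c : Cmd) (n : α → ℕ), Bud P T n ∧
    ∀ x, P x → Run c (init (enc x)) (init (enc (f x))) (n x) := by
  obtain ⟨c, C, h⟩ := hf
  exact ⟨c, _, ⟨C, fun _ _ => le_rfl⟩, h⟩

/-- weaken the domain and the budget -/
theorem TC.mono {f : α → β} (hf : TC P T f) (hP : ∀ x, P' x → P x) (hT : Bud P' T' T) :
    TC P' T' f := by
  obtain ⟨c, n, hn, h⟩ := hf.exists_run
  exact TC.of_run c ((hn.restrict hP).trans hT) (fun x hx => h x (hP x hx))

theorem TC.restrict {f : α → β} (hf : TC P T f) (hP : ∀ x, P' x → P x) : TC P' T f :=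
  hf.mono hP Bud.self

theorem TC.budget {f : α → β} (hf : TC P T f) (hT : Bud P T' T) : TC P T' f :=
  hf.mono (fun _ h => h) hT

theorem TC.le {f : α → β} (hf : TC P T f) (hT : ∀ x, P x → T x ≤ T' x) : TC P T' f :=
  hf.budget (Bud.self.mono hT)

/-- a linear-time function is within every budget -/
@[fun_prop]
theorem TC.tc {f : α → β} (hf : Lin f) : TC P T f :=
  TC.mono hf (fun _ _ => trivial) (Bud.const 0)

theorem Lin.tc {f : α → β} (hf : Lin f) : TC P T f := hf.tc

/-- change the output type, keeping the code -/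
theorem TC.recode {f : α → β} {g : α → γ} (hf : TC P T f)
    (h : ∀ x, P x → enc (f x) = enc (g x)) : TC P T g := by
  obtain ⟨c, C, hc⟩ := hf
  exact ⟨c, C, fun x hx => h x hx ▸ hc x hx⟩

theorem TC.congr {f g : α → β} (hf : TC P T f) (h : ∀ x, P x → f x = g x) : TC P T g :=
  hf.recode (fun x hx => by rw [h x hx])

theorem TC.of_eq {f g : α → β} (hf : TC P T f) (h : ∀ x, f x = g x) : TC P T g :=
  hf.congr (fun x _ => h x)

theorem Run.length_le {c : Cmd} {x y : List Bool} {n : ℕ} (h : Run c (init x) (init y) n) :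
    y.length ≤ x.length + n := by
  obtain ⟨t, ht, h⟩ := h
  have := h.length_le 0
  simp only [init_zero] at this
  omega

/-- the output is not longer than the budget -/
@[fun_prop]
theorem TC.sz {f : α → β} (hf : TC P T f) : Bud P T (fun x => sz (f x)) := by
  obtain ⟨c, n, hn, h⟩ := hf.exists_run
  exact (Bud.sz.add hn).mono (fun x hx => Run.length_le (h x hx))

theorem TC.sz_le {f : α → β} (hf : Lin f) :
    ∃ C, ∀ x, Lib.PT.sz (f x) ≤ C * (Lib.PT.sz x + 1) := by
  obtain ⟨C, hC⟩ := TC.sz hf
  exact ⟨C, fun x => by simpa using hC x trivial⟩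

theorem Lin.sz_le {f : α → β} (hf : Lin f) : ∃ C, ∀ x, sz (f x) ≤ C * (sz x + 1) := hf.sz_le

@[fun_prop]
theorem TC.id : TC P T (fun x : α => x) :=
  TC.of_run .skip (Bud.const 1) (fun _ _ => run_skip _)

@[fun_prop]
theorem TC.const (b : β) : TC P T (fun _ : α => b) := by
  refine TC.of_run (.seq (clear 0) (pushAll 0 (enc b)))
    (n := fun x => 2 * Lib.PT.sz x + ((enc b).length + 2))
    ((Bud.sz.const_mul 2).add (Bud.const _)) (fun x _ => ?_)
  refine ((run_clear 0 (init (enc x))).seq (run_pushAll 0 (enc b) _)).of_eq ?_ ?_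
  · funext j
    rcases j with _ | j <;> simp [init]
  · simp only [init_zero, Lib.PT.sz]
    omega

/-- general composition: the cost of the second function has to be within the budget -/
theorem TC.comp {Q : β → Prop} {S : β → ℕ} {g : β → γ} {f : α → β} (hg : TC Q S g)
    (hf : TC P T f) (hQ : ∀ x, P x → Q (f x)) (hS : Bud P T (fun x => S (f x))) :
    TC P T (fun x => g (f x)) := by
  have hsz := hf.sz
  obtain ⟨c, n, hn, h⟩ := hf.exists_run
  obtain ⟨d, m, hm, h'⟩ := hg.exists_run
  exact TC.of_run (.seq c d) (hn.add (hm.comp hQ hS hsz))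
    (fun x hx => (h x hx).seq (h' _ (hQ x hx)))

/-- composition with added costs -/
theorem TC.comp_add {Q : β → Prop} {S : β → ℕ} {g : β → γ} {f : α → β} (hg : TC Q S g)
    (hf : TC P T f) (hQ : ∀ x, P x → Q (f x)) :
    TC P (fun x => T x + S (f x)) (fun x => g (f x)) :=
  hg.comp (hf.le (fun _ _ => Nat.le_add_right _ _)) hQ
    (Bud.self.mono (fun _ _ => Nat.le_add_left _ _))

/-- post-composition with a linear-time function -/
@[fun_prop]
theorem TC.comp_lin {g : β → γ} {f : α → β} (hg : TC (fun _ => True) (fun _ => 0) g)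
    (hf : TC P T f) : TC P T (fun x => g (f x)) :=
  hg.comp hf (fun _ _ => trivial) (Bud.const 0)

/-- pre-composition with a linear-time function -/
theorem TC.precomp {Q : β → Prop} {S : β → ℕ} {g : β → γ} {f : α → β} (hg : TC Q S g)
    (hf : Lin f) : TC (fun x => Q (f x)) (fun x => S (f x)) (fun x => g (f x)) :=
  hg.comp hf.tc (fun _ h => h) Bud.self

/-- any map that does not change the code is free -/
theorem Lin.of_enc_eq {f : α → β} (h : ∀ x, enc (f x) = enc x) : Lin f :=
  TC.id.recode (fun x _ => (h x).symm)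

/-- the code as a raw bit string -/
@[fun_prop]
theorem TC.toBits {f : α → β} (hf : TC P T f) : TC P T (fun x => toBits (f x)) :=
  hf.recode (fun _ _ => rfl)

/-- raw linear-time programs -/
def LinRaw (g : List Bool → List Bool) : Prop :=
  ∃ (c : Cmd) (C : ℕ), ∀ x, Run c (init x) (init (g x)) (C * (x.length + 1))

theorem LinRaw.of_run {g : List Bool → List Bool} (c : Cmd) (a b : ℕ)
    (h : ∀ x, Run c (init x) (init (g x)) (a * x.length + b)) : LinRaw g :=
  ⟨c, a + b, fun x => (h x).mono (by
    have : (a + b) * (x.length + 1) = a * x.length + b + (a + b * x.length) := by ring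
    omega)⟩

/-- from a raw program to a typed function -/
theorem LinRaw.lin {g : List Bool → List Bool} (hg : LinRaw g) {f : α → β}
    (h : ∀ x, g (enc x) = enc (f x)) : Lin f := by
  obtain ⟨c, C, hc⟩ := hg
  exact ⟨c, C, fun x _ => by simpa [Lib.PT.sz, h x] using hc (enc x)⟩

/-- apply a raw linear-time program to the code of a result -/
theorem TC.raw {g : List Bool → List Bool} (hg : LinRaw g) {f : α → β} (hf : TC P T f)
    {f' : α → γ} (h : ∀ x, P x → g (enc (f x)) = enc (f' x)) : TC P T f' := by
  have h1 : Lin (fun x : Bits => Bits.mk (g x.val)) := hg.lin (fun _ => rfl)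
  exact (TC.comp_lin h1 hf.toBits).recode (fun x hx => h x hx)

theorem LinRaw.tail : LinRaw List.tail := by
  refine LinRaw.of_run (.pop 0) 0 1 (fun x => (run_pop 0 (init x)).of_eq ?_ (by simp))
  funext j
  rcases j with _ | j <;> simp [init]

theorem LinRaw.cons (b : Bool) : LinRaw (fun x => b :: x) := by
  refine LinRaw.of_run (.push 0 b) 0 1 (fun x => (run_push 0 b (init x)).of_eq ?_ (by simp))
  funext j
  rcases j with _ | j <;> simp [init]

theorem LinRaw.fst : LinRaw fst := by
  refine LinRaw.of_run (.seq parse (.seq (clear 0) (mv 1 0))) 12 9 (fun z => ?_)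
  refine ((run_parse z).seq ((run_clear 0 _).seq (run_mv (by decide) _))).of_eq ?_ ?_
  · funext j; rcases j with _ | _ | _ | j <;> simp [st3, init]
  · have h1 := length_fst z
    have h2 := length_snd z
    simp [st3]
    omega

theorem LinRaw.snd : LinRaw snd := by
  refine LinRaw.of_run (.seq parse (clear 1)) 8 8 (fun z => ?_)
  refine ((run_parse z).seq (run_clear 1 _)).of_eq ?_ ?_
  · funext j; rcases j with _ | _ | _ | j <;> simp [st3, init]
  · have h1 := length_fst z
    simp [st3]
    omega

theorem LinRaw.append : LinRaw (fun z => Lib.PT.fst z ++ Lib.PT.snd z) := by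
  refine LinRaw.of_run (.seq parse (mv 1 0)) 10 8 (fun z => ?_)
  refine ((run_parse z).seq (run_mv (by decide) _)).of_eq ?_ ?_
  · funext j; rcases j with _ | _ | _ | j <;> simp [st3, init]
  · have h1 := length_fst z
    simp [st3]
    omega

theorem LinRaw.reverse : LinRaw List.reverse := by
  refine LinRaw.of_run (.seq (mv 0 1) (.seq (mv 1 2) (mv 2 0))) 12 3 (fun x => ?_)
  refine ((run_mv (by decide) (init x)).seq ((run_mv (by decide) _).seq
    (run_mv (by decide) _))).of_eq ?_ ?_
  · funext j
    rcases j with _ | _ | _ | j <;> simp [init]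
  · simp [init]
    omega

theorem LinRaw.flatMap (h : Bool → List Bool) : LinRaw (fun x => x.flatMap h) := by
  refine LinRaw.of_run (.seq (mv 0 1) (mvMap 1 0 h)) ((h true).length + (h false).length + 8) 2
    (fun x => ?_)
  refine ((run_mv (by decide) (init x)).seq (run_mvMap (by decide) h _)).of_eq ?_ ?_
  · funext j
    rcases j with _ | _ | j <;> simp [init]
  · simp only [init_zero, ne_eq, one_ne_zero, not_false_eq_true, update_of_ne, update_self,
      List.length_append, List.length_reverse]
    have : (init x 1) = [] := rfl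
    rw [this]
    simp only [List.length_nil, add_zero]
    ring_nf
    omega

/-! ### products -/

@[fun_prop]
theorem TC.fst {f : α → β × γ} (hf : TC P T f) : TC P T (fun x => (f x).1) :=
  TC.raw LinRaw.fst hf (fun x _ => by simp)

@[fun_prop]
theorem TC.snd {f : α → β × γ} (hf : TC P T f) : TC P T (fun x => (f x).2) :=
  TC.raw LinRaw.snd hf (fun x _ => by simp)

/-- the program that pairs the contents of the stacks `1` and `2` onto stack `0` -/
def mkPair : Cmd :=
  .seq (mv 2 3) (.seq (mv 3 0) (.seq (.push 0 false) (.seq (mv 1 3)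
    (mvMap 3 0 (fun b => [true, b])))))

theorem run_mkPair (y z : List Bool) :
    Run mkPair (st4 [] y z []) (init (pair y z)) (12 * y.length + 8 * z.length + 5) := by
  have h2 : Run (mv 2 3) (st4 [] y z []) (st4 [] y [] z.reverse) (4 * z.length + 1) :=
    (run_mv (by decide) _).of_eq (by simp) (by simp)
  have h3 : Run (mv 3 0) (st4 [] y [] z.reverse) (st4 z y [] []) (4 * z.length + 1) :=
    (run_mv (by decide) _).of_eq (by simp) (by simp)
  have h4 : Run (.push 0 false) (st4 z y [] []) (st4 (false :: z) y [] []) 1 :=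
    (run_push 0 false _).of_eq (by simp) (by simp)
  have h5 : Run (mv 1 3) (st4 (false :: z) y [] []) (st4 (false :: z) [] [] y.reverse)
      (4 * y.length + 1) := (run_mv (by decide) _).of_eq (by simp) (by simp)
  have h6 : Run (mvMap 3 0 (fun b => [true, b])) (st4 (false :: z) [] [] y.reverse)
      (init (pair y z)) (8 * y.length + 1) := by
    refine (run_mvMap (by decide) _ _).of_eq ?_ (by simp)
    rw [init_eq_st4]
    simp [pair]
  exact (h2.seq (h3.seq (h4.seq (h5.seq h6)))).mono (by omega)

@[fun_prop]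
theorem TC.prodMk {f : α → β} {g : α → γ} (hf : TC P T f) (hg : TC P T g) :
    TC P T (fun x => (f x, g x)) := by
  have h1 := hf.sz
  have h2 := hg.sz
  obtain ⟨c, n, hn, h⟩ := hf.exists_run
  obtain ⟨d, m, hm, h'⟩ := hg.exists_run
  refine TC.of_run (.seq (both c d) mkPair)
    (n := fun x => n x + m x + 21 * Lib.PT.sz x + 5 +
      (12 * Lib.PT.sz (f x) + 8 * Lib.PT.sz (g x) + 5))
    ((((hn.add hm).add (Bud.sz.const_mul 21)).add (Bud.const 5)).add
      (((h1.const_mul 12).add (h2.const_mul 8)).add (Bud.const 5))) (fun x hx => ?_)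
  exact (run_both (h x hx) (h' x hx)).seq (run_mkPair _ _)

/-- composition with a two-argument linear-time function -/
theorem TC.comp₂ {g : β → γ → δ} (hg : Lin (fun p : β × γ => g p.1 p.2)) {f : α → β}
    {f' : α → γ} (hf : TC P T f) (hf' : TC P T f') : TC P T (fun x => g (f x) (f' x)) :=
  TC.comp_lin (f := fun x => (f x, f' x)) hg (hf.prodMk hf')

/-- `let`: compute `v x`, then continue with the pair; the budget is read off the first component -/
theorem TC.letE {v : α → β} {g : α → β → γ} (hv : TC P T v)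
    (hg : TC (fun p : α × β => P p.1 ∧ p.2 = v p.1) (fun p => T p.1) (fun p => g p.1 p.2)) :
    TC P T (fun x => g x (v x)) :=
  TC.comp (f := fun x => (x, v x)) hg (TC.id.prodMk hv) (fun _ hx => ⟨hx, rfl⟩) Bud.self

/-! ### branching -/

/-- raw branching on the first bit of a code -/
theorem TC.iteRaw {c : α → β} {f g : α → γ} (hc : TC P T c)
    (hf : TC (fun x => P x ∧ (enc (c x)).head? = some true) T f)
    (hg : TC (fun x => P x ∧ (enc (c x)).head? ≠ some true) T g) :
    TC P T (fun x => if (enc (c x)).head? = some true then f x else g x) := by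
  classical
  have h0 := hc.sz
  obtain ⟨cc, n, hn, hcc⟩ := hc.exists_run
  obtain ⟨cf, Cf, hcf⟩ := hf
  obtain ⟨cg, Cg, hcg⟩ := hg
  refine TC.of_run (.seq dup (.seq (cc.shift 1) (.ite 1 cg (.seq (clear 1) cf) (.seq (clear 1) cg))))
    (n := fun x => 13 * Lib.PT.sz x + 3 + (n x + (2 + 2 * Lib.PT.sz (c x) +
      (Cf + Cg) * (T x + Lib.PT.sz x + 1))))
    (((Bud.sz.const_mul 13).add (Bud.const 3)).add (hn.add (((Bud.const 2).add
      (h0.const_mul 2)).add ⟨Cf + Cg, fun _ _ => le_rfl⟩))) (fun x hx => ?_)
  have h1 := run_dup (enc x)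
  have h2 := call_one (hcc x hx) (enc x)
  refine h1.seq (h2.seq ?_)
  have hcl : Run (clear 1) (st4 (enc x) (enc (c x)) [] []) (init (enc x))
      (2 * (enc (c x)).length + 1) :=
    (run_clear 1 _).of_eq (by simp [init_eq_st4]) (by simp)
  have e : (Cf + Cg) * (T x + Lib.PT.sz x + 1) =
      Cf * (T x + Lib.PT.sz x + 1) + Cg * (T x + Lib.PT.sz x + 1) := by ring
  have e2 : Lib.PT.sz (c x) = (enc (c x)).length := rfl
  rcases hcx : enc (c x) with _ | ⟨b, l⟩
  · have := hcg x ⟨hx, by simp [hcx]⟩
    rw [init_eq_st4 (enc x)] at this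
    simpa using (Run.ite_nil (k := 1) (e := cg) (c := .seq (clear 1) cf)
      (d := .seq (clear 1) cg) (s := st4 (enc x) [] [] []) rfl this).mono (by omega)
  · rw [hcx] at hcl e2
    cases b
    · simpa using (Run.ite_false (k := 1) (e := cg) (c := .seq (clear 1) cf)
        (d := .seq (clear 1) cg) (s := st4 (enc x) (false :: l) [] []) (l := l) rfl
        (hcl.seq (hcg x ⟨hx, by simp [hcx]⟩))).mono (by omega)
    · simpa using (Run.ite_true (k := 1) (e := cg) (c := .seq (clear 1) cf)
        (d := .seq (clear 1) cg) (s := st4 (enc x) (true :: l) [] []) (l := l) rfl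
        (hcl.seq (hcf x ⟨hx, by simp [hcx]⟩))).mono (by omega)

/-- branching, each branch may use the outcome of the test -/
theorem TC.cond' {c : α → Bool} {f g : α → β} (hc : TC P T c)
    (hf : TC (fun x => P x ∧ c x = true) T f) (hg : TC (fun x => P x ∧ c x = false) T g) :
    TC P T (fun x => bif c x then f x else g x) :=
  (TC.iteRaw hc (hf.restrict (fun x h => ⟨h.1, by simpa using h.2⟩))
    (hg.restrict (fun x h => ⟨h.1, by simpa using h.2⟩))).of_eq (fun x => by
      cases c x <;> simp)

@[fun_prop]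
theorem TC.cond {c : α → Bool} {f g : α → β} (hc : TC P T c) (hf : TC P T f) (hg : TC P T g) :
    TC P T (fun x => bif c x then f x else g x) :=
  TC.cond' hc (hf.restrict (fun _ h => h.1)) (hg.restrict (fun _ h => h.1))

/-- branching on a decidable predicate, each branch may use the outcome of the test -/
theorem TC.ite' {p : α → Prop} [DecidablePred p] {f g : α → β}
    (hc : TC P T (fun x => decide (p x)))
    (hf : TC (fun x => P x ∧ p x) T f) (hg : TC (fun x => P x ∧ ¬ p x) T g) :
    TC P T (fun x => if p x then f x else g x) :=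
  (TC.cond' hc (hf.restrict (fun x h => ⟨h.1, by simpa using h.2⟩))
    (hg.restrict (fun x h => ⟨h.1, by simpa using h.2⟩))).of_eq (fun x => by
      by_cases h : p x <;> simp [h])

end basic

end Crest.Agent.X326
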