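import Crest.Agent.X326.TC.FstRaw
import Crest.Agent.Lib.PT.ArithPure

/-!
# Bit lists (least significant bit first): values, normalisation, and the transducers for
addition, subtraction, comparison, bitwise operations, fields
-/

set_option autoImplicit false

namespace Crest.Agent.X326

open Crest.Agent.Lib.PT Fst

/-- value of a list of bits, least significant first -/
def lsb (l : List Bool) : ℕ := l.foldr (fun b n => Nat.bit b n) 0

@[simp] theorem lsb_nil : lsb [] = 0 := rfl

theorem lsb_cons (b : Bool) (l : List Bool) : lsb (b :: l) = b.toNat + 2 * lsb l := by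
  show Nat.bit b (lsb l) = _
  rw [Nat.bit_val]; ring

theorem lsb_cons_bit (b : Bool) (l : List Bool) : lsb (b :: l) = Nat.bit b (lsb l) := rfl

@[simp] theorem lsb_bits (n : ℕ) : lsb n.bits = n := by
  induction n using Nat.binaryRec' with
  | zero => simp
  | bit b n h ih => rw [Nat.bits_append_bit n b h, lsb_cons_bit, ih]

theorem lsb_append (l l' : List Bool) : lsb (l ++ l') = lsb l + 2 ^ l.length * lsb l' := by
  induction l with
  | nil => simp
  | cons b l ih => rw [List.cons_append, lsb_cons, lsb_cons, ih, List.length_cons]; ring

theorem lsb_lt (l : List Bool) : lsb l < 2 ^ l.length := by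
  induction l with
  | nil => simp
  | cons b l ih =>
    rw [lsb_cons, List.length_cons, pow_succ]
    have := b.toNat_le
    omega

theorem size_lsb_le (l : List Bool) : (lsb l).size ≤ l.length := Nat.size_le.2 (lsb_lt l)

@[simp] theorem lsb_replicate_false (k : ℕ) : lsb (List.replicate k false) = 0 := by
  induction k with
  | zero => rfl
  | succ k ih => rw [List.replicate_succ, lsb_cons, ih]; rfl

theorem lsb_replicate_true (k : ℕ) : lsb (List.replicate k true) = 2 ^ k - 1 := by
  induction k with
  | zero => rfl
  | succ k ih =>
    rw [List.replicate_succ, lsb_cons, ih, pow_succ]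
    have : 1 ≤ 2 ^ k := Nat.one_le_two_pow
    simp only [Bool.toNat_true]
    omega

theorem lsb_take (k : ℕ) (l : List Bool) : lsb (l.take k) = lsb l % 2 ^ k := by
  by_cases h : l.length ≤ k
  · rw [List.take_of_length_le h, Nat.mod_eq_of_lt]
    exact (lsb_lt l).trans_le (Nat.pow_le_pow_right (by norm_num) h)
  · have h1 : (l.take k).length = k := by simp; omega
    conv_rhs => rw [← List.take_append_drop k l, lsb_append, h1]
    rw [Nat.add_mul_mod_self_left, Nat.mod_eq_of_lt]
    simpa [h1] using lsb_lt (l.take k)

theorem lsb_drop (k : ℕ) (l : List Bool) : lsb (l.drop k) = lsb l / 2 ^ k := by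
  by_cases h : l.length ≤ k
  · rw [List.drop_of_length_le h, Nat.div_eq_of_lt, lsb_nil]
    exact (lsb_lt l).trans_le (Nat.pow_le_pow_right (by norm_num) h)
  · have h1 : (l.take k).length = k := by simp; omega
    conv_rhs => rw [← List.take_append_drop k l, lsb_append, h1]
    rw [Nat.add_mul_div_left _ _ (by positivity), Nat.div_eq_of_lt, zero_add]
    simpa [h1] using lsb_lt (l.take k)

theorem lsb_reverse (l : List Bool) : lsb l.reverse = Arith.msb l := by
  induction l with
  | nil => rfl
  | cons b l ih =>
    rw [List.reverse_cons, lsb_append, ih, Arith.msb_cons, List.length_reverse, lsb_cons]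
    simp; ring

theorem msb_reverse (l : List Bool) : Arith.msb l.reverse = lsb l := by
  rw [← lsb_reverse, List.reverse_reverse]

theorem testBit_lsb (l : List Bool) (i : ℕ) : (lsb l).testBit i = l.getD i false := by
  induction l generalizing i with
  | nil => simp
  | cons b l ih =>
    rw [lsb_cons_bit]
    cases i with
    | zero => simp
    | succ i => rw [Nat.testBit_bit_succ, ih]; simp

theorem getD_bits (n i : ℕ) : n.bits.getD i false = n.testBit i := by
  rw [← testBit_lsb, lsb_bits]

/-- lists of equal length with equal value are equal -/
theorem lsb_inj {l l' : List Bool} (hl : l.length = l'.length) (h : lsb l = lsb l') : l = l' := by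
  refine List.ext_getElem hl (fun i h1 h2 => ?_)
  have e1 := testBit_lsb l i
  have e2 := testBit_lsb l' i
  rw [h, e2, List.getD_eq_getElem _ _ h1, List.getD_eq_getElem _ _ h2] at e1
  exact e1.symm

theorem bits_lsb_concat_true (l : List Bool) : (lsb (l ++ [true])).bits = l ++ [true] := by
  induction l with
  | nil => rfl
  | cons b l ih =>
    rw [List.cons_append, lsb_cons_bit, Nat.bits_append_bit, ih]
    intro h
    rw [h] at ih
    simp at ih

/-- remove trailing zeros -/
def stripZ (l : List Bool) : List Bool := (l.reverse.dropWhile (fun b => !b)).reverse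

theorem stripZ_eq (l : List Bool) : stripZ l = (lsb l).bits := by
  induction l using List.reverseRecOn with
  | nil => rfl
  | append_singleton l b ih =>
    cases b
    · rw [lsb_append]
      simpa [stripZ, lsb_cons] using ih
    · rw [bits_lsb_concat_true]
      simp [stripZ]

/-! ### transducers -/

/-- drop leading zeros -/
def dzδ (s : Bool) (a _b : Option Bool) : Bool × List Bool :=
  if s || a.getD false then (true, [a.getD false]) else (false, [])

theorem run2_dz_true (l : List Bool) : (run2 dzδ true l []).2 = l := by
  induction l with
  | nil => rw [run2_nil_nil]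
  | cons a l ih => rw [run2_cons_nil]; simp [dzδ, ih]

theorem run2_dz (l : List Bool) : (run2 dzδ false l []).2 = l.dropWhile (fun b => !b) := by
  induction l with
  | nil => rw [run2_nil_nil]; rfl
  | cons a l ih =>
    rw [run2_cons_nil]
    cases a
    · simp [dzδ, ih]
    · simp [dzδ, run2_dz_true]

/-- ripple-carry adder -/
def addδ (c : Bool) (a b : Option Bool) : Bool × List Bool :=
  (Arith.maj (a.getD false) (b.getD false) c, [Arith.xor3 (a.getD false) (b.getD false) c])

theorem run2_add (c : Bool) (x y : List Bool) :
    lsb ((run2 addδ c x y).2 ++ [(run2 addδ c x y).1]) = lsb x + lsb y + c.toNat := by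
  fun_induction run2 addδ c x y with
  | case1 s => simp [lsb_cons]
  | case2 s a x ih =>
    have := Arith.full_adder a false s
    simp only [addδ, Option.getD_some, Option.getD_none, List.cons_append, List.nil_append,
      lsb_cons, lsb_nil, Bool.toNat_false] at ih this ⊢
    omega
  | case3 s b y ih =>
    have := Arith.full_adder false b s
    simp only [addδ, Option.getD_some, Option.getD_none, List.cons_append, List.nil_append,
      lsb_cons, lsb_nil, Bool.toNat_false] at ih this ⊢
    omega
  | case4 s a x b y ih =>
    have := Arith.full_adder a b s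
    simp only [addδ, Option.getD_some, List.cons_append, List.nil_append,
      lsb_cons] at ih this ⊢
    omega

/-- ripple-borrow subtractor -/
def subδ (c : Bool) (a b : Option Bool) : Bool × List Bool :=
  (Arith.bor (a.getD false) (b.getD false) c, [Arith.xor3 (a.getD false) (b.getD false) c])

theorem run2_sub (c : Bool) (x y : List Bool) :
    (lsb (run2 subδ c x y).2 : ℤ) - 2 ^ (run2 subδ c x y).2.length * (run2 subδ c x y).1.toNat =
      lsb x - lsb y - c.toNat := by
  fun_induction run2 subδ c x y with
  | case1 s => simp
  | case2 s a x ih =>
    have := Arith.full_sub a false s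
    simp only [subδ, Option.getD_some, Option.getD_none, List.cons_append, List.nil_append,
      lsb_cons, lsb_nil, Bool.toNat_false, List.length_cons, pow_succ] at ih this ⊢
    push_cast at ih this ⊢
    linear_combination 2 * ih - this
  | case3 s b y ih =>
    have := Arith.full_sub false b s
    simp only [subδ, Option.getD_some, Option.getD_none, List.cons_append, List.nil_append,
      lsb_cons, lsb_nil, Bool.toNat_false, List.length_cons, pow_succ] at ih this ⊢
    push_cast at ih this ⊢
    linear_combination 2 * ih - this
  | case4 s a x b y ih =>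
    have := Arith.full_sub a b s
    simp only [subδ, Option.getD_some, List.cons_append, List.nil_append,
      lsb_cons, List.length_cons, pow_succ] at ih this ⊢
    push_cast at ih this ⊢
    linear_combination 2 * ih - this

theorem run2_sub_fst (x y : List Bool) : (run2 subδ false x y).1 = decide (lsb x < lsb y) := by
  have h := run2_sub false x y
  have h1 := lsb_lt (run2 subδ false x y).2
  have h2 : ((lsb (run2 subδ false x y).2 : ℕ) : ℤ) < 2 ^ (run2 subδ false x y).2.length := by
    exact_mod_cast h1
  cases hc : (run2 subδ false x y).1
  · rw [hc] at h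
    simp only [Bool.toNat_false, Nat.cast_zero, mul_zero, sub_zero] at h
    symm; simp only [decide_eq_false_iff_not]; omega
  · rw [hc] at h
    simp only [Bool.toNat_false, Bool.toNat_true, Nat.cast_zero, Nat.cast_one, mul_one,
      sub_zero] at h
    symm; simp only [decide_eq_true_eq]; omega

theorem run2_sub_snd (x y : List Bool) (h : lsb y ≤ lsb x) :
    lsb (run2 subδ false x y).2 = lsb x - lsb y := by
  have h0 := run2_sub false x y
  rw [run2_sub_fst, decide_eq_false (by omega)] at h0
  simp only [Bool.toNat_false, Nat.cast_zero, mul_zero, sub_zero] at h0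
  omega

/-- bitwise operation -/
def bwδ (g : Bool → Bool → Bool) (_s : Unit) (a b : Option Bool) : Unit × List Bool :=
  ((), [g (a.getD false) (b.getD false)])

theorem run2_bw (g : Bool → Bool → Bool) (hg : g false false = false) (x y : List Bool) :
    lsb (run2 (bwδ g) () x y).2 = Nat.bitwise g (lsb x) (lsb y) := by
  have key : ∀ s : Unit, lsb (run2 (bwδ g) s x y).2 = Nat.bitwise g (lsb x) (lsb y) := by
    intro s
    fun_induction run2 (bwδ g) s x y with
    | case1 s => simp
    | case2 s a x ih =>
      simp only [bwδ, Option.getD_some, Option.getD_none, List.cons_append, List.nil_append,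
        lsb_cons_bit, lsb_nil] at ih ⊢
      rw [ih, ← Nat.bitwise_bit hg]; rfl
    | case3 s b y ih =>
      simp only [bwδ, Option.getD_some, Option.getD_none, List.cons_append, List.nil_append,
        lsb_cons_bit, lsb_nil] at ih ⊢
      rw [ih, ← Nat.bitwise_bit hg]; rfl
    | case4 s a x b y ih =>
      simp only [bwδ, Option.getD_some, List.cons_append, List.nil_append,
        lsb_cons_bit] at ih ⊢
      rw [ih, ← Nat.bitwise_bit hg]
  exact key ()

/-- the first `k` bits, padded with zeros -/
def padδ (_s : Unit) (a b : Option Bool) : Unit × List Bool :=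
  ((), if b.isSome then [a.getD false] else [])

theorem run2_pad (x : List Bool) (k : ℕ) :
    (run2 padδ () x (List.replicate k true)).2 = x.takeD k false := by
  induction k generalizing x with
  | zero =>
    induction x with
    | nil => simp [run2_nil_nil]
    | cons a x ih => simpa [run2_cons_nil, padδ] using ih
  | succ k ih =>
    cases x with
    | nil => rw [List.replicate_succ, run2_nil_cons]; simp [padδ, ih]
    | cons a x => rw [List.replicate_succ, run2_cons_cons]; simp [padδ, ih]

/-- drop the first `k` bits -/
def dropδ (_s : Unit) (a b : Option Bool) : Unit × List Bool :=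
  ((), if b.isSome then [] else [a.getD false])

theorem run2_drop (x : List Bool) (k : ℕ) :
    (run2 dropδ () x (List.replicate k true)).2 = x.drop k := by
  induction k generalizing x with
  | zero =>
    induction x with
    | nil => simp [run2_nil_nil]
    | cons a x ih => simpa [run2_cons_nil, dropδ] using ih
  | succ k ih =>
    cases x with
    | nil => rw [List.replicate_succ, run2_nil_cons]; simpa [dropδ] using ih []
    | cons a x => rw [List.replicate_succ, run2_cons_cons]; simp [dropδ, ih]

/-- decode a coded list of bits: keep the middle one of each three symbols -/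
def midδ (s : Fin 3) (a _b : Option Bool) : Fin 3 × List Bool :=
  (s + 1, if s = 1 then [a.getD false] else [])

theorem run2_mid (l : List Bool) :
    (run2 midδ 0 (l.flatMap (fun b => [true, b, false])) []).2 = l := by
  induction l with
  | nil => simp [run2_nil_nil]
  | cons a l ih =>
    have e : (a :: l).flatMap (fun b => [true, b, false]) =
        true :: a :: false :: l.flatMap (fun b => [true, b, false]) := by simp
    rw [e, run2_cons_nil, run2_cons_nil, run2_cons_nil]
    have e3 : (midδ (midδ (midδ 0 (some true) none).1 (some a) none).1 (some false) none).1 = 0 := by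
      simp [midδ]
    rw [e3, ih]
    simp [midδ]

/-- equality of bit strings -/
def eqδ (s : Bool) (a b : Option Bool) : Bool × List Bool := (s && decide (a = b), [])

theorem run2_eq (s : Bool) (x y : List Bool) : (run2 eqδ s x y).1 = (s && decide (x = y)) := by
  fun_induction run2 eqδ s x y with
  | case1 s => simp
  | case2 s a x ih => rw [ih]; simp [eqδ]
  | case3 s b y ih => rw [ih]; simp [eqδ]
  | case4 s a x b y ih => rw [ih]; simp [eqδ, Bool.and_assoc]

/-! ### fixed-width fields -/

/-- the `k` low bits of `n`, least significant first -/
def bitsW (k n : ℕ) : List Bool := n.bits.takeD k false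

@[simp] theorem length_bitsW (k n : ℕ) : (bitsW k n).length = k := by simp [bitsW]

theorem lsb_takeD (k : ℕ) (l : List Bool) : lsb (l.takeD k false) = lsb l % 2 ^ k := by
  induction k generalizing l with
  | zero => simp [Nat.mod_one]
  | succ k ih =>
    cases l with
    | nil => simp [lsb_cons]
    | cons b l => rw [← lsb_take, List.takeD_succ, List.take_succ_cons, lsb_cons, lsb_cons, ih,
        lsb_take]; rfl

theorem lsb_bitsW (k n : ℕ) : lsb (bitsW k n) = n % 2 ^ k := by
  rw [bitsW, lsb_takeD, lsb_bits]

theorem lsb_bitsW_of_lt {k n : ℕ} (h : n < 2 ^ k) : lsb (bitsW k n) = n := by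
  rw [lsb_bitsW, Nat.mod_eq_of_lt h]

theorem bitsW_eq_map (k n : ℕ) : bitsW k n = (List.range k).map (fun i => n.testBit i) := by
  refine List.ext_getElem (by simp) (fun i h1 h2 => ?_)
  have e := testBit_lsb (bitsW k n) i
  rw [List.getD_eq_getElem _ _ h1, lsb_bitsW, Nat.testBit_mod_two_pow] at e
  have hi : i < k := by simpa using h1
  simp [← e, hi]

theorem bitsW_lsb (l : List Bool) : bitsW l.length (lsb l) = l :=
  lsb_inj (by simp) (lsb_bitsW_of_lt (lsb_lt l))

end Crest.Agent.X326
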