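import Crest.Agent.X326.TC.TU
import Crest.Agent.X326.TC.BitsPure

/-!
# Linear-time arithmetic on binary natural numbers

All statements have the `fun_prop` form `TC P T f → TC P T g → TC P T (fun x => f x + g x)`.
Shift amounts and field widths are unary (`TU`).
-/

set_option autoImplicit false
set_option linter.dupNamespace false

namespace Crest.Agent.X326

open Crest.Agent.Lib.PT Function Fst

variable {α β γ τ : Type} [PTCode α] [PTCode β] [PTCode γ] [PTCode τ] {P : α → Prop} {T : α → ℕ}

/-! ### transducers -/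

theorem Lin.run2 {σ : Type} [Finite σ] (δ : σ → Option Bool → Option Bool → σ × List Bool)
    (s₀ : σ) (tag : σ → τ) :
    Lin (fun p : Bits × Bits =>
      (tag (run2 δ s₀ p.1.val p.2.val).1, Bits.mk (run2 δ s₀ p.1.val p.2.val).2)) := by
  obtain ⟨c, C, h⟩ := exists_run2 δ s₀ (fun s => enc (tag s))
  exact ⟨c, C, fun p _ => by simpa [Lib.PT.sz] using h p.1.val p.2.val⟩

/-- a finite-state transducer reading the codes of two computed values in parallel -/
theorem TC.run2 {σ : Type} [Finite σ] (δ : σ → Option Bool → Option Bool → σ × List Bool)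
    (s₀ : σ) (tag : σ → τ) {f : α → β} {g : α → γ} (hf : TC P T f) (hg : TC P T g) :
    TC P T (fun x => (tag (run2 δ s₀ (enc (f x)) (enc (g x))).1,
      Bits.mk (run2 δ s₀ (enc (f x)) (enc (g x))).2)) :=
  TC.comp_lin (f := fun x => (Lib.PT.toBits (f x), Lib.PT.toBits (g x))) (Lin.run2 δ s₀ tag)
    (hf.toBits.prodMk hg.toBits)

/-- output of a two-stream transducer -/
theorem TC.run2_out {σ : Type} [Finite σ] (δ : σ → Option Bool → Option Bool → σ × List Bool)
    (s₀ : σ) {f : α → β} {g : α → γ} (hf : TC P T f) (hg : TC P T g) :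
    TC P T (fun x => Bits.mk (Fst.run2 δ s₀ (enc (f x)) (enc (g x))).2) :=
  (TC.run2 δ s₀ (fun _ => ()) hf hg).snd

/-- final state of a two-stream transducer -/
theorem TC.run2_state {σ : Type} [Finite σ] (δ : σ → Option Bool → Option Bool → σ × List Bool)
    (s₀ : σ) (tag : σ → τ) {f : α → β} {g : α → γ} (hf : TC P T f) (hg : TC P T g) :
    TC P T (fun x => tag (Fst.run2 δ s₀ (enc (f x)) (enc (g x))).1) :=
  (TC.run2 δ s₀ tag hf hg).fst

/-- output of a one-stream transducer -/
theorem TC.run1_out {σ : Type} [Finite σ] (δ : σ → Option Bool → Option Bool → σ × List Bool)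
    (s₀ : σ) {f : α → β} (hf : TC P T f) :
    TC P T (fun x => Bits.mk (Fst.run2 δ s₀ (enc (f x)) []).2) :=
  TC.run2_out δ s₀ hf (TC.const ())

/-! ### raw bit strings -/

@[fun_prop]
theorem TC.bitsAppend {f g : α → Bits} (hf : TC P T f) (hg : TC P T g) :
    TC P T (fun x => Bits.mk ((f x).val ++ (g x).val)) :=
  TC.raw LinRaw.append (hf.prodMk hg) (fun x _ => by simp)

@[fun_prop]
theorem TC.bitsReverse {f : α → Bits} (hf : TC P T f) :
    TC P T (fun x => Bits.mk (f x).val.reverse) :=
  TC.raw LinRaw.reverse hf (fun _ _ => rfl)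

theorem enc_listBool (l : List Bool) : enc l = l.flatMap (fun b => [true, b, false]) := by
  induction l with
  | nil => rfl
  | cons b l ih => simp [ih, pair]

/-- a raw bit string as a coded list of bits -/
@[fun_prop]
theorem TC.bitsVal {f : α → Bits} (hf : TC P T f) : TC P T (fun x => (f x).val) :=
  TC.raw (LinRaw.flatMap (fun b => [true, b, false])) hf (fun x _ => by
    rw [enc_listBool]; rfl)

/-- a coded list of bits as a raw bit string -/
@[fun_prop]
theorem TC.bitsMk {f : α → List Bool} (hf : TC P T f) : TC P T (fun x => Bits.mk (f x)) :=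
  (TC.run1_out midδ 0 hf).of_eq (fun x => by rw [enc_listBool, run2_mid])

/-- the code of a value as a coded list of bits -/
theorem TC.encode {f : α → β} (hf : TC P T f) : TC P T (fun x => enc (f x)) :=
  hf.toBits.bitsVal

/-- value of a raw bit string (least significant bit first) -/
theorem TC.lsbBits {f : α → Bits} (hf : TC P T f) : TC P T (fun x => lsb (f x).val) :=
  (TC.run1_out dzδ false hf.bitsReverse).bitsReverse.recode (fun x _ => by
    simp only [enc_bits, run2_dz, enc_nat]
    exact stripZ_eq _)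

/-- value of a list of bits (least significant bit first) -/
@[fun_prop]
theorem TC.lsb {f : α → List Bool} (hf : TC P T f) : TC P T (fun x => lsb (f x)) :=
  hf.bitsMk.lsbBits

/-- value of a list of bits (most significant bit first) -/
@[fun_prop]
theorem TC.msb {f : α → List Bool} (hf : TC P T f) : TC P T (fun x => Arith.msb (f x)) :=
  hf.bitsMk.bitsReverse.lsbBits.of_eq (fun _ => lsb_reverse _)

/-- the bits of a number as a raw string -/
theorem TC.natBitsRaw {f : α → ℕ} (hf : TC P T f) : TC P T (fun x => Bits.mk (f x).bits) :=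
  hf.toBits

/-- the bits of a number as a coded list -/
@[fun_prop]
theorem TC.natBits {f : α → ℕ} (hf : TC P T f) : TC P T (fun x => (f x).bits) :=
  hf.encode

/-- equality test on any coded type -/
theorem TC.decideEq [DecidableEq β] {f g : α → β} (hf : TC P T f) (hg : TC P T g) :
    TC P T (fun x => decide (f x = g x)) :=
  (TC.run2_state eqδ true (fun s => s) hf hg).of_eq (fun x => by simp [run2_eq])

@[fun_prop]
theorem TP.eq {f g : α → β} (hf : TC P T f) (hg : TC P T g) : TP P T (fun x => f x = g x) := by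
  classical
  exact TP.of_tc (hf.decideEq hg)

@[fun_prop]
theorem TP.ne {f g : α → β} (hf : TC P T f) (hg : TC P T g) : TP P T (fun x => f x ≠ g x) :=
  (TP.eq hf hg).not

@[fun_prop]
theorem TC.beq [BEq β] [LawfulBEq β] {f g : α → β} (hf : TC P T f) (hg : TC P T g) :
    TC P T (fun x => f x == g x) := by
  classical
  exact (hf.decideEq hg).of_eq (fun x => by by_cases h : f x = g x <;> simp [h])

/-! ### addition, subtraction, comparison -/

section nat

variable {f g : α → ℕ}

@[fun_prop]
theorem TC.natAdd (hf : TC P T f) (hg : TC P T g) : TC P T (fun x => f x + g x) := by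
  have h := TC.run2 addδ false (fun s => Bits.mk [s]) hf hg
  refine (h.snd.bitsAppend h.fst).lsbBits.of_eq (fun x => ?_)
  simp [run2_add, enc_nat]

theorem TC.natDecideLt (hf : TC P T f) (hg : TC P T g) : TC P T (fun x => decide (f x < g x)) :=
  (TC.run2_state subδ false (fun s => s) hf hg).of_eq (fun x => by
    simp [run2_sub_fst, enc_nat])

theorem TC.natDecideLe (hf : TC P T f) (hg : TC P T g) : TC P T (fun x => decide (f x ≤ g x)) :=
  (hg.natDecideLt hf).not.of_eq (fun x => by by_cases h : f x ≤ g x <;> simp [h]; omega)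

@[fun_prop]
theorem TP.natLt (hf : TC P T f) (hg : TC P T g) : TP P T (fun x => f x < g x) :=
  TP.of_tc (hf.natDecideLt hg)

@[fun_prop]
theorem TP.natLe (hf : TC P T f) (hg : TC P T g) : TP P T (fun x => f x ≤ g x) :=
  TP.of_tc (hf.natDecideLe hg)

@[fun_prop]
theorem TP.natGt (hf : TC P T f) (hg : TC P T g) : TP P T (fun x => f x > g x) :=
  TP.natLt hg hf

@[fun_prop]
theorem TP.natGe (hf : TC P T f) (hg : TC P T g) : TP P T (fun x => f x ≥ g x) :=
  TP.natLe hg hf

@[fun_prop]
theorem TC.natSub (hf : TC P T f) (hg : TC P T g) : TC P T (fun x => f x - g x) := by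
  have h := (TC.run2_out subδ false hf hg).lsbBits
  refine (TC.ite (TP.natLt hf hg) (TC.const 0) h).of_eq (fun x => ?_)
  split_ifs with hlt
  · omega
  · rw [run2_sub_snd] <;> simp [enc_nat]; omega

@[fun_prop]
theorem TC.natSucc (hf : TC P T f) : TC P T (fun x => (f x).succ) := hf.natAdd (TC.const 1)

@[fun_prop]
theorem TC.natPred (hf : TC P T f) : TC P T (fun x => (f x).pred) := hf.natSub (TC.const 1)

@[fun_prop]
theorem TC.natMax (hf : TC P T f) (hg : TC P T g) : TC P T (fun x => max (f x) (g x)) :=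
  (TC.ite (TP.natLe hf hg) hg hf).of_eq (fun _ => (max_def _ _).symm)

@[fun_prop]
theorem TC.natMin (hf : TC P T f) (hg : TC P T g) : TC P T (fun x => min (f x) (g x)) :=
  (TC.ite (TP.natLe hf hg) hf hg).of_eq (fun _ => (min_def _ _).symm)

/-- multiplication by a fixed constant -/
@[fun_prop]
theorem TC.natConstMul (c : ℕ) (hf : TC P T f) : TC P T (fun x => c * f x) := by
  induction c using Nat.binaryRec' with
  | zero => exact (TC.const 0).of_eq (fun x => by simp)
  | bit b c _ ih =>
    cases b
    · exact (ih.natAdd ih).of_eq (fun x => by rw [Nat.bit_val]; simp; ring)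
    · exact ((ih.natAdd ih).natAdd hf).of_eq (fun x => by rw [Nat.bit_val]; simp; ring)

@[fun_prop]
theorem TC.natMulConst (c : ℕ) (hf : TC P T f) : TC P T (fun x => f x * c) :=
  (hf.natConstMul c).of_eq (fun x => by ring)

/-! ### bitwise operations -/

theorem TC.natBitwise (op : Bool → Bool → Bool) (hop : op false false = false) (hf : TC P T f)
    (hg : TC P T g) : TC P T (fun x => Nat.bitwise op (f x) (g x)) :=
  (TC.run2_out (bwδ op) () hf hg).lsbBits.of_eq (fun x => by simp [run2_bw op hop, enc_nat])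

@[fun_prop]
theorem TC.natXor (hf : TC P T f) (hg : TC P T g) : TC P T (fun x => f x ^^^ g x) :=
  TC.natBitwise bne rfl hf hg

@[fun_prop]
theorem TC.natLand (hf : TC P T f) (hg : TC P T g) : TC P T (fun x => f x &&& g x) :=
  TC.natBitwise Bool.and rfl hf hg

@[fun_prop]
theorem TC.natLor (hf : TC P T f) (hg : TC P T g) : TC P T (fun x => f x ||| g x) :=
  TC.natBitwise Bool.or rfl hf hg

/-! ### shifts and fields -/

variable {k : α → ℕ}

/-- the `k` low bits as a raw string of length exactly `k` -/
theorem TC.bitsWRaw (hk : TU P T k) (hf : TC P T f) :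
    TC P T (fun x => Bits.mk (bitsW (k x) (f x))) :=
  (TC.run2_out padδ () hf hk).of_eq (fun x => by simp [run2_pad, enc_nat, bitsW])

/-- the `k` low bits as a list of length exactly `k` -/
@[fun_prop]
theorem TC.bitsW (hk : TU P T k) (hf : TC P T f) : TC P T (fun x => bitsW (k x) (f x)) :=
  (TC.bitsWRaw hk hf).bitsVal

@[fun_prop]
theorem TC.natModTwoPow (hf : TC P T f) (hk : TU P T k) : TC P T (fun x => f x % 2 ^ k x) :=
  (TC.bitsWRaw hk hf).lsbBits.of_eq (fun _ => lsb_bitsW _ _)

@[fun_prop]
theorem TC.natDivTwoPow (hf : TC P T f) (hk : TU P T k) : TC P T (fun x => f x / 2 ^ k x) :=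
  (TC.run2_out dropδ () hf hk).lsbBits.of_eq (fun x => by simp [run2_drop, enc_nat, lsb_drop])

@[fun_prop]
theorem TC.natShiftRight (hf : TC P T f) (hk : TU P T k) : TC P T (fun x => f x >>> k x) :=
  (hf.natDivTwoPow hk).of_eq (fun _ => (Nat.shiftRight_eq_div_pow _ _).symm)

theorem TC.zerosRaw (hk : TU P T k) : TC P T (fun x => Bits.mk (List.replicate (k x) false)) :=
  TC.raw (LinRaw.flatMap (fun _ => [false])) hk (fun x _ => by
    simp only [enc_un, enc_bits]
    induction k x with
    | zero => rfl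
    | succ n ih => simp [List.replicate_succ, ih])

@[fun_prop]
theorem TC.natMulTwoPow (hf : TC P T f) (hk : TU P T k) : TC P T (fun x => f x * 2 ^ k x) :=
  ((TC.zerosRaw hk).bitsAppend hf.natBitsRaw).lsbBits.of_eq (fun x => by
    simp [lsb_append, mul_comm])

@[fun_prop]
theorem TC.natTwoPowMul (hk : TU P T k) (hf : TC P T f) : TC P T (fun x => 2 ^ k x * f x) :=
  (hf.natMulTwoPow hk).of_eq (fun _ => mul_comm _ _)

@[fun_prop]
theorem TC.natShiftLeft (hf : TC P T f) (hk : TU P T k) : TC P T (fun x => f x <<< k x) :=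
  (hf.natMulTwoPow hk).of_eq (fun _ => (Nat.shiftLeft_eq _ _).symm)

theorem TC.natTwoPow (hk : TU P T k) : TC P T (fun x => 2 ^ k x) :=
  ((TC.const 1).natMulTwoPow hk).of_eq (fun _ => one_mul _)

@[fun_prop]
theorem TC.natDiv2 (hf : TC P T f) : TC P T (fun x => (f x).div2) :=
  (hf.natDivTwoPow (TU.const 1)).of_eq (fun x => by simp [Nat.div2_val])

theorem TC.natDivTwo (hf : TC P T f) : TC P T (fun x => f x / 2) :=
  (hf.natDivTwoPow (TU.const 1)).of_eq (fun x => by simp)

theorem TC.natModTwo (hf : TC P T f) : TC P T (fun x => f x % 2) :=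
  (hf.natModTwoPow (TU.const 1)).of_eq (fun x => by simp)

@[fun_prop]
theorem TC.natTestBit (hf : TC P T f) (hk : TU P T k) : TC P T (fun x => (f x).testBit (k x)) :=
  ((hf.natDivTwoPow hk).natModTwo.decideEq (TC.const 1)).of_eq (fun x => by
    rw [Nat.testBit_eq_decide_div_mod_eq])

@[fun_prop]
theorem TC.natBodd (hf : TC P T f) : TC P T (fun x => (f x).bodd) :=
  (hf.natTestBit (TU.const 0)).of_eq (fun x => by
    rw [Nat.testBit_zero, Nat.mod_two_of_bodd]; cases (f x).bodd <;> simp)

@[fun_prop]
theorem TC.boolToNat {b : α → Bool} (hb : TC P T b) : TC P T (fun x => (b x).toNat) :=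
  (TC.cond hb (TC.const 1) (TC.const 0)).of_eq (fun x => by cases b x <;> rfl)

@[fun_prop]
theorem TC.natBit {b : α → Bool} (hb : TC P T b) (hf : TC P T f) :
    TC P T (fun x => Nat.bit (b x) (f x)) :=
  ((hf.natAdd hf).natAdd hb.boolToNat).of_eq (fun x => by rw [Nat.bit_val]; ring)

@[fun_prop]
theorem TP.natEven (hf : TC P T f) : TP P T (fun x => Even (f x)) :=
  (TP.eq hf.natModTwo (TC.const 0)).congr (fun _ _ => Nat.even_iff.symm)

@[fun_prop]
theorem TP.natOdd (hf : TC P T f) : TP P T (fun x => Odd (f x)) :=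
  (TP.eq hf.natModTwo (TC.const 1)).congr (fun _ _ => Nat.odd_iff.symm)

/-! ### arithmetic modulo a number `M` given in binary -/

variable {M : α → ℕ}

/-- one conditional subtraction: reduction of numbers below `2 M` -/
theorem TC.natModOfLt (hf : TC P T f) (hM : TC P T M) (h : ∀ x, P x → f x < 2 * M x) :
    TC P T (fun x => f x % M x) :=
  (TC.ite (TP.natLt hf hM) hf (hf.natSub hM)).congr (fun x hx => by
    have := h x hx
    split_ifs with hlt
    · rw [Nat.mod_eq_of_lt hlt]
    · rw [Nat.mod_eq_sub_mod (by omega), Nat.mod_eq_of_lt (by omega)])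

/-- reduction of numbers below `c * M`, `c` a fixed constant -/
theorem TC.natModOfLtMul (c : ℕ) (hf : TC P T f) (hM : TC P T M)
    (h : ∀ x, P x → f x < c * M x) : TC P T (fun x => f x % M x) := by
  induction c generalizing f with
  | zero => exact hf.congr (fun x hx => by simpa using h x hx)
  | succ c ih =>
    rcases Nat.eq_zero_or_pos c with rfl | hc
    · exact hf.congr (fun x hx => (Nat.mod_eq_of_lt (by simpa using h x hx)).symm)
    · refine (ih (f := fun x => if f x < M x then f x else f x - M x)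
        (TC.ite (TP.natLt hf hM) hf (hf.natSub hM)) (fun x hx => ?_)).congr (fun x hx => ?_)
      · have h1 := h x hx
        have h2 : M x ≤ c * M x := Nat.le_mul_of_pos_left _ hc
        rw [add_mul, one_mul] at h1
        split_ifs <;> omega
      · split_ifs with hlt
        · rfl
        · rw [Nat.mod_eq_sub_mod (Nat.le_of_not_lt hlt)]

/-- reduction modulo `2 ^ k - 1` of numbers below `2 ^ (c k)`, `c` a fixed constant -/
theorem TC.natModMersenne (c : ℕ) (hf : TC P T f) (hk : TU P T k)
    (h : ∀ x, P x → 1 ≤ k x ∧ f x < 2 ^ (c * k x)) : TC P T (fun x => f x % (2 ^ k x - 1)) := by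
  have hM : TC P T (fun x => 2 ^ k x - 1) := (TC.natTwoPow hk).natSub (TC.const 1)
  induction c generalizing f with
  | zero =>
    exact (TC.const 0).congr (fun x hx => by
      have := (h x hx).2
      simp only [zero_mul, pow_zero] at this
      rw [show f x = 0 by omega, Nat.zero_mod])
  | succ c ih =>
    have h1 := ih (f := fun x => f x / 2 ^ k x) (hf.natDivTwoPow hk) (fun x hx => ⟨(h x hx).1, by
      rw [Nat.div_lt_iff_lt_mul (by positivity), ← pow_add]
      simpa [add_mul] using (h x hx).2⟩)
    refine (TC.natModOfLtMul 3 (h1.natAdd (hf.natModTwoPow hk)) hM (fun x hx => ?_)).congr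
      (fun x hx => ?_)
    · have h2 : 2 ≤ 2 ^ k x := by
        calc 2 = 2 ^ 1 := rfl
          _ ≤ 2 ^ k x := Nat.pow_le_pow_right (by norm_num) (h x hx).1
      have h3 : f x / 2 ^ k x % (2 ^ k x - 1) < 2 ^ k x - 1 := Nat.mod_lt _ (by omega)
      have h4 : f x % 2 ^ k x < 2 ^ k x := Nat.mod_lt _ (by omega)
      omega
    · have h2 : 1 ≤ 2 ^ k x := Nat.one_le_two_pow
      have e : f x = f x / 2 ^ k x + f x % 2 ^ k x + (2 ^ k x - 1) * (f x / 2 ^ k x) := by
        conv_lhs => rw [← Nat.div_add_mod (f x) (2 ^ k x)]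
        rw [Nat.sub_mul, one_mul]
        have : f x / 2 ^ k x ≤ 2 ^ k x * (f x / 2 ^ k x) := Nat.le_mul_of_pos_left _ h2
        omega
      conv_rhs => rw [e, Nat.add_mul_mod_self_left]
      rw [Nat.mod_add_mod]

end nat

/-! ### the same as `Lin` statements on pairs -/

theorem Lin.natAdd : Lin (fun p : ℕ × ℕ => p.1 + p.2) := by fun_prop
theorem Lin.natSub : Lin (fun p : ℕ × ℕ => p.1 - p.2) := by fun_prop
theorem Lin.natXor : Lin (fun p : ℕ × ℕ => p.1 ^^^ p.2) := by fun_prop

/-! ### sizes -/

theorem sz_add_le (a b : ℕ) : sz (a + b) ≤ sz a + sz b + 1 := by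
  simp only [sz_nat]; exact Arith.size_add_le a b

theorem sz_le_of_lt_two_pow {a k : ℕ} (h : a < 2 ^ k) : sz a ≤ k := by
  rw [sz_nat]; exact Nat.size_le.2 h

theorem lt_two_pow_sz (a : ℕ) : a < 2 ^ sz a := by
  rw [sz_nat]; exact Nat.lt_size_self a

theorem sz_nat_mono {a b : ℕ} (h : a ≤ b) : sz a ≤ sz b := by
  simp only [sz_nat]; exact Nat.size_le_size h

end Crest.Agent.X326
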