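import Crest.Agent.X326.TC.TU

/-!
# Linear-time list functions

`append`, `reverse`, `flatten`, `zip`, `replicate` (cost = output), `rotate`, `concat`, singleton,
sublists by unary positions (`take`, `drop`, `length` are in `TC/TU.lean`).
-/

set_option autoImplicit false
set_option linter.dupNamespace false

namespace Crest.Agent.X326

open Crest.Agent.Lib.PT Function

variable {α β γ : Type} [PTCode α] [PTCode β] [PTCode γ] {P : α → Prop} {T : α → ℕ}

/-! ### append, reverse, flatten, zip -/

theorem Lin.append : Lin (fun p : List β × List β => p.1 ++ p.2) :=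
  TC.of_run ListRun.appendP (Bud.of_le 0 10 8 (fun _ _ => by simp))
    (fun p _ => ListRun.run_append p)

@[fun_prop]
theorem TC.append {l l' : α → List β} (hl : TC P T l) (hl' : TC P T l') :
    TC P T (fun x => l x ++ l' x) :=
  TC.comp₂ (g := fun a b : List β => a ++ b) Lin.append hl hl'

theorem Lin.reverse : Lin (fun l : List β => l.reverse) :=
  TC.of_run ListRun.reverseP (Bud.of_le 0 22 3 (fun _ _ => by simp))
    (fun l _ => ListRun.run_reverse l)

@[fun_prop]
theorem TC.reverse {l : α → List β} (hl : TC P T l) : TC P T (fun x => (l x).reverse) :=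
  TC.comp_lin (g := fun l : List β => l.reverse) Lin.reverse hl

theorem Lin.flatten : Lin (fun L : List (List β) => L.flatten) :=
  TC.of_run ListRun.flattenP (Bud.of_le 0 14 2 (fun _ _ => by simp))
    (fun L _ => ListRun.run_flatten L)

@[fun_prop]
theorem TC.flatten {L : α → List (List β)} (hL : TC P T L) : TC P T (fun x => (L x).flatten) :=
  TC.comp_lin (g := fun L : List (List β) => L.flatten) Lin.flatten hL

theorem Lin.zip : Lin (fun p : List β × List γ => p.1.zip p.2) :=
  TC.of_run ListRun.zipP (Bud.of_le 0 30 20 (fun _ _ => by simp))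
    (fun p _ => ListRun.run_zip p)

@[fun_prop]
theorem TC.zip {l : α → List β} {l' : α → List γ} (hl : TC P T l) (hl' : TC P T l') :
    TC P T (fun x => (l x).zip (l' x)) :=
  TC.comp₂ (g := fun (a : List β) (b : List γ) => a.zip b) Lin.zip hl hl'

/-! ### replicate -/

theorem sz_replicate (n : ℕ) (a : β) : sz (List.replicate n a) = n * (2 * sz a + 1) := by
  induction n with
  | zero => simp
  | succ n ih => rw [List.replicate_succ, sz_cons, ih]; ring

theorem TC.replicateU : TC (fun _ => True) (fun p : Un × β => p.1.val * (Lib.PT.sz p.2 + 1))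
    (fun p => List.replicate p.1.val p.2) :=
  TC.of_run ListRun.replicateP (Bud.of_le 18 18 13 (fun _ _ => le_rfl))
    (fun p _ => ListRun.run_replicate p)

/-- `replicate`: the cost is the size of the output -/
theorem TC.replicate {n : α → ℕ} {a : α → β} (hn : TU P T n) (ha : TC P T a)
    (hb : Bud P T (fun x => n x * Lib.PT.sz (a x))) : TC P T (fun x => List.replicate (n x) (a x)) :=
  TC.comp (f := fun x => (Un.mk (n x), a x)) TC.replicateU (TC.prodMk hn ha) (fun _ _ => trivial)
    ((hb.add hn.bud).mono (fun x _ => by simp [mul_add]))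

/-- `replicate` of a fixed element -/
@[fun_prop]
theorem TC.replicate_const {n : α → ℕ} (a : β) (hn : TU P T n) :
    TC P T (fun x => List.replicate (n x) a) :=
  TC.replicate hn (TC.const a) (hn.bud.mul_const _)

/-- product of unary numbers: the cost is the value -/
theorem TU.mul {m n : α → ℕ} (hm : TU P T m) (hn : TU P T n)
    (hb : Bud P T (fun x => m x * n x)) : TU P T (fun x => m x * n x) := by
  have h1 : TC P T (fun x => List.replicate (m x) (List.replicate (n x) ())) :=
    TC.replicate hm hn.units (hb.mono (fun x _ => by simp [sz_replicate]))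
  exact (TU.length h1.flatten).of_eq (fun x => by simp)

/-! ### singleton, cons, concat -/

theorem TC.singleton {a : α → β} (ha : TC P T a) : TC P T (fun x => [a x]) :=
  TC.listCons ha (TC.const [])

@[fun_prop]
theorem TC.concat {a : α → β} {l : α → List β} (hl : TC P T l) (ha : TC P T a) :
    TC P T (fun x => (l x).concat (a x)) :=
  (hl.append ha.singleton).of_eq (fun x => by simp)

/-! ### head, tail, entries -/

/-- entry at a unary position, as an option -/
@[fun_prop]
theorem TC.getElem? {n : α → ℕ} {l : α → List β} (hn : TU P T n) (hl : TC P T l) :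
    TC P T (fun x => (l x)[n x]?) :=
  (TC.head? (TC.drop hn hl)).of_eq (fun x => by simp)

/-- entry at a unary position, with default -/
@[fun_prop]
theorem TC.getD {n : α → ℕ} {l : α → List β} {d : α → β} (hl : TC P T l) (hn : TU P T n)
    (hd : TC P T d) : TC P T (fun x => (l x).getD (n x) (d x)) :=
  (TC.headD (TC.drop hn hl) hd).of_eq (fun x => by
    rw [List.headD_eq_head?_getD, List.head?_drop, List.getD_eq_getElem?_getD])

@[fun_prop]
theorem TC.getLast? {l : α → List β} (hl : TC P T l) : TC P T (fun x => (l x).getLast?) :=
  (TC.head? hl.reverse).of_eq (fun x => by simp)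

@[fun_prop]
theorem TC.getLastD {l : α → List β} {d : α → β} (hl : TC P T l) (hd : TC P T d) :
    TC P T (fun x => (l x).getLastD (d x)) :=
  (TC.headD hl.reverse hd).of_eq (fun x => by
    rw [List.headD_eq_head?_getD, List.head?_reverse, List.getLastD_eq_getLast?])

@[fun_prop]
theorem TC.dropLast {l : α → List β} (hl : TC P T l) : TC P T (fun x => (l x).dropLast) :=
  (TC.reverse (TC.tail hl.reverse)).of_eq (fun x => by simp)

/-- overwrite the entry at a unary position -/
@[fun_prop]
theorem TC.set {n : α → ℕ} {l : α → List β} {a : α → β} (hl : TC P T l) (hn : TU P T n)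
    (ha : TC P T a) : TC P T (fun x => (l x).set (n x) (a x)) := by
  have h1 : TC P T (fun x => (((l x).take (n x)) ++ a x :: (l x).drop (n x + 1)).take
      (l x).length) :=
    TC.take (TU.length hl) (TC.append (TC.take hn hl)
      (TC.listCons ha (TC.drop (hn.add (TU.const 1)) hl)))
  refine h1.of_eq (fun x => ?_)
  rw [List.set_eq_take_append_cons_drop]
  split_ifs with h
  · exact List.take_of_length_le (by simp; omega)
  · have h' : (l x).length ≤ n x := by omega
    rw [List.take_of_length_le h']
    simp

@[fun_prop]
theorem TC.splitAt {n : α → ℕ} {l : α → List β} (hn : TU P T n) (hl : TC P T l) :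
    TC P T (fun x => (l x).splitAt (n x)) :=
  (TC.takeDrop hn hl).of_eq (fun x => by simp)

@[fun_prop]
theorem TC.eraseIdx {n : α → ℕ} {l : α → List β} (hl : TC P T l) (hn : TU P T n) :
    TC P T (fun x => (l x).eraseIdx (n x)) :=
  ((TC.take hn hl).append (TC.drop (hn.add (TU.const 1)) hl)).of_eq
    (fun _ => (List.eraseIdx_eq_take_drop_succ _ _).symm)

/-! ### rotation -/

/-- rotation to the left by `n ≤ length` places (the identity for larger `n`) -/
def rot {δ : Type} (n : ℕ) (l : List δ) : List δ := l.drop n ++ l.take n

theorem rot_eq_rotate {δ : Type} {n : ℕ} {l : List δ} (h : n ≤ l.length) : rot n l = l.rotate n :=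
  (List.rotate_eq_drop_append_take h).symm

@[simp] theorem length_rot {δ : Type} (n : ℕ) (l : List δ) : (rot n l).length = l.length := by
  simp [rot]; omega

theorem sz_rot (n : ℕ) (l : List β) : sz (rot n l) = sz l := by
  rw [rot, sz_append, add_comm, ← sz_append, List.take_append_drop]

theorem sz_rotate (l : List β) (n : ℕ) : sz (l.rotate n) = sz l := by
  rw [List.rotate_eq_drop_append_take_mod, sz_append, add_comm, ← sz_append,
    List.take_append_drop]

@[fun_prop]
theorem TC.rot {n : α → ℕ} {l : α → List β} (hn : TU P T n) (hl : TC P T l) :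
    TC P T (fun x => rot (n x) (l x)) :=
  (TC.drop hn hl).append (TC.take hn hl)

/-- rotation by at most the length -/
theorem TC.rotate_of_le {n : α → ℕ} {l : α → List β} (hl : TC P T l) (hn : TU P T n)
    (h : ∀ x, P x → n x ≤ (l x).length) : TC P T (fun x => (l x).rotate (n x)) :=
  (TC.rot hn hl).congr (fun x hx => rot_eq_rotate (h x hx))

/-- rotation by any amount, given its residue in unary -/
theorem TC.rotate_of_mod {n : α → ℕ} {l : α → List β} (hl : TC P T l)
    (hn : TU P T (fun x => n x % (l x).length)) : TC P T (fun x => (l x).rotate (n x)) :=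
  (TC.rot hn hl).of_eq (fun _ => List.rotate_eq_drop_append_take_mod.symm)

/-! ### padding -/

/-- pad (or cut) to a given length with a default element -/
theorem TC.takeD {n : α → ℕ} {l : α → List β} {d : α → β} (hn : TU P T n) (hl : TC P T l)
    (hd : TC P T d) (hb : Bud P T (fun x => n x * Lib.PT.sz (d x))) :
    TC P T (fun x => List.takeD (n x) (l x) (d x)) := by
  refine (TC.take hn (hl.append (TC.replicate hn hd hb))).of_eq (fun x => ?_)
  generalize n x = k
  generalize l x = m
  have key : ∀ (k j : ℕ) (m : List β), k ≤ j →
      (m ++ List.replicate j (d x)).take k = List.takeD k m (d x) := by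
    intro k
    induction k with
    | zero => intro j m _; simp
    | succ k ih =>
      intro j m hj
      cases m with
      | nil => simp [hj, List.replicate_succ]
      | cons a m => simp [ih j m (by omega)]
  exact key k k m le_rfl

end Crest.Agent.X326
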