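import Crest.Agent.X326.TC.Un
import Crest.Agent.X326.TC.NatLin
import Crest.Agent.X326.TC.Map
import Crest.Agent.X326.TC.ListLin

/-!
# Schoolbook multiplication and long division in the time calculus

* `TC.natMulSchool` : `f * g` at cost `size f * (size f + size g + 1)`;
* `TC.natDivSchool`, `TC.natModSchool` : `f / g`, `f % g` at cost `size f * (size g + 1)`;
* `TC.natDivConst`, `TC.natModConst` : division by a fixed constant is linear.
-/

set_option autoImplicit false
set_option linter.dupNamespace false

namespace Crest.Agent.X326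

open Crest.Agent.Lib.PT Function

namespace NatMul

/-- one step of the schoolbook product; state = (multiplicand, accumulator) -/
def mulStep (s : ℕ × ℕ) (b : Bool) : ℕ × ℕ := (s.1, Nat.bit false s.2 + (if b then s.1 else 0))

theorem foldl_mulStep (y r : ℕ) (l : List Bool) :
    l.foldl mulStep (y, r) = (y, r * 2 ^ l.length + Arith.msb l * y) := by
  rw [← Arith.mul_foldl]
  induction l generalizing r with
  | nil => rfl
  | cons b l ih => rw [List.foldl_cons, List.foldl_cons, ← ih]; rfl

theorem lin_mulStep : Lin (fun q : (ℕ × ℕ) × Bool => mulStep q.1 q.2) := by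
  unfold mulStep
  fun_prop

/-- one step of long division; state = (divisor, remainder), output = quotient bit -/
def dmStep (s : ℕ × ℕ) (b : Bool) : (ℕ × ℕ) × Bool :=
  if s.1 ≤ Nat.bit b s.2 then ((s.1, Nat.bit b s.2 - s.1), true) else ((s.1, Nat.bit b s.2), false)

theorem lin_dmStep : Lin (fun q : (ℕ × ℕ) × Bool => dmStep q.1 q.2) := by
  unfold dmStep
  fun_prop

theorem foldl_divStep (y q r : ℕ) (l : List Bool) :
    l.foldl (Arith.divStep y) (q, r) =
      ((mapAcc dmStep (y, r) l).foldl (fun n b => Nat.bit b n) q,
        (l.foldl (fun s a => (dmStep s a).1) (y, r)).2) := by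
  induction l generalizing q r with
  | nil => rfl
  | cons b l ih =>
    by_cases h : y ≤ Nat.bit b r
    · simp only [List.foldl_cons, mapAcc_cons, Arith.divStep, dmStep, if_pos h]
      exact ih _ _
    · simp only [List.foldl_cons, mapAcc_cons, Arith.divStep, dmStep, if_neg h]
      exact ih _ _

theorem div_eq_mapAcc (x y : ℕ) (hy : 0 < y) :
    Arith.msb (mapAcc dmStep (y, 0) x.bits.reverse) = x / y := by
  have := Arith.div_mod_eq x y hy
  rw [foldl_divStep] at this
  exact (Prod.mk.inj this).1

theorem mod_eq_foldl (x y : ℕ) (hy : 0 < y) :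
    (x.bits.reverse.foldl (fun s a => (dmStep s a).1) (y, 0)).2 = x % y := by
  have := Arith.div_mod_eq x y hy
  rw [foldl_divStep] at this
  exact (Prod.mk.inj this).2

theorem dmStep_inv {y : ℕ} {t : ℕ × ℕ} (b : Bool) (h : t.1 = y ∧ t.2 < y) :
    (dmStep t b).1.1 = y ∧ (dmStep t b).1.2 < y := by
  obtain ⟨h1, h2⟩ := h
  have hb : Nat.bit b t.2 < 2 * y := by
    rw [Nat.bit_val]
    have := b.toNat_le
    omega
  unfold dmStep
  split_ifs with h <;> simp only <;> omega

theorem sz_state_le {y : ℕ} {t : ℕ × ℕ} (h : t.1 = y ∧ t.2 < y) : sz t ≤ 3 * (y.size + 1) := by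
  rw [sz_prod, sz_nat, sz_nat, h.1]
  have := Nat.size_le_size h.2.le
  omega

end NatMul

open NatMul

section

variable {α : Type} [PTCode α] {P : α → Prop} {T : α → ℕ} {f g : α → ℕ}

/-- schoolbook multiplication -/
theorem TC.natMulSchool (hf : TC P T f) (hg : TC P T g)
    (hb : Bud P T (fun x => (f x).size * ((f x).size + (g x).size + 1))) :
    TC P T (fun x => f x * g x) := by
  have h := TC.foldl_idx (f := mulStep) lin_mulStep (s := fun x => (g x, 0))
    (l := fun x => (f x).bits.reverse) (hg.prodMk (TC.const 0)) hf.natBits.reverse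
    (fun x => 3 * ((f x).size + (g x).size + 1)) (fun x _ i hi => ⟨trivial, by
      rw [foldl_mulStep, sz_prod, sz_nat, sz_nat, zero_mul, zero_add, zero_add]
      have h1 := Arith.size_mul_le (Arith.msb ((f x).bits.reverse.take i)) (g x)
      have h2 := Arith.size_msb_le ((f x).bits.reverse.take i)
      rw [List.length_take, List.length_reverse, Nat.size_eq_bits_len] at h2
      simp only
      omega⟩)
    ((hb.const_mul 3).mono (fun x _ => by
      rw [List.length_reverse, Nat.size_eq_bits_len]; exact le_of_eq (by ring)))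
  exact h.snd.of_eq (fun x => by rw [foldl_mulStep, Arith.msb_bits_reverse]; simp)

theorem tc_mulSchool : TC (fun _ : ℕ × ℕ => True)
    (fun q => q.1.size * (q.1.size + q.2.size + 1)) (fun q => q.1 * q.2) :=
  TC.natMulSchool (TC.fst TC.id) (TC.snd TC.id) Bud.self

/-- the form `MulTC (fun m => m)` of the base multiplier -/
theorem tc_mulSchool' : TC (fun _ : ℕ × ℕ => True)
    (fun q => (q.1.size + q.2.size + 1) * (q.1.size + q.2.size)) (fun q => q.1 * q.2) :=
  tc_mulSchool.le (fun q _ => by nlinarith [Nat.zero_le q.2.size])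

/-- long division: the quotient -/
theorem TC.natDivSchool (hf : TC P T f) (hg : TC P T g)
    (hb : Bud P T (fun x => (f x).size * ((g x).size + 1))) : TC P T (fun x => f x / g x) := by
  have h : TC (fun x => P x ∧ ¬ g x = 0) T (fun x => f x / g x) := by
    have h1 := TC.mapAcc_inv (P := fun x => P x ∧ ¬ g x = 0) (T := T) (f := dmStep) lin_dmStep
      (s := fun x => (g x, 0)) (l := fun x => (f x).bits.reverse)
      ((hg.prodMk (TC.const 0)).restrict (fun _ h => h.1))
      (hf.natBits.reverse.restrict (fun _ h => h.1))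
      (fun x t => t.1 = g x ∧ t.2 < g x) (fun x _ => 3 * ((g x).size + 1))
      (fun x hx => ⟨rfl, Nat.pos_of_ne_zero hx.2⟩)
      (fun x _ t a _ ht => ⟨trivial, by simpa using sz_state_le ht, dmStep_inv a ht⟩)
      (((hb.const_mul 3).restrict (fun _ h => h.1)).mono (fun x _ => by
        simp only [List.map_const', List.sum_replicate, List.length_reverse, Nat.size_eq_bits_len,
          smul_eq_mul]
        exact le_of_eq (by ring)))
    exact h1.msb.congr (fun x hx => div_eq_mapAcc _ _ (Nat.pos_of_ne_zero hx.2))
  exact (TC.ite' (hg.decideEq (TC.const 0)) (TC.const 0) h).of_eq (fun x => by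
    split_ifs with h0
    · simp [h0]
    · rfl)

/-- long division: the remainder -/
theorem TC.natModSchool (hf : TC P T f) (hg : TC P T g)
    (hb : Bud P T (fun x => (f x).size * ((g x).size + 1))) : TC P T (fun x => f x % g x) := by
  have h : TC (fun x => P x ∧ ¬ g x = 0) T (fun x => f x % g x) := by
    have h1 := TC.foldl_inv (P := fun x => P x ∧ ¬ g x = 0) (T := T)
      (f := fun s a => (dmStep s a).1) lin_dmStep.fst
      (s := fun x => (g x, 0)) (l := fun x => (f x).bits.reverse)
      ((hg.prodMk (TC.const 0)).restrict (fun _ h => h.1))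
      (hf.natBits.reverse.restrict (fun _ h => h.1))
      (fun x t => t.1 = g x ∧ t.2 < g x) (fun x _ => 3 * ((g x).size + 1))
      (fun x hx => ⟨rfl, Nat.pos_of_ne_zero hx.2⟩)
      (fun x _ t a _ ht => ⟨trivial, by simpa using sz_state_le ht, dmStep_inv a ht⟩)
      (((hb.const_mul 3).restrict (fun _ h => h.1)).mono (fun x _ => by
        simp only [List.map_const', List.sum_replicate, List.length_reverse, Nat.size_eq_bits_len,
          smul_eq_mul]
        exact le_of_eq (by ring)))
    exact h1.snd.congr (fun x hx => mod_eq_foldl _ _ (Nat.pos_of_ne_zero hx.2))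
  exact (TC.ite' (hg.decideEq (TC.const 0)) (hf.restrict (fun _ h => h.1)) h).of_eq (fun x => by
    split_ifs with h0
    · simp [h0]
    · rfl)

/-- division by a fixed constant is linear -/
theorem TC.natDivConst (c : ℕ) (hf : TC P T f) : TC P T (fun x => f x / c) :=
  hf.natDivSchool (TC.const c) ((TU.size hf).bud.mul_const _)

/-- remainder modulo a fixed constant is linear -/
theorem TC.natModConst (c : ℕ) (hf : TC P T f) : TC P T (fun x => f x % c) :=
  hf.natModSchool (TC.const c) ((TU.size hf).bud.mul_const _)

/-- the remainder modulo a fixed positive constant, in unary -/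
theorem TU.natModConst {c : ℕ} (hc : 0 < c) (hf : TC P T f) : TU P T (fun x => f x % c) :=
  TU.ofNat (hf.natModConst c) ((Bud.const c).mono (fun _ _ => (Nat.mod_lt _ hc).le))

attribute [fun_prop] TC.natDivConst TC.natModConst

end

end Crest.Agent.X326
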