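import Crest.Agent.X326.TC.Map
import Crest.Agent.X326.TC.ListLin
import Crest.Agent.X326.TC.Un

/-!
# zipWith, range, tables and maps that see the index
-/

set_option autoImplicit false
set_option linter.dupNamespace false

namespace Crest.Agent.X326

open Crest.Agent.Lib.PT Function

variable {γ κ α β δ ε : Type} [PTCode γ] [PTCode κ] [PTCode α] [PTCode β] [PTCode δ] [PTCode ε]
  {P : γ → Prop} {T : γ → ℕ}

/-! ### zipWith -/

section zip

variable {l : γ → List α} {l' : γ → List β} {c : γ → κ}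

omit [PTCode α] [PTCode β] [PTCode δ] in
theorem zipWith_eq_map_zip (f : α → β → δ) (u : List α) (v : List β) :
    List.zipWith f u v = (u.zip v).map (fun q => f q.1 q.2) := by
  induction u generalizing v with
  | nil => simp
  | cons a u ih => cases v <;> simp [ih]

/-- `zipWith`, arbitrary domain and cost -/
theorem TC.zipWith' {Q : α × β → Prop} {S : α × β → ℕ} {f : α → β → δ}
    (hf : TC Q S (fun q => f q.1 q.2)) (hl : TC P T l) (hl' : TC P T l')
    (hQ : ∀ x, P x → ∀ q ∈ (l x).zip (l' x), Q q)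
    (hS : Bud P T (fun x => (((l x).zip (l' x)).map S).sum)) :
    TC P T (fun x => List.zipWith f (l x) (l' x)) :=
  (TC.map' hf (hl.zip hl') hQ hS).of_eq (fun x => (zipWith_eq_map_zip f _ _).symm)

/-- `zipWith`: every call costs at most `B x + C * sz (a, b)` -/
theorem TC.zipWith_le {Q : α × β → Prop} {S : α × β → ℕ} {f : α → β → δ}
    (hf : TC Q S (fun q => f q.1 q.2)) (hl : TC P T l) (hl' : TC P T l') (B : γ → ℕ) (C : ℕ)
    (hQ : ∀ x, P x → ∀ a ∈ l x, ∀ b ∈ l' x, Q (a, b) ∧ S (a, b) ≤ B x + C * Lib.PT.sz (a, b))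
    (hB : Bud P T (fun x => (l x).length * B x)) :
    TC P T (fun x => List.zipWith f (l x) (l' x)) :=
  (TC.map_le hf (hl.zip hl') B C
    (fun x hx q hq => hQ x hx q.1 (List.of_mem_zip hq).1 q.2 (List.of_mem_zip hq).2)
    (hB.mono (fun x _ => Nat.mul_le_mul_right _ (by simp)))).of_eq
    (fun x => (zipWith_eq_map_zip f _ _).symm)

@[fun_prop]
theorem TC.zipWith {f : α → β → δ} (hf : Lin (fun q : α × β => f q.1 q.2)) (hl : TC P T l)
    (hl' : TC P T l') : TC P T (fun x => List.zipWith f (l x) (l' x)) :=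
  (TC.map hf (hl.zip hl')).of_eq (fun x => (zipWith_eq_map_zip f _ _).symm)

/-- `zipWith` with a context -/
theorem TC.zipWithCtx {Q : κ × α × β → Prop} {S : κ × α × β → ℕ} {f : κ → α → β → δ}
    (hf : TC Q S (fun q => f q.1 q.2.1 q.2.2)) (hc : TC P T c) (hl : TC P T l) (hl' : TC P T l')
    (hQ : ∀ x, P x → ∀ q ∈ (l x).zip (l' x), Q (c x, q))
    (hS : Bud P T (fun x => (((l x).zip (l' x)).map (fun q => S (c x, q))).sum))
    (hC : Bud P T (fun x => (l x).length * Lib.PT.sz (c x))) :
    TC P T (fun x => List.zipWith (f (c x)) (l x) (l' x)) :=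
  (TC.mapCtx (f := fun k (q : α × β) => f k q.1 q.2) hf hc (hl.zip hl') hQ hS
    (hC.mono (fun x _ => Nat.mul_le_mul_right _ (by simp)))).of_eq
    (fun x => (zipWith_eq_map_zip _ _ _).symm)

/-- `zipWith` with a context: every call costs at most `B x + C * sz (a, b)` -/
theorem TC.zipWithCtx_le {Q : κ × α × β → Prop} {S : κ × α × β → ℕ} {f : κ → α → β → δ}
    (hf : TC Q S (fun q => f q.1 q.2.1 q.2.2)) (hc : TC P T c) (hl : TC P T l) (hl' : TC P T l')
    (B : γ → ℕ) (C : ℕ)
    (hQ : ∀ x, P x → ∀ a ∈ l x, ∀ b ∈ l' x,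
      Q (c x, a, b) ∧ S (c x, a, b) ≤ B x + C * Lib.PT.sz (a, b))
    (hB : Bud P T (fun x => (l x).length * B x))
    (hC : Bud P T (fun x => (l x).length * Lib.PT.sz (c x))) :
    TC P T (fun x => List.zipWith (f (c x)) (l x) (l' x)) :=
  (TC.mapCtx_le (f := fun k (q : α × β) => f k q.1 q.2) hf hc (hl.zip hl') B C
    (fun x hx q hq => hQ x hx q.1 (List.of_mem_zip hq).1 q.2 (List.of_mem_zip hq).2)
    (hB.mono (fun x _ => Nat.mul_le_mul_right _ (by simp)))
    (hC.mono (fun x _ => Nat.mul_le_mul_right _ (by simp)))).of_eq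
    (fun x => (zipWith_eq_map_zip _ _ _).symm)

/-- `zipWith` of a linear-time function with a context -/
theorem TC.zipWithCtx_lin {f : κ → α → β → δ}
    (hf : Lin (fun q : κ × α × β => f q.1 q.2.1 q.2.2)) (hc : TC P T c) (hl : TC P T l)
    (hl' : TC P T l') (hC : Bud P T (fun x => (l x).length * Lib.PT.sz (c x))) :
    TC P T (fun x => List.zipWith (f (c x)) (l x) (l' x)) :=
  TC.zipWithCtx hf hc hl hl' (fun _ _ _ _ => trivial)
    ((Bud.const 0).mono (fun x _ => by simp)) hC

end zip

/-! ### range -/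

theorem lead_le_length (z : List Bool) : UnRaw.lead z ≤ z.length := by
  induction z with
  | nil => simp [UnRaw.lead]
  | cons b z ih => cases b <;> simp [UnRaw.lead, ih]

/-- the successor of a binary number -/
theorem lin_succ : Lin (fun n : ℕ => n + 1) := by
  have h : LinRaw UnRaw.incBits := by
    refine LinRaw.of_run UnRaw.inc 8 8 (fun z => ?_)
    rw [init_eq_st4, init_eq_st4]
    exact (UnRaw.run_inc z []).mono (by have := lead_le_length z; omega)
  exact h.lin (fun n => UnRaw.incBits_bits n)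

theorem succ_iterate_zero (i : ℕ) : (fun n : ℕ => n + 1)^[i] 0 = i := by
  induction i with
  | zero => rfl
  | succ i ih => rw [iterate_succ_apply', ih]

/-- the list `0, 1, …, n - 1` of binary numbers -/
theorem TC.range {n : γ → ℕ} (hn : TU P T n) (hB : Bud P T (fun x => n x * (n x).size)) :
    TC P T (fun x => List.range (n x)) :=
  (TC.unfold_le (f := fun n : ℕ => n + 1) (g := fun n => n) lin_succ TC.id hn (TC.const 0)
    (fun x => (n x).size) (fun x _ i hi => ⟨trivial, by
      rw [succ_iterate_zero, sz_nat, Nat.zero_add]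
      exact Nat.size_le_size hi.le⟩) hB).of_eq (fun x => by simp [succ_iterate_zero])

/-- a table `(range n).map (f c)` -/
theorem TC.mapRangeCtx {Q : κ × ℕ → Prop} {S : κ × ℕ → ℕ} {f : κ → ℕ → β} {c : γ → κ}
    {n : γ → ℕ} (hf : TC Q S (fun q => f q.1 q.2)) (hc : TC P T c) (hn : TU P T n) (B : γ → ℕ)
    (hQ : ∀ x, P x → ∀ j < n x, Q (c x, j) ∧ S (c x, j) ≤ B x)
    (hB : Bud P T (fun x => n x * (B x + Lib.PT.sz (c x) + (n x).size))) :
    TC P T (fun x => (List.range (n x)).map (f (c x))) :=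
  TC.mapCtx_le hf hc (TC.range hn (hB.mono (fun x _ => Nat.mul_le_mul_left _ (by omega)))) B 0
    (fun x hx j hj => by simpa using hQ x hx j (List.mem_range.1 hj))
    (hB.mono (fun x _ => by rw [List.length_range]; exact Nat.mul_le_mul_left _ (by omega)))
    (hB.mono (fun x _ => by rw [List.length_range]; exact Nat.mul_le_mul_left _ (by omega)))

/-- a polynomial-time table, with an explicit exponent -/
theorem exists_tc_mapRange {f : κ → ℕ → β} (hf : PTF (fun q : κ × ℕ => f q.1 q.2)) :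
    ∃ k : ℕ, TC (fun _ : Un × κ => True)
      (fun q => q.1.val * (Lib.PT.sz q.2 + q.1.val.size + 1) ^ k)
      (fun q => (List.range q.1.val).map (f q.2)) := by
  obtain ⟨k, hk⟩ := exists_tc_of_ptf hf
  refine ⟨k + 1, TC.mapRangeCtx hk (TC.snd TC.id) (TU.val (TC.fst TC.id))
    (fun q => 2 ^ k * (Lib.PT.sz q.2 + q.1.val.size + 1) ^ k) (fun q _ j hj => ⟨trivial, ?_⟩)
    ((Bud.self.const_mul (2 ^ k + 1)).mono (fun q _ => ?_))⟩
  · rw [← mul_pow]
    refine Nat.pow_le_pow_left ?_ k
    have := Nat.size_le_size hj.le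
    simp only [sz_prod, sz_nat]
    omega
  · rw [mul_left_comm]
    refine Nat.mul_le_mul_left _ ?_
    generalize Lib.PT.sz q.2 = a
    generalize q.1.val.size = b
    have h1 : 1 ≤ (a + b + 1) ^ k := Nat.one_le_pow _ _ (by omega)
    have h2 : (a + b + 1) ^ k ≤ (a + b + 1) ^ (k + 1) :=
      Nat.pow_le_pow_right (by omega) (by omega)
    have h3 : a + b + 1 ≤ (a + b + 1) ^ (k + 1) := by
      rw [pow_succ]; exact Nat.le_mul_of_pos_left _ h1
    have h4 := Nat.mul_le_mul_left (2 ^ k) h2
    rw [add_mul (2 ^ k), one_mul]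
    omega

/-- a polynomial-time table; `B x` bounds the size of the context and of `n x`, and every
polynomial in `B x`, once per entry, is within the budget -/
theorem TC.mapRange_ptf {f : κ → ℕ → β} (hf : PTF (fun q : κ × ℕ => f q.1 q.2)) {c : γ → κ}
    {n : γ → ℕ} (hc : TC P T c) (hn : TU P T n) (B : γ → ℕ)
    (hcB : ∀ x, P x → Lib.PT.sz (c x) + (n x).size ≤ B x)
    (hB : ∀ k, Bud P T (fun x => n x * (B x + 1) ^ k)) :
    TC P T (fun x => (List.range (n x)).map (f (c x))) := by
  obtain ⟨k, hk⟩ := exists_tc_mapRange hf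
  exact TC.comp (f := fun x => (Un.mk (n x), c x)) hk (TC.prodMk hn hc) (fun _ _ => trivial)
    ((hB k).mono (fun x hx => Nat.mul_le_mul_left _
      (Nat.pow_le_pow_left (Nat.succ_le_succ (hcB x hx)) k)))

/-! ### maps that see the index -/

omit [PTCode α] [PTCode β] [PTCode δ] in
theorem zipWith_map_range (op : δ → α → β) (e : ℕ → δ) (l : List α) (d : α) :
    List.zipWith op ((List.range l.length).map e) l =
      (List.range l.length).map (fun j => op (e j) (l.getD j d)) := by
  refine List.ext_getElem (by simp) (fun i h1 h2 => ?_)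
  have hi : i < l.length := by simpa using h2
  simp [List.getD_eq_getElem?_getD, List.getElem?_eq_getElem hi]

omit [PTCode α] [PTCode β] in
theorem mapIdx_eq_zipWith (f : ℕ → α → β) (l : List α) :
    l.mapIdx f = List.zipWith f (List.range l.length) l := by
  refine List.ext_getElem (by simp) (fun i h1 h2 => ?_)
  simp

omit [PTCode α] in
theorem zipIdx_eq_zip (l : List α) : l.zipIdx = l.zip (List.range l.length) := by
  refine List.ext_getElem (by simp) (fun i h1 h2 => ?_)
  simp

theorem TC.zipIdx {l : γ → List α} (hl : TC P T l)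
    (hB : Bud P T (fun x => (l x).length * (l x).length.size)) :
    TC P T (fun x => (l x).zipIdx) :=
  (hl.zip (TC.range (TU.length hl) hB)).of_eq (fun x => (zipIdx_eq_zip _).symm)

/-- `mapIdx` with a context: every call costs at most `B x + C * sz a` -/
theorem TC.mapIdxCtx {Q : κ × ℕ × α → Prop} {S : κ × ℕ × α → ℕ} {f : κ → ℕ → α → β}
    {c : γ → κ} {l : γ → List α} (hf : TC Q S (fun q => f q.1 q.2.1 q.2.2)) (hc : TC P T c)
    (hl : TC P T l) (B : γ → ℕ) (C : ℕ)
    (hQ : ∀ x, P x → ∀ (j : ℕ) (hj : j < (l x).length),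
      Q (c x, j, (l x)[j]) ∧ S (c x, j, (l x)[j]) ≤ B x + C * Lib.PT.sz (l x)[j])
    (hB : Bud P T (fun x => (l x).length * (B x + Lib.PT.sz (c x) + (l x).length.size))) :
    TC P T (fun x => (l x).mapIdx (f (c x))) := by
  have hr := TC.range (TU.length hl) (hB.mono (fun x _ => Nat.mul_le_mul_left _ (by omega)))
  have hmem : ∀ x, ∀ q ∈ (List.range (l x).length).zip (l x),
      ∃ (j : ℕ) (hj : j < (l x).length), q = (j, (l x)[j]) := by
    intro x q hq
    obtain ⟨j, hj, rfl⟩ := List.getElem_of_mem hq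
    exact ⟨j, by simpa using hj, by simp⟩
  refine (TC.mapCtx_le (f := fun k (q : ℕ × α) => f k q.1 q.2) hf hc (hr.zip hl) B C
    (fun x hx q hq => ?_) (hB.mono (fun x _ => ?_)) (hB.mono (fun x _ => ?_))).of_eq
    (fun x => by rw [mapIdx_eq_zipWith, zipWith_eq_map_zip])
  · obtain ⟨j, hj, rfl⟩ := hmem x q hq
    refine ⟨(hQ x hx j hj).1, (hQ x hx j hj).2.trans ?_⟩
    refine Nat.add_le_add_left (Nat.mul_le_mul_left _ ?_) _
    simp only [sz_prod]
    omega
  · simp only [List.length_zip, List.length_range, min_self]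
    exact Nat.mul_le_mul_left _ (by omega)
  · simp only [List.length_zip, List.length_range, min_self]
    exact Nat.mul_le_mul_left _ (by omega)

/-- **a per-record operation with a polynomial-time address parameter**:
`out[j] = op (e (c x) j) l[j]`, where `op` costs at most `U x + C * sz record` -/
theorem TC.idxOp {Q : δ × α → Prop} {S : δ × α → ℕ} {op : δ → α → β} {e : κ → ℕ → δ}
    (hop : TC Q S (fun q => op q.1 q.2)) (he : PTF (fun q : κ × ℕ => e q.1 q.2)) {c : γ → κ}
    {l : γ → List α} (hc : TC P T c) (hl : TC P T l) (B U : γ → ℕ) (C : ℕ)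
    (hcB : ∀ x, P x → Lib.PT.sz (c x) + (l x).length.size ≤ B x)
    (hB : ∀ k, Bud P T (fun x => (l x).length * (B x + 1) ^ k))
    (hQ : ∀ x, P x → ∀ (j : ℕ) (hj : j < (l x).length),
      Q (e (c x) j, (l x)[j]) ∧ S (e (c x) j, (l x)[j]) ≤ U x + C * Lib.PT.sz (l x)[j])
    (hU : Bud P T (fun x => (l x).length * U x)) :
    TC P T (fun x => List.zipWith op ((List.range (l x).length).map (e (c x))) (l x)) := by
  have ht := TC.mapRange_ptf he hc (TU.length hl) B hcB hB
  have hmem : ∀ x, ∀ q ∈ ((List.range (l x).length).map (e (c x))).zip (l x),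
      ∃ (j : ℕ) (hj : j < (l x).length), q = (e (c x) j, (l x)[j]) := by
    intro x q hq
    obtain ⟨j, hj, rfl⟩ := List.getElem_of_mem hq
    exact ⟨j, by simpa using hj, by simp⟩
  refine (TC.map_le hop (ht.zip hl) U C (fun x hx q hq => ?_) (hU.mono (fun x _ => ?_))).of_eq
    (fun x => (zipWith_eq_map_zip _ _ _).symm)
  · obtain ⟨j, hj, rfl⟩ := hmem x q hq
    refine ⟨(hQ x hx j hj).1, (hQ x hx j hj).2.trans ?_⟩
    refine Nat.add_le_add_left (Nat.mul_le_mul_left _ ?_) _
    simp only [sz_prod]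
    omega
  · simp

/-- the same, stated with `getD` -/
theorem TC.idxOp' {Q : δ × α → Prop} {S : δ × α → ℕ} {op : δ → α → β} {e : κ → ℕ → δ}
    (hop : TC Q S (fun q => op q.1 q.2)) (he : PTF (fun q : κ × ℕ => e q.1 q.2)) {c : γ → κ}
    {l : γ → List α} (d : α) (hc : TC P T c) (hl : TC P T l) (B U : γ → ℕ) (C : ℕ)
    (hcB : ∀ x, P x → Lib.PT.sz (c x) + (l x).length.size ≤ B x)
    (hB : ∀ k, Bud P T (fun x => (l x).length * (B x + 1) ^ k))
    (hQ : ∀ x, P x → ∀ (j : ℕ) (hj : j < (l x).length),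
      Q (e (c x) j, (l x)[j]) ∧ S (e (c x) j, (l x)[j]) ≤ U x + C * Lib.PT.sz (l x)[j])
    (hU : Bud P T (fun x => (l x).length * U x)) :
    TC P T (fun x => (List.range (l x).length).map (fun j => op (e (c x) j) ((l x).getD j d))) :=
  (TC.idxOp hop he hc hl B U C hcB hB hQ hU).of_eq (fun x => zipWith_map_range op _ _ d)

end Crest.Agent.X326
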