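import Crest.Agent.X326.TC.Core

/-!
# One pass over a list with a state

* `accumL f s l`: run `f : σ × α → σ × List β` along `l`, return the final state and the
  concatenated outputs.  Cost: `accCost`, the sum over the elements of
  `S (s, a) + sz s + sz a + 1`.
* `TC.accumL0`, `TC.accumL`: the machine theorem.
-/

set_option autoImplicit false
set_option linter.dupNamespace false

namespace Crest.Agent.X326

open Crest.Agent.Lib.PT Function

/-! ### a parser with arbitrary stacks -/

/-- body of the parsing loop -/
def maParseBody (a b f : ℕ) : Cmd :=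
  .ite a (.pop f)
    (.seq (.pop a) (.ite a (.pop f) (.seq (.pop a) (.push b true)) (.seq (.pop a) (.push b false))))
    (.seq (.pop a) (.pop f))

/-- stack `a` holds `pair x y`; afterwards it holds `y` and `x.reverse` is put on stack `b`
(`f` is an empty scratch stack) -/
def maParse (a b f : ℕ) : Cmd := .seq (.push f true) (.loop f (maParseBody a b f))

theorem run_maParse_loop {a b f : ℕ} (hab : a ≠ b) (haf : a ≠ f) (hbf : b ≠ f) (x y : List Bool)
    (S : Store) (hS : S a = pair x y) (hf : S f = [true]) :
    Run (.loop f (maParseBody a b f)) S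
      (update (update (update S a y) b (x.reverse ++ S b)) f []) (6 * x.length + 5) := by
  induction x generalizing S with
  | nil =>
    have hne : S f ≠ [] := by rw [hf]; simp
    have hS' : S a = false :: y := hS
    have hb : Run (maParseBody a b f) S (update (update S a y) f []) 3 := by
      refine Run.ite_false (n := 2) hS' (((run_pop a S).seq (run_pop f _)).of_eq ?_ le_rfl)
      rw [hS', update_of_ne haf.symm, hf]
      rfl
    refine (Run.loop_cons hne hb (Run.loop_nil (by simp))).of_eq ?_ (by simp)
    funext j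
    by_cases h1 : j = f
    · subst h1; simp
    · by_cases h2 : j = b
      · subst h2; simp [h1, hab.symm]
      · simp [h1, h2]
  | cons c x ih =>
    have hne : S f ≠ [] := by rw [hf]; simp
    have hS' : S a = true :: c :: pair x y := hS
    set S' : Store := update (update S a (pair x y)) b (c :: S b) with hS'def
    have hb : Run (maParseBody a b f) S S' 5 := by
      have h1 : Run (.pop a) S (update S a (c :: pair x y)) 1 :=
        (run_pop a S).of_eq (by rw [hS']; rfl) le_rfl
      have e : update (update (update S a (c :: pair x y)) a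
          ((update S a (c :: pair x y)) a).tail) b
          (c :: (update (update S a (c :: pair x y)) a
            ((update S a (c :: pair x y)) a).tail) b) = S' := by
        simp [hS'def, hab.symm]
      refine Run.ite_true (n := 1 + (1 + 2)) hS' (h1.seq ?_)
      cases c
      · exact Run.ite_false (n := 2) (l := pair x y) (by simp)
          (((run_pop a _).seq (run_push b false _)).of_eq e le_rfl)
      · exact Run.ite_true (n := 2) (l := pair x y) (by simp)
          (((run_pop a _).seq (run_push b true _)).of_eq e le_rfl)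
    have h2 := ih S' (by simp [hS'def, hab]) (by simp [hS'def, haf.symm, hbf.symm, hf])
    refine (Run.loop_cons hne hb h2).of_eq ?_ (by simp only [List.length_cons]; omega)
    funext j
    by_cases h1 : j = f
    · subst h1; simp
    · by_cases h2 : j = b
      · subst h2; simp [h1, hS'def]
      · by_cases h3 : j = a
        · subst h3; simp [h1, hab]
        · simp [h1, h2, h3, hS'def]

theorem run_maParse {a b f : ℕ} (hab : a ≠ b) (haf : a ≠ f) (hbf : b ≠ f) (x y : List Bool)
    (S : Store) (hS : S a = pair x y) (hf : S f = []) :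
    Run (maParse a b f) S (update (update S a y) b (x.reverse ++ S b)) (6 * x.length + 6) := by
  have h1 := run_push f true S
  have h2 := run_maParse_loop hab haf hbf x y (update S f (true :: S f))
    (by rw [update_of_ne haf]; exact hS) (by simp [hf])
  refine (h1.seq h2).of_eq ?_ (by omega)
  funext j
  by_cases h1 : j = f
  · subst h1; simp [haf.symm, hbf.symm, hf]
  · by_cases h2 : j = b
    · subst h2; simp [h1]
    · by_cases h3 : j = a
      · subst h3; simp [h1, hab]
      · simp [h1, h2, h3]

/-! ### stores with five stacks -/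

/-- explicit small stores -/
def ma5 (a b c d e : List Bool) : Store := fun k =>
  match k with
  | 0 => a
  | 1 => b
  | 2 => c
  | 3 => d
  | 4 => e
  | _ + 5 => []

theorem init_eq_ma5 (z : List Bool) : init z = ma5 z [] [] [] [] := by
  funext j; rcases j with _ | _ | _ | _ | _ | j <;> simp [ma5, init]

@[simp] theorem ma5_0 (a b c d e : List Bool) : ma5 a b c d e 0 = a := rfl
@[simp] theorem ma5_1 (a b c d e : List Bool) : ma5 a b c d e 1 = b := rfl
@[simp] theorem ma5_2 (a b c d e : List Bool) : ma5 a b c d e 2 = c := rfl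
@[simp] theorem ma5_3 (a b c d e : List Bool) : ma5 a b c d e 3 = d := rfl
@[simp] theorem ma5_4 (a b c d e : List Bool) : ma5 a b c d e 4 = e := rfl
@[simp] theorem ma5_5 (a b c d e : List Bool) : ma5 a b c d e 5 = [] := rfl

@[simp] theorem update_ma5_0 (a b c d e v : List Bool) :
    update (ma5 a b c d e) 0 v = ma5 v b c d e := by
  funext j; rcases j with _ | _ | _ | _ | _ | j <;> simp [ma5]

@[simp] theorem update_ma5_1 (a b c d e v : List Bool) :
    update (ma5 a b c d e) 1 v = ma5 a v c d e := by
  funext j; rcases j with _ | _ | _ | _ | _ | j <;> simp [ma5]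

@[simp] theorem update_ma5_2 (a b c d e v : List Bool) :
    update (ma5 a b c d e) 2 v = ma5 a b v d e := by
  funext j; rcases j with _ | _ | _ | _ | _ | j <;> simp [ma5]

@[simp] theorem update_ma5_3 (a b c d e v : List Bool) :
    update (ma5 a b c d e) 3 v = ma5 a b c v e := by
  funext j; rcases j with _ | _ | _ | _ | _ | j <;> simp [ma5]

@[simp] theorem update_ma5_4 (a b c d e v : List Bool) :
    update (ma5 a b c d e) 4 v = ma5 a b c d v := by
  funext j; rcases j with _ | _ | _ | _ | _ | j <;> simp [ma5]

theorem ma_call {c : Cmd} {x y : List Bool} {n : ℕ} (h : Run c (init x) (init y) n)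
    (a b d : List Bool) : Run (c.shift 3) (ma5 a b d x []) (ma5 a b d y []) n := by
  refine (call_run h 3 (ma5 a b d x []) rfl ?_).of_eq (by simp) le_rfl
  intro j hj
  rcases j with _ | _ | _ | _ | _ | j
  · omega
  · omega
  · omega
  · omega
  all_goals rfl

/-! ### the loop -/

/-- one round: stack `0` remaining input, `1` state, `2` reversed output -/
def maBody (c : Cmd) : Cmd :=
  .seq (maParse 0 4 5) (.seq (mv 4 3) (.seq (.push 3 false) (.seq (mv 1 4)
    (.seq (mvMap 4 3 (fun b => [true, b])) (.seq (c.shift 3) (.seq (maParse 3 4 5)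
      (.seq (mv 4 1) (mv 3 2))))))))

theorem run_maBody {c : Cmd} {s a s' o : List Bool} {n : ℕ}
    (h : Run c (init (pair s a)) (init (pair s' o)) n) (rest acc : List Bool) :
    Run (maBody c) (ma5 (pair a rest) s acc [] []) (ma5 rest s' (o.reverse ++ acc) [] [])
      (6 * n + 22 * s.length + 15 * a.length + 30) := by
  have hl := Run.length_le h
  simp only [length_pair] at hl
  have h1 : Run (maParse 0 4 5) (ma5 (pair a rest) s acc [] []) (ma5 rest s acc [] a.reverse)
      (6 * a.length + 6) :=
    (run_maParse (by decide) (by decide) (by decide) a rest _ rfl rfl).of_eq (by simp) le_rfl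
  have h2 : Run (mv 4 3) (ma5 rest s acc [] a.reverse) (ma5 rest s acc a []) (4 * a.length + 1) :=
    (run_mv (by decide) _).of_eq (by simp) (by simp)
  have h3 : Run (.push 3 false) (ma5 rest s acc a []) (ma5 rest s acc (false :: a) []) 1 :=
    (run_push 3 false _).of_eq (by simp) le_rfl
  have h4 : Run (mv 1 4) (ma5 rest s acc (false :: a) []) (ma5 rest [] acc (false :: a) s.reverse)
      (4 * s.length + 1) := (run_mv (by decide) _).of_eq (by simp) (by simp)
  have h5 : Run (mvMap 4 3 (fun b => [true, b])) (ma5 rest [] acc (false :: a) s.reverse)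
      (ma5 rest [] acc (pair s a) []) (8 * s.length + 1) :=
    (run_mvMap (by decide) _ _).of_eq (by simp [pair]) (by simp)
  have h6 := ma_call h rest [] acc
  have h7 : Run (maParse 3 4 5) (ma5 rest [] acc (pair s' o) []) (ma5 rest [] acc o s'.reverse)
      (6 * s'.length + 6) :=
    (run_maParse (by decide) (by decide) (by decide) s' o _ rfl rfl).of_eq (by simp) le_rfl
  have h8 : Run (mv 4 1) (ma5 rest [] acc o s'.reverse) (ma5 rest s' acc o [])
      (4 * s'.length + 1) := (run_mv (by decide) _).of_eq (by simp) (by simp)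
  have h9 : Run (mv 3 2) (ma5 rest s' acc o []) (ma5 rest s' (o.reverse ++ acc) [] [])
      (4 * o.length + 1) := (run_mv (by decide) _).of_eq (by simp) (by simp)
  exact (h1.seq (h2.seq (h3.seq (h4.seq (h5.seq (h6.seq (h7.seq (h8.seq h9)))))))).mono (by omega)

section accum

variable {σ α β : Type}

/-- run `f` along the list, concatenating the outputs -/
def accumL (f : σ × α → σ × List β) : σ → List α → σ × List β
  | s, [] => (s, [])
  | s, a :: l => ((accumL f (f (s, a)).1 l).1, (f (s, a)).2 ++ (accumL f (f (s, a)).1 l).2)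

/-- all the calls of `f` are in the domain `Q` -/
def AccOK (f : σ × α → σ × List β) (Q : σ × α → Prop) : σ → List α → Prop
  | _, [] => True
  | s, a :: l => Q (s, a) ∧ AccOK f Q (f (s, a)).1 l

/-- sum of `g` over all the calls of `f` -/
def accSum (f : σ × α → σ × List β) (g : σ × α → ℕ) : σ → List α → ℕ
  | _, [] => 0
  | s, a :: l => g (s, a) + accSum f g (f (s, a)).1 l

@[simp] theorem accumL_nil (f : σ × α → σ × List β) (s : σ) : accumL f s [] = (s, []) := rfl

@[simp] theorem accumL_cons (f : σ × α → σ × List β) (s : σ) (a : α) (l : List α) :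
    accumL f s (a :: l) =
      ((accumL f (f (s, a)).1 l).1, (f (s, a)).2 ++ (accumL f (f (s, a)).1 l).2) := rfl

@[simp] theorem accOK_nil (f : σ × α → σ × List β) (Q : σ × α → Prop) (s : σ) :
    AccOK f Q s [] := trivial

@[simp] theorem accOK_cons (f : σ × α → σ × List β) (Q : σ × α → Prop) (s : σ) (a : α)
    (l : List α) : AccOK f Q s (a :: l) ↔ Q (s, a) ∧ AccOK f Q (f (s, a)).1 l := Iff.rfl

@[simp] theorem accSum_nil (f : σ × α → σ × List β) (g : σ × α → ℕ) (s : σ) :
    accSum f g s [] = 0 := rfl

@[simp] theorem accSum_cons (f : σ × α → σ × List β) (g : σ × α → ℕ) (s : σ) (a : α)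
    (l : List α) : accSum f g s (a :: l) = g (s, a) + accSum f g (f (s, a)).1 l := rfl

theorem accumL_append (f : σ × α → σ × List β) (s : σ) (l l' : List α) :
    accumL f s (l ++ l') = ((accumL f (accumL f s l).1 l').1,
      (accumL f s l).2 ++ (accumL f (accumL f s l).1 l').2) := by
  induction l generalizing s with
  | nil => simp
  | cons a l ih => simp [ih]

theorem accumL_fst (f : σ × α → σ × List β) (s : σ) (l : List α) :
    (accumL f s l).1 = l.foldl (fun s a => (f (s, a)).1) s := by
  induction l generalizing s with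
  | nil => rfl
  | cons a l ih => simp [ih]

/-- an invariant gives the domain condition -/
theorem accOK_of_inv {f : σ × α → σ × List β} {Q : σ × α → Prop} (I : σ → List α → Prop)
    (hI : ∀ s a l, I s (a :: l) → Q (s, a) ∧ I (f (s, a)).1 l) {s : σ} {l : List α}
    (h : I s l) : AccOK f Q s l := by
  induction l generalizing s with
  | nil => trivial
  | cons a l ih => exact ⟨(hI s a l h).1, ih (hI s a l h).2⟩

/-- an invariant bounds the sum -/
theorem accSum_le_of_inv {f : σ × α → σ × List β} {g : σ × α → ℕ} (I : σ → List α → Prop)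
    (B : α → ℕ) (hI : ∀ s a l, I s (a :: l) → g (s, a) ≤ B a ∧ I (f (s, a)).1 l) {s : σ}
    {l : List α} (h : I s l) : accSum f g s l ≤ (l.map B).sum := by
  induction l generalizing s with
  | nil => simp
  | cons a l ih =>
    have h1 := hI s a l h
    have h2 := ih h1.2
    simp only [accSum_cons, List.map_cons, List.sum_cons]
    omega

/-- a potential bounds the sum (amortised analysis) -/
theorem accSum_le_of_potential {f : σ × α → σ × List β} {g : σ × α → ℕ}
    (I : σ → List α → Prop) (Φ : σ → List α → ℕ)
    (hI : ∀ s a l, I s (a :: l) → g (s, a) + Φ (f (s, a)).1 l ≤ Φ s (a :: l) ∧ I (f (s, a)).1 l)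
    {s : σ} {l : List α} (h : I s l) : accSum f g s l ≤ Φ s l := by
  induction l generalizing s with
  | nil => simp
  | cons a l ih =>
    have h1 := hI s a l h
    have h2 := ih h1.2
    simp only [accSum_cons]
    omega

theorem accSum_add (f : σ × α → σ × List β) (g g' : σ × α → ℕ) (s : σ) (l : List α) :
    accSum f (fun p => g p + g' p) s l = accSum f g s l + accSum f g' s l := by
  induction l generalizing s with
  | nil => simp
  | cons a l ih => simp only [accSum_cons, ih]; omega

theorem accSum_snd (f : σ × α → σ × List β) (g : α → ℕ) (s : σ) (l : List α) :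
    accSum f (fun p => g p.2) s l = (l.map g).sum := by
  induction l generalizing s with
  | nil => simp
  | cons a l ih => simp [ih]

variable [PTCode σ] [PTCode α] [PTCode β]

theorem ma_enc_append (l l' : List β) : enc (l ++ l') = enc l ++ enc l' := by
  induction l with
  | nil => simp
  | cons b l ih => simp [ih, pair]

theorem ma_sum_sz_le (l : List α) : (l.map (fun a => sz a + 1)).sum ≤ sz l := by
  induction l with
  | nil => simp
  | cons a l ih => simp only [List.map_cons, List.sum_cons, sz_cons]; omega

theorem run_maLoop {c : Cmd} {C : ℕ} {f : σ × α → σ × List β} {Q : σ × α → Prop}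
    {S : σ × α → ℕ}
    (hc : ∀ x, Q x → Run c (init (enc x)) (init (enc (f x))) (C * (S x + sz x + 1)))
    (s : σ) (l : List α) (acc : List Bool) (h : AccOK f Q s l) :
    Run (.loop 0 (maBody c)) (ma5 (enc l) (enc s) acc [] [])
      (ma5 [] (enc (accumL f s l).1) ((enc (accumL f s l).2).reverse ++ acc) [] [])
      ((12 * C + 31) * accSum f (fun p => S p + sz p.1 + sz p.2 + 1) s l + 1) := by
  induction l generalizing s acc with
  | nil => exact (Run.loop_nil rfl).of_eq (by simp) (by simp)
  | cons a l ih =>
    have h1 := hc (s, a) h.1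
    have h2 := run_maBody (s := enc s) (a := enc a) (s' := enc (f (s, a)).1)
      (o := enc (f (s, a)).2) h1 (enc l) acc
    have h3 := ih (f (s, a)).1 ((enc (f (s, a)).2).reverse ++ acc) h.2
    have hne : ma5 (pair (enc a) (enc l)) (enc s) acc [] [] 0 ≠ [] := pair_ne_nil _ _
    refine (Run.loop_cons hne h2 h3).of_eq (by simp [ma_enc_append]) ?_
    simp only [accSum_cons, sz_prod]
    have e1 : (enc s).length = sz s := rfl
    have e2 : (enc a).length = sz a := rfl
    rw [e1, e2]
    generalize accSum f (fun p => S p + sz p.1 + sz p.2 + 1) (f (s, a)).1 l = R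
    generalize S (s, a) = u
    generalize sz s = v
    generalize sz a = w
    have h4 : C * (u + (2 * v + 1 + w) + 1) ≤ C * (2 * (u + v + w + 1)) :=
      Nat.mul_le_mul_left _ (by omega)
    have h5 : (12 * C + 31) * (u + v + w + 1 + R) =
        6 * (C * (2 * (u + v + w + 1))) + 31 * (u + v + w + 1) + (12 * C + 31) * R := by ring
    omega

/-- **one pass with a state** (closed form) -/
theorem TC.accumL0 {f : σ × α → σ × List β} {Q : σ × α → Prop} {S : σ × α → ℕ}
    (hf : TC Q S f) :
    TC (fun p : σ × List α => AccOK f Q p.1 p.2)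
      (fun p => accSum f (fun q => S q + Lib.PT.sz q.1) p.1 p.2)
      (fun p => accumL f p.1 p.2) := by
  obtain ⟨c, C, hc⟩ := hf
  refine TC.of_run (.seq (maParse 0 4 5) (.seq (mv 4 1) (.seq (.loop 0 (maBody c))
    (.seq (mv 2 0) (.seq (.push 0 false) (.seq (mv 1 4) (mvMap 4 0 (fun b => [true, b]))))))))
    (n := fun p => 17 * (12 * C + 31) * (accSum f (fun q => S q + Lib.PT.sz q.1) p.1 p.2 +
      Lib.PT.sz p) + 22 * Lib.PT.sz p + 30)
    ((((Bud.self.add Bud.sz).const_mul _).add (Bud.sz.const_mul _)).add (Bud.const _)) ?_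
  rintro ⟨s, l⟩ h
  have h1 : Run (maParse 0 4 5) (init (enc (s, l))) (ma5 (enc l) [] [] [] (enc s).reverse)
      (6 * (enc s).length + 6) := by
    rw [init_eq_ma5]
    exact (run_maParse (by decide) (by decide) (by decide) (enc s) (enc l) _ rfl rfl).of_eq
      (by simp) le_rfl
  have h2 : Run (mv 4 1) (ma5 (enc l) [] [] [] (enc s).reverse) (ma5 (enc l) (enc s) [] [] [])
      (4 * (enc s).length + 1) := (run_mv (by decide) _).of_eq (by simp) (by simp)
  have h3 := run_maLoop hc s l [] h
  set N := (12 * C + 31) * accSum f (fun p => S p + Lib.PT.sz p.1 + Lib.PT.sz p.2 + 1) s l + 1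
    with hN
  set s' := enc (accumL f s l).1 with hs'
  set o := enc (accumL f s l).2 with ho
  have hs'l : s'.length ≤ (enc s).length + N := by
    obtain ⟨t, ht, h⟩ := h3
    have := h.length_le 1
    simp only [ma5_1] at this
    omega
  have hol : o.length ≤ N := by
    obtain ⟨t, ht, h⟩ := h3
    have := h.length_le 2
    simp only [ma5_2, List.append_nil, List.length_reverse, List.length_nil] at this
    omega
  have h4 : Run (mv 2 0) (ma5 [] s' (o.reverse ++ []) [] []) (ma5 o s' [] [] [])
      (4 * o.length + 1) := (run_mv (by decide) _).of_eq (by simp) (by simp)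
  have h5 : Run (.push 0 false) (ma5 o s' [] [] []) (ma5 (false :: o) s' [] [] []) 1 :=
    (run_push 0 false _).of_eq (by simp) le_rfl
  have h6 : Run (mv 1 4) (ma5 (false :: o) s' [] [] []) (ma5 (false :: o) [] [] [] s'.reverse)
      (4 * s'.length + 1) := (run_mv (by decide) _).of_eq (by simp) (by simp)
  have h7 : Run (mvMap 4 0 (fun b => [true, b])) (ma5 (false :: o) [] [] [] s'.reverse)
      (init (enc (accumL f s l))) (8 * s'.length + 1) := by
    refine (run_mvMap (by decide) _ _).of_eq ?_ (by simp)
    rw [init_eq_ma5]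
    simp [pair, hs', ho]
  refine (h1.seq (h2.seq (h3.seq (h4.seq (h5.seq (h6.seq h7)))))).mono ?_
  have e1 : accSum f (fun p => S p + Lib.PT.sz p.1 + Lib.PT.sz p.2 + 1) s l =
      accSum f (fun q => S q + Lib.PT.sz q.1) s l + (l.map (fun a => Lib.PT.sz a + 1)).sum := by
    rw [← accSum_snd f (fun a => Lib.PT.sz a + 1) s l, ← accSum_add]
    rfl
  have e2 := ma_sum_sz_le l
  have e3 : (enc s).length = Lib.PT.sz s := rfl
  have e4 : N ≤ (12 * C + 31) * (accSum f (fun q => S q + Lib.PT.sz q.1) s l +
      Lib.PT.sz (s, l)) + 1 := by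
    rw [hN, e1]
    refine Nat.add_le_add_right (Nat.mul_le_mul_left _ ?_) _
    simp only [sz_prod]
    omega
  simp only [mul_assoc]
  have e5 : Lib.PT.sz s ≤ Lib.PT.sz (s, l) := by simp only [sz_prod]; omega
  omega

variable {γ : Type} [PTCode γ] {P : γ → Prop} {T : γ → ℕ}

/-- **one pass with a state** -/
theorem TC.accumL {f : σ × α → σ × List β} {Q : σ × α → Prop} {S : σ × α → ℕ}
    (hf : TC Q S f) {s : γ → σ} {l : γ → List α} (hs : TC P T s) (hl : TC P T l)
    (hQ : ∀ x, P x → AccOK f Q (s x) (l x))
    (hS : Bud P T (fun x => accSum f (fun q => S q + Lib.PT.sz q.1) (s x) (l x))) :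
    TC P T (fun x => X326.accumL f (s x) (l x)) :=
  TC.comp (f := fun x => (s x, l x)) hf.accumL0 (hs.prodMk hl) hQ hS

/-- one pass with a state, domain and cost from an invariant `I x state remaining` and a
bound `B x a` for the work and the state size at the element `a` -/
theorem TC.accumL_inv {f : σ × α → σ × List β} {Q : σ × α → Prop} {S : σ × α → ℕ}
    (hf : TC Q S f) {s : γ → σ} {l : γ → List α} (hs : TC P T s) (hl : TC P T l)
    (I : γ → σ → List α → Prop) (B : γ → α → ℕ) (h0 : ∀ x, P x → I x (s x) (l x))
    (hI : ∀ x, P x → ∀ t a r, I x t (a :: r) →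
      Q (t, a) ∧ S (t, a) + Lib.PT.sz t ≤ B x a ∧ I x (f (t, a)).1 r)
    (hB : Bud P T (fun x => ((l x).map (B x)).sum)) :
    TC P T (fun x => X326.accumL f (s x) (l x)) :=
  hf.accumL hs hl
    (fun x hx => accOK_of_inv (I x)
      (fun t a r h => ⟨(hI x hx t a r h).1, (hI x hx t a r h).2.2⟩) (h0 x hx))
    (hB.mono (fun x hx => accSum_le_of_inv (I x) (B x)
      (fun t a r h => ⟨(hI x hx t a r h).2.1, (hI x hx t a r h).2.2⟩) (h0 x hx)))

/-- one pass with a state, amortised by a potential `Φ x state remaining` -/
theorem TC.accumL_pot {f : σ × α → σ × List β} {Q : σ × α → Prop} {S : σ × α → ℕ}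
    (hf : TC Q S f) {s : γ → σ} {l : γ → List α} (hs : TC P T s) (hl : TC P T l)
    (I : γ → σ → List α → Prop) (Φ : γ → σ → List α → ℕ) (h0 : ∀ x, P x → I x (s x) (l x))
    (hI : ∀ x, P x → ∀ t a r, I x t (a :: r) →
      Q (t, a) ∧ S (t, a) + Lib.PT.sz t + Φ x (f (t, a)).1 r ≤ Φ x t (a :: r) ∧
        I x (f (t, a)).1 r)
    (hB : Bud P T (fun x => Φ x (s x) (l x))) :
    TC P T (fun x => X326.accumL f (s x) (l x)) :=
  hf.accumL hs hl
    (fun x hx => accOK_of_inv (I x)
      (fun t a r h => ⟨(hI x hx t a r h).1, (hI x hx t a r h).2.2⟩) (h0 x hx))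
    (hB.mono (fun x hx => accSum_le_of_potential (I x) (Φ x)
      (fun t a r h => ⟨(hI x hx t a r h).2.1, (hI x hx t a r h).2.2⟩) (h0 x hx)))

end accum

end Crest.Agent.X326
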