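import Crest.Agent.X326.TC.Merge

/-!
# Row 326, machine layer: specifications of merge, filter, gather, chunks (pure list lemmas)
-/

set_option autoImplicit false

namespace Crest.Agent.X326

open Crest.Agent.Lib.PT Function

variable {ι α β : Type}

/-! ### `mergeBy`, `filterBy` -/

theorem mergeBy_map (I : List ι) (p : ι → Bool) (f g : ι → α) :
    mergeBy (I.map p) ((I.filter p).map f) ((I.filter (fun i => !p i)).map g) =
      I.map (fun i => if p i then f i else g i) := by
  induction I with
  | nil => rfl
  | cons i I ih => cases h : p i <;> simp [h, mergeBy, ih]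

theorem mergeBy_filter (p : α → Bool) (l : List α) :
    mergeBy (l.map p) (l.filter p) (l.filter (fun x => !p x)) = l := by
  simpa using mergeBy_map l p (fun x => x) (fun x => x)

theorem filterBy_map (I : List ι) (p : ι → Bool) (f : ι → α) :
    filterBy (I.map p) (I.map f) = (I.filter p).map f := by
  induction I with
  | nil => rfl
  | cons i I ih => cases h : p i <;> simp [h, filterBy, ih]

theorem filterBy_self (p : α → Bool) (l : List α) : filterBy (l.map p) l = l.filter p := by
  simpa using filterBy_map l p (fun x => x)

@[simp] theorem filterBy_nil (bs : List Bool) : filterBy bs ([] : List α) = [] := by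
  induction bs with
  | nil => rfl
  | cons b bs ih => cases b <;> simp [filterBy, ih]

theorem filterBy_eq_zip (bs : List Bool) (xs : List α) :
    filterBy bs xs = ((xs.zip bs).filter (fun p => p.2)).map (fun p => p.1) := by
  induction bs generalizing xs with
  | nil => simp [filterBy]
  | cons b bs ih =>
    cases xs with
    | nil => simp
    | cons x xs => cases b <;> simp [filterBy, ih]

theorem filterBy_sublist (bs : List Bool) (xs : List α) : (filterBy bs xs).Sublist xs := by
  induction bs generalizing xs with
  | nil => simp [filterBy]
  | cons b bs ih =>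
    cases xs with
    | nil => simp
    | cons x xs =>
      cases b
      · exact (ih xs).cons x
      · exact (ih xs).cons_cons x

theorem mem_of_mem_filterBy {bs : List Bool} {xs : List α} {a : α} (h : a ∈ filterBy bs xs) :
    a ∈ xs := (filterBy_sublist bs xs).subset h

theorem length_filterBy {bs : List Bool} {xs : List α} (h : bs.length ≤ xs.length) :
    (filterBy bs xs).length = bs.count true := by
  induction bs generalizing xs with
  | nil => simp [filterBy]
  | cons b bs ih =>
    cases xs with
    | nil => simp at h
    | cons x xs =>
      have := ih (xs := xs) (by simpa using h)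
      cases b <;> simp [filterBy, this]

theorem filterBy_map_right (bs : List Bool) (xs : List α) (f : α → β) :
    filterBy bs (xs.map f) = (filterBy bs xs).map f := by
  induction bs generalizing xs with
  | nil => simp [filterBy]
  | cons b bs ih =>
    cases xs with
    | nil => simp
    | cons x xs => cases b <;> simp [filterBy, ih]

theorem mergeBy_map_right (bs : List Bool) (xs ys : List α) (f : α → β) :
    mergeBy bs (xs.map f) (ys.map f) = (mergeBy bs xs ys).map f := by
  induction bs generalizing xs ys with
  | nil => simp [mergeBy]
  | cons b bs ih =>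
    cases b
    · rw [mergeBy, mergeBy, ← List.map_tail, ih, List.map_append, List.map_take]
    · rw [mergeBy, mergeBy, ← List.map_tail, ih, List.map_append, List.map_take]

theorem mem_of_mem_mergeBy {bs : List Bool} {xs ys : List α} {a : α}
    (h : a ∈ mergeBy bs xs ys) : a ∈ xs ∨ a ∈ ys := by
  induction bs generalizing xs ys with
  | nil => simp [mergeBy] at h
  | cons b bs ih =>
    cases b
    · rw [mergeBy, List.mem_append] at h
      rcases h with h | h
      · exact Or.inr (List.mem_of_mem_take h)
      · exact (ih h).imp_right List.mem_of_mem_tail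
    · rw [mergeBy, List.mem_append] at h
      rcases h with h | h
      · exact Or.inl (List.mem_of_mem_take h)
      · exact (ih h).imp_left List.mem_of_mem_tail

theorem length_mergeBy_le (bs : List Bool) (xs ys : List α) :
    (mergeBy bs xs ys).length ≤ bs.length := by
  induction bs generalizing xs ys with
  | nil => simp [mergeBy]
  | cons b bs ih =>
    cases b
    · have := ih xs ys.tail
      simp only [mergeBy, List.length_append, List.length_take, List.length_cons]; omega
    · have := ih xs.tail ys
      simp only [mergeBy, List.length_append, List.length_take, List.length_cons]; omega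

theorem length_mergeBy {bs : List Bool} {xs ys : List α} (hx : bs.count true ≤ xs.length)
    (hy : bs.count false ≤ ys.length) : (mergeBy bs xs ys).length = bs.length := by
  induction bs generalizing xs ys with
  | nil => simp [mergeBy]
  | cons b bs ih =>
    cases b
    · simp only [List.count_cons, beq_iff_eq, Bool.false_eq_true, if_false, if_true] at hx hy
      have := ih (xs := xs) (ys := ys.tail) (by omega) (by simp; omega)
      simp only [mergeBy, List.length_append, List.length_take, List.length_cons]; omega
    · simp only [List.count_cons, beq_iff_eq, Bool.true_eq_false, if_false, if_true] at hx hy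
      have := ih (xs := xs.tail) (ys := ys) (by simp; omega) (by omega)
      simp only [mergeBy, List.length_append, List.length_take, List.length_cons]; omega

/-- splitting by flags and merging again -/
theorem mergeBy_filterBy {bs : List Bool} {l : List α} (h : bs.length = l.length) :
    mergeBy bs (filterBy bs l) (filterBy (bs.map not) l) = l := by
  induction bs generalizing l with
  | nil => simpa [mergeBy] using h.symm
  | cons b bs ih =>
    cases l with
    | nil => simp at h
    | cons x l =>
      have := ih (l := l) (by simpa using h)
      cases b <;> simp [mergeBy, filterBy, this]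

/-! ### `walk`, `gatherGaps` -/

theorem mem_of_mem_walk {bs : List Bool} {xs : List α} {a : α} (h : a ∈ walk bs xs) : a ∈ xs := by
  induction bs generalizing xs with
  | nil => simp [walk] at h
  | cons b bs ih =>
    cases b
    · exact List.mem_of_mem_tail (ih h)
    · rw [walk, List.mem_append] at h
      rcases h with h | h
      · exact List.mem_of_mem_take h
      · exact ih h

theorem length_walk_le (bs : List Bool) (xs : List α) : (walk bs xs).length ≤ bs.count true := by
  induction bs generalizing xs with
  | nil => simp [walk]
  | cons b bs ih =>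
    cases b
    · simpa [walk] using ih xs.tail
    · have := ih xs
      simp only [walk, List.length_append, List.length_take, List.count_cons_self]; omega

theorem mem_of_mem_gatherGaps {gs : List ℕ} {xs : List α} {a : α} (h : a ∈ gatherGaps gs xs) :
    a ∈ xs := by
  induction gs generalizing xs with
  | nil => simp [gatherGaps] at h
  | cons g gs ih =>
    rw [gatherGaps, List.mem_append] at h
    rcases h with h | h
    · exact List.mem_of_mem_drop (List.mem_of_mem_take h)
    · exact List.mem_of_mem_drop (ih h)

theorem length_gatherGaps_le (gs : List ℕ) (xs : List α) :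
    (gatherGaps gs xs).length ≤ gs.length := by
  induction gs generalizing xs with
  | nil => simp [gatherGaps]
  | cons g gs ih =>
    have := ih (xs.drop g)
    simp only [gatherGaps, List.length_append, List.length_take, List.length_cons]; omega

/-- the differences of consecutive indices, starting from `s` -/
def gapsFrom : ℕ → List ℕ → List ℕ
  | _, [] => []
  | s, i :: r => (i - s) :: gapsFrom i r

/-- the differences of consecutive indices -/
def gaps (idx : List ℕ) : List ℕ := gapsFrom 0 idx

theorem gapsFrom_eq_zipWith (s : ℕ) (idx : List ℕ) :
    gapsFrom s idx = List.zipWith (fun i j => i - j) idx (s :: idx) := by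
  induction idx generalizing s with
  | nil => rfl
  | cons i r ih => simp [gapsFrom, ih]

theorem gaps_eq_zipWith (idx : List ℕ) :
    gaps idx = List.zipWith (fun i j => i - j) idx (0 :: idx) := gapsFrom_eq_zipWith 0 idx

@[simp] theorem length_gapsFrom (s : ℕ) (idx : List ℕ) : (gapsFrom s idx).length = idx.length := by
  induction idx generalizing s with
  | nil => rfl
  | cons i r ih => simp [gapsFrom, ih]

@[simp] theorem length_gaps (idx : List ℕ) : (gaps idx).length = idx.length :=
  length_gapsFrom 0 idx

theorem sum_gapsFrom_le {N : ℕ} (s : ℕ) (idx : List ℕ) (hs : (s :: idx).Pairwise (· ≤ ·))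
    (hN : ∀ i ∈ s :: idx, i ≤ N) : s + (gapsFrom s idx).sum ≤ N := by
  induction idx generalizing s with
  | nil => simpa [gapsFrom] using hN
  | cons i r ih =>
    have h1 : s ≤ i := List.rel_of_pairwise_cons hs (by simp)
    have h2 := ih i (List.Pairwise.of_cons hs) (fun j hj => hN j (List.mem_cons_of_mem _ hj))
    simp only [gapsFrom, List.sum_cons]
    omega

theorem sum_gaps_le {N : ℕ} {idx : List ℕ} (hs : idx.Pairwise (· ≤ ·)) (hN : ∀ i ∈ idx, i ≤ N) :
    (gaps idx).sum ≤ N := by
  have := sum_gapsFrom_le (N := N) 0 idx (List.pairwise_cons.2 ⟨fun _ _ => Nat.zero_le _, hs⟩)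
    (by simpa using hN)
  simpa [gaps] using this

theorem gatherGaps_gapsFrom (d : α) (l : List α) (s : ℕ) (idx : List ℕ)
    (hs : (s :: idx).Pairwise (· ≤ ·)) (hN : ∀ i ∈ idx, i < l.length) :
    gatherGaps (gapsFrom s idx) (l.drop s) = idx.map (fun i => l.getD i d) := by
  induction idx generalizing s with
  | nil => rfl
  | cons i r ih =>
    have h1 : s ≤ i := List.rel_of_pairwise_cons hs (by simp)
    have h2 : i < l.length := hN i (by simp)
    have h3 := ih i (List.Pairwise.of_cons hs) (fun j hj => hN j (List.mem_cons_of_mem _ hj))
    have e : s + (i - s) = i := by omega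
    rw [gapsFrom, gatherGaps, List.drop_drop, e, h3, List.map_cons,
      List.getD_eq_getElem _ _ h2, List.drop_eq_getElem_cons h2]
    rfl

/-- monotone gather -/
theorem gatherGaps_gaps (d : α) (l : List α) {idx : List ℕ} (hs : idx.Pairwise (· ≤ ·))
    (hN : ∀ i ∈ idx, i < l.length) :
    gatherGaps (gaps idx) l = idx.map (fun i => l.getD i d) := by
  have := gatherGaps_gapsFrom d l 0 idx (List.pairwise_cons.2 ⟨fun _ _ => Nat.zero_le _, hs⟩) hN
  simpa [gaps] using this

/-- size of a list whose entries come from a list with bounded entries -/
theorem sz_le_of_mem [PTCode α] {l l' : List α} {m : ℕ} (h : ∀ a ∈ l', a ∈ l)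
    (hm : ∀ a ∈ l, sz a ≤ m) : sz l' ≤ l'.length * (2 * m + 1) :=
  sz_list_le (fun a ha => hm a (h a ha))

theorem sz_gatherGaps_le [PTCode α] (gs : List ℕ) {l : List α} {m : ℕ} (hm : ∀ a ∈ l, sz a ≤ m) :
    sz (gatherGaps gs l) ≤ gs.length * (2 * m + 1) :=
  (sz_le_of_mem (fun _ => mem_of_mem_gatherGaps) hm).trans
    (Nat.mul_le_mul_right _ (length_gatherGaps_le gs l))

theorem sz_walk_le [PTCode α] (bs : List Bool) {l : List α} {m : ℕ} (hm : ∀ a ∈ l, sz a ≤ m) :
    sz (walk bs l) ≤ bs.count true * (2 * m + 1) :=
  (sz_le_of_mem (fun _ => mem_of_mem_walk) hm).trans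
    (Nat.mul_le_mul_right _ (length_walk_le bs l))

/-! ### `chunks` -/

theorem chunks_append {n : ℕ} (hn : 0 < n) {r : List α} (hr : r.length = n) (l : List α) :
    chunks n (r ++ l) = r :: chunks n l := by
  have h : r ++ l ≠ [] := by
    intro e
    have := congrArg List.length e
    simp only [List.length_append, List.length_nil] at this
    omega
  rw [chunks_of_ne hn.ne' h, ← hr, List.take_left, List.drop_left]

theorem chunks_flatten {n : ℕ} (hn : 0 < n) {L : List (List α)} (h : ∀ r ∈ L, r.length = n) :
    chunks n L.flatten = L := by
  induction L with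
  | nil => simp
  | cons r L ih =>
    rw [List.flatten_cons, chunks_append hn (h r (by simp)), ih (fun r hr => h r (by simp [hr]))]

/-- induction along `chunks` -/
theorem chunks_induction {n : ℕ} (hn : 0 < n) {p : List α → Prop} (h0 : p [])
    (h1 : ∀ l, l ≠ [] → p (l.drop n) → p l) (l : List α) : p l := by
  induction hl : l.length using Nat.strong_induction_on generalizing l with
  | _ k ih =>
    by_cases h : l = []
    · exact h ▸ h0
    · have h2 : 0 < l.length := List.length_pos_of_ne_nil h
      exact h1 l h (ih (l.drop n).length (by simp; omega) _ rfl)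

theorem flatten_chunks {n : ℕ} (hn : 0 < n) (l : List α) : (chunks n l).flatten = l := by
  refine chunks_induction hn (p := fun l => (chunks n l).flatten = l) (by simp) (fun l h ih => ?_) l
  rw [chunks_of_ne hn.ne' h, List.flatten_cons, ih, List.take_append_drop]

theorem chunks_map (n : ℕ) (f : α → β) (l : List α) :
    chunks n (l.map f) = (chunks n l).map (List.map f) := by
  rcases Nat.eq_zero_or_pos n with rfl | hn
  · simp
  refine chunks_induction hn (p := fun l => chunks n (l.map f) = (chunks n l).map (List.map f))
    (by simp) (fun l h ih => ?_) l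
  rw [chunks_of_ne hn.ne' h, chunks_of_ne hn.ne' (by simpa using h), ← List.map_drop, ih,
    List.map_cons, List.map_take]

theorem length_le_of_mem_chunks {n : ℕ} {l r : List α} (h : r ∈ chunks n l) : r.length ≤ n := by
  rcases Nat.eq_zero_or_pos n with rfl | hn
  · simp at h
  revert h
  refine chunks_induction hn (p := fun l => r ∈ chunks n l → r.length ≤ n) (by simp)
    (fun l h ih hr => ?_) l
  rw [chunks_of_ne hn.ne' h, List.mem_cons] at hr
  rcases hr with rfl | hr
  · simp
  · exact ih hr

theorem mem_of_mem_chunks {n : ℕ} {l r : List α} {a : α} (h : r ∈ chunks n l) (ha : a ∈ r) :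
    a ∈ l := by
  rcases Nat.eq_zero_or_pos n with rfl | hn
  · simp at h
  rw [← flatten_chunks hn l]
  exact List.mem_flatten.2 ⟨r, h, ha⟩

theorem chunks_eq_range {n m : ℕ} (hn : 0 < n) {l : List α} (hl : l.length = m * n) :
    chunks n l = (List.range m).map (fun i => (l.drop (i * n)).take n) := by
  induction m generalizing l with
  | zero =>
    have : l = [] := List.eq_nil_of_length_eq_zero (by simpa using hl)
    simp [this]
  | succ m ih =>
    have h : l ≠ [] := by
      intro e
      rw [e] at hl
      have : 0 < (m + 1) * n := Nat.mul_pos (by omega) hn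
      simp only [List.length_nil] at hl
      omega
    rw [chunks_of_ne hn.ne' h, ih (l := l.drop n) (by rw [List.length_drop, hl, Nat.succ_mul]; omega),
      List.range_succ_eq_map, List.map_cons, List.map_map]
    simp only [Nat.zero_mul, List.drop_zero, List.drop_drop, List.cons.injEq, true_and]
    refine List.map_congr_left (fun i _ => ?_)
    simp only [comp_apply, Nat.succ_eq_add_one]
    rw [Nat.succ_mul, Nat.add_comm]

theorem length_chunks {n m : ℕ} (hn : 0 < n) {l : List α} (hl : l.length = m * n) :
    (chunks n l).length = m := by
  rw [chunks_eq_range hn hl]; simp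

theorem length_of_mem_chunks {n : ℕ} {l r : List α} (hl : n ∣ l.length) (h : r ∈ chunks n l) :
    r.length = n := by
  rcases Nat.eq_zero_or_pos n with rfl | hn
  · simp at h
  obtain ⟨m, hm⟩ := hl
  rw [chunks_eq_range hn (hm.trans (Nat.mul_comm _ _)), List.mem_map] at h
  obtain ⟨i, hi, rfl⟩ := h
  have hi' : i + 1 ≤ m := by simpa using hi
  have := Nat.mul_le_mul_right n hi'
  rw [Nat.succ_mul] at this
  simp only [List.length_take, List.length_drop, hm]
  rw [Nat.mul_comm n m]
  omega

theorem length_chunks_le (n : ℕ) (l : List α) : (chunks n l).length ≤ l.length := by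
  rcases Nat.eq_zero_or_pos n with rfl | hn
  · simp
  refine chunks_induction hn (p := fun l => (chunks n l).length ≤ l.length) (by simp)
    (fun l h ih => ?_) l
  have h2 : 0 < l.length := List.length_pos_of_ne_nil h
  rw [chunks_of_ne hn.ne' h]
  simp only [List.length_cons, List.length_drop] at ih ⊢
  omega

/-- block `i` of a list -/
theorem getD_chunks {n : ℕ} (hn : 0 < n) (l : List α) (i : ℕ) :
    (chunks n l).getD i [] = (l.drop (i * n)).take n := by
  induction i generalizing l with
  | zero =>
    by_cases h : l = []
    · simp [h]
    · rw [chunks_of_ne hn.ne' h]; simp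
  | succ i ih =>
    by_cases h : l = []
    · simp [h]
    · rw [chunks_of_ne hn.ne' h, List.getD_cons_succ, ih, List.drop_drop, Nat.succ_mul,
        Nat.add_comm]

/-- entry `j` of block `i` -/
theorem getD_getD_chunks {n : ℕ} (l : List α) (i : ℕ) {j : ℕ} (hj : j < n) (d : α) :
    ((chunks n l).getD i []).getD j d = l.getD (i * n + j) d := by
  rw [getD_chunks (by omega)]
  simp only [List.getD_eq_getElem?_getD, List.getElem?_take, if_pos hj, List.getElem?_drop]

theorem drop_take_map_range (f : ℕ → α) {N s n : ℕ} (h : s + n ≤ N) :
    (((List.range N).map f).drop s).take n = (List.range n).map (fun j => f (s + j)) := by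
  apply List.ext_getElem
  · simp; omega
  · intro i h1 h2
    simp

theorem chunks_map_range {n : ℕ} (hn : 0 < n) (m : ℕ) (f : ℕ → α) :
    chunks n ((List.range (m * n)).map f) =
      (List.range m).map (fun i => (List.range n).map (fun j => f (i * n + j))) := by
  rw [chunks_eq_range (m := m) hn (by simp)]
  refine List.map_congr_left (fun i hi => drop_take_map_range f ?_)
  have hi' : i + 1 ≤ m := by simpa using hi
  have := Nat.mul_le_mul_right n hi'
  rwa [Nat.succ_mul] at this

theorem flatten_map_range (m n : ℕ) (F : ℕ → ℕ → α) :
    ((List.range m).map (fun i => (List.range n).map (F i))).flatten =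
      (List.range (m * n)).map (fun k => F (k / n) (k % n)) := by
  rcases Nat.eq_zero_or_pos n with rfl | hn
  · simp
  rw [← flatten_chunks hn ((List.range (m * n)).map (fun k => F (k / n) (k % n))),
    chunks_map_range hn]
  congr 1
  refine List.map_congr_left (fun i _ => List.map_congr_left (fun j hj => ?_))
  have hj' : j < n := by simpa using hj
  rw [Nat.mul_comm i n, Nat.mul_add_div hn, Nat.mul_add_mod, Nat.div_eq_of_lt hj',
    Nat.mod_eq_of_lt hj', Nat.add_zero]

theorem length_flatten_of_length {n : ℕ} {L : List (List α)} (h : ∀ r ∈ L, r.length = n) :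
    L.flatten.length = L.length * n := by
  induction L with
  | nil => simp
  | cons r L ih =>
    rw [List.flatten_cons, List.length_append, ih (fun r hr => h r (by simp [hr])),
      h r (by simp), List.length_cons, Nat.succ_mul, Nat.add_comm]

/-- entries of a flattened list of rows of equal length -/
theorem getD_flatten {n : ℕ} {L : List (List α)} (h : ∀ r ∈ L, r.length = n) (i : ℕ) {j : ℕ}
    (hj : j < n) (d : α) : L.flatten.getD (i * n + j) d = (L.getD i []).getD j d := by
  rw [← getD_getD_chunks L.flatten i hj d, chunks_flatten (by omega) h]

theorem getD_flatten' {n : ℕ} (hn : 0 < n) {L : List (List α)} (h : ∀ r ∈ L, r.length = n)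
    (k : ℕ) (d : α) : L.flatten.getD k d = (L.getD (k / n) []).getD (k % n) d := by
  rw [← getD_flatten h (k / n) (Nat.mod_lt k hn) d, Nat.div_add_mod']

/-- every list is the table of its entries -/
theorem map_getD_range (l : List α) (d : α) :
    (List.range l.length).map (fun i => l.getD i d) = l := by
  apply List.ext_getElem
  · simp
  · intro i h1 h2
    simp [List.getElem?_eq_getElem h2]

theorem getD_map_range (f : ℕ → α) {N i : ℕ} (hi : i < N) (d : α) :
    ((List.range N).map f).getD i d = f i := by
  simp [List.getD_eq_getElem?_getD, hi]

/-- two lists of the same length with the same entries -/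
theorem ext_getD {l l' : List α} (d : α) (hl : l.length = l'.length)
    (h : ∀ i < l.length, l.getD i d = l'.getD i d) : l = l' := by
  rw [← map_getD_range l d, ← map_getD_range l' d, ← hl]
  exact List.map_congr_left (fun i hi => h i (by simpa using hi))

/-! ### `splitLengths` -/

theorem splitLengths_flatten (L : List (List α)) :
    (L.map List.length).splitLengths L.flatten = L := by
  induction L with
  | nil => rfl
  | cons r L ih => simp [ih]

theorem splitLengths_replicate {n : ℕ} (m : ℕ) (l : List α) :
    (List.replicate m n).splitLengths l = (List.range m).map (fun i => (l.drop (i * n)).take n) := by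
  induction m generalizing l with
  | zero => rfl
  | succ m ih =>
    rw [List.replicate_succ, List.splitLengths_cons, ih, List.range_succ_eq_map, List.map_cons,
      List.map_map]
    simp only [Nat.zero_mul, List.drop_zero, List.drop_drop, List.cons.injEq, true_and]
    refine List.map_congr_left (fun i _ => ?_)
    simp only [comp_apply, Nat.succ_eq_add_one]
    rw [Nat.succ_mul, Nat.add_comm]

end Crest.Agent.X326
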