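import Crest.Agent.X326.TC.NatLin

/-!
# Linear-time arithmetic on binary integers
-/

set_option autoImplicit false
set_option linter.dupNamespace false

namespace Crest.Agent.X326

open Crest.Agent.Lib.PT Function

variable {α : Type} [PTCode α] {P : α → Prop} {T : α → ℕ} {f g : α → ℤ} {k : α → ℕ}

theorem TC.intIsNeg (hf : TC P T f) : TC P T (fun x => decide (f x < 0)) :=
  (TC.recode (g := fun x => (decide (f x < 0), (f x).natAbs)) hf (fun _ _ => rfl)).fst

@[fun_prop]
theorem TC.intNatAbs (hf : TC P T f) : TC P T (fun x => (f x).natAbs) :=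
  (TC.recode (g := fun x => (decide (f x < 0), (f x).natAbs)) hf (fun _ _ => rfl)).snd

theorem enc_mkInt (b : Bool) (n : ℕ) :
    enc (b && !(decide (n = 0)), n) = enc (Arith.mkInt b n) := by
  rw [enc_int]
  congr 1
  rcases Nat.eq_zero_or_pos n with rfl | hn
  · simp [Arith.mkInt]
  · have h1 : decide (n = 0) = false := by simp; omega
    cases b
    · simp [Arith.mkInt]
    · simp only [h1, Arith.mkInt, Prod.mk.injEq]
      constructor
      · simp [hn]
      · simp

/-- integer from sign and absolute value -/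
@[fun_prop]
theorem TC.intMk {b : α → Bool} {n : α → ℕ} (hb : TC P T b) (hn : TC P T n) :
    TC P T (fun x => Arith.mkInt (b x) (n x)) :=
  ((hb.and (hn.decideEq (TC.const 0)).not).prodMk hn).recode (fun _ _ => enc_mkInt _ _)

@[fun_prop]
theorem TC.intNatCast {n : α → ℕ} (hn : TC P T n) : TC P T (fun x => (n x : ℤ)) :=
  (TC.intMk (TC.const false) hn).of_eq (fun x => by simp [Arith.mkInt])

@[fun_prop]
theorem TC.intOfNat {n : α → ℕ} (hn : TC P T n) : TC P T (fun x => Int.ofNat (n x)) :=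
  hn.intNatCast

@[fun_prop]
theorem TC.intNeg (hf : TC P T f) : TC P T (fun x => - f x) :=
  (TC.intMk hf.intIsNeg.not hf.intNatAbs).of_eq (fun x => by
    rw [Arith.mkInt]
    split_ifs with h
    · have : ¬ f x < 0 := by simpa using h
      omega
    · have : f x < 0 := by simpa using h
      omega)

@[fun_prop]
theorem TC.intAbs (hf : TC P T f) : TC P T (fun x => |f x|) :=
  hf.intNatAbs.intNatCast.of_eq (fun x => by simp)

@[fun_prop]
theorem TC.intAdd (hf : TC P T f) (hg : TC P T g) : TC P T (fun x => f x + g x) := by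
  have h1 := hf.intIsNeg
  have h2 := hg.intIsNeg
  have h3 := hf.intNatAbs
  have h4 := hg.intNatAbs
  have h5 : TP P T (fun a => (g a).natAbs ≤ (f a).natAbs) := TP.natLe h4 h3
  have h := TC.cond (TC.xor h1 h2)
    (TC.ite h5 (TC.intMk h1 (TC.natSub h3 h4)) (TC.intMk h2 (TC.natSub h4 h3)))
    (TC.intMk h1 (TC.natAdd h3 h4))
  exact h.of_eq (fun a => Arith.add_formula (f a) (g a))

@[fun_prop]
theorem TC.intSub (hf : TC P T f) (hg : TC P T g) : TC P T (fun x => f x - g x) :=
  (hf.intAdd hg.intNeg).of_eq (fun _ => (sub_eq_add_neg _ _).symm)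

theorem TC.intDecideLt (hf : TC P T f) (hg : TC P T g) : TC P T (fun x => decide (f x < g x)) :=
  (hf.intSub hg).intIsNeg.of_eq (fun x => by simp)

theorem TC.intDecideLe (hf : TC P T f) (hg : TC P T g) : TC P T (fun x => decide (f x ≤ g x)) :=
  (hg.intDecideLt hf).not.of_eq (fun x => by by_cases h : f x ≤ g x <;> simp [h]; omega)

@[fun_prop]
theorem TP.intLt (hf : TC P T f) (hg : TC P T g) : TP P T (fun x => f x < g x) :=
  TP.of_tc (hf.intDecideLt hg)

@[fun_prop]
theorem TP.intLe (hf : TC P T f) (hg : TC P T g) : TP P T (fun x => f x ≤ g x) :=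
  TP.of_tc (hf.intDecideLe hg)

@[fun_prop]
theorem TP.intGt (hf : TC P T f) (hg : TC P T g) : TP P T (fun x => f x > g x) :=
  TP.intLt hg hf

@[fun_prop]
theorem TP.intGe (hf : TC P T f) (hg : TC P T g) : TP P T (fun x => f x ≥ g x) :=
  TP.intLe hg hf

@[fun_prop]
theorem TC.intToNat (hf : TC P T f) : TC P T (fun x => (f x).toNat) :=
  (TC.cond hf.intIsNeg (TC.const 0) hf.intNatAbs).of_eq (fun x => by
    by_cases h : f x < 0 <;> simp [h] <;> omega)

@[fun_prop]
theorem TC.intMax (hf : TC P T f) (hg : TC P T g) : TC P T (fun x => max (f x) (g x)) :=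
  (TC.ite (TP.intLe hf hg) hg hf).of_eq (fun _ => (max_def _ _).symm)

@[fun_prop]
theorem TC.intMin (hf : TC P T f) (hg : TC P T g) : TC P T (fun x => min (f x) (g x)) :=
  (TC.ite (TP.intLe hf hg) hf hg).of_eq (fun _ => (min_def _ _).symm)

@[fun_prop]
theorem TC.intSign (hf : TC P T f) : TC P T (fun x => (f x).sign) :=
  (TC.ite (TP.intLt hf (TC.const 0)) (TC.const (-1))
    (TC.ite (TP.eq hf (TC.const 0)) (TC.const 0) (TC.const 1))).of_eq (fun x => by
      split_ifs with h1 h2
      · exact (Int.sign_eq_neg_one_of_neg h1).symm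
      · rw [h2]; rfl
      · exact (Int.sign_eq_one_of_pos (by omega)).symm)

/-- an integer product from the product of the absolute values -/
theorem TC.intMul_of_natAbs (hf : TC P T f) (hg : TC P T g)
    (h : TC P T (fun x => (f x).natAbs * (g x).natAbs)) : TC P T (fun x => f x * g x) := by
  refine (TC.intMk (TC.xor hf.intIsNeg hg.intIsNeg) h).of_eq (fun a => ?_)
  conv_rhs => rw [← Arith.mkInt_eta (f a), ← Arith.mkInt_eta (g a)]
  cases decide (f a < 0) <;> cases decide (g a < 0) <;> simp [Arith.mkInt]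

/-- multiplication by a fixed constant -/
@[fun_prop]
theorem TC.intConstMul (c : ℤ) (hf : TC P T f) : TC P T (fun x => c * f x) :=
  TC.intMul_of_natAbs (TC.const c) hf (hf.intNatAbs.natConstMul _)

@[fun_prop]
theorem TC.intMulConst (c : ℤ) (hf : TC P T f) : TC P T (fun x => f x * c) :=
  (hf.intConstMul c).of_eq (fun _ => mul_comm _ _)

@[fun_prop]
theorem TC.intTwoPow (hk : TU P T k) : TC P T (fun x => (2 : ℤ) ^ k x) :=
  (TC.natTwoPow hk).intNatCast.of_eq (fun x => by simp)

@[fun_prop]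
theorem TC.intMulTwoPow (hf : TC P T f) (hk : TU P T k) : TC P T (fun x => f x * 2 ^ k x) :=
  TC.intMul_of_natAbs hf (TC.intTwoPow hk) ((hf.intNatAbs.natMulTwoPow hk).of_eq (fun x => by
    simp [Int.natAbs_pow]))

@[fun_prop]
theorem TC.intTwoPowMul (hk : TU P T k) (hf : TC P T f) : TC P T (fun x => 2 ^ k x * f x) :=
  (hf.intMulTwoPow hk).of_eq (fun _ => mul_comm _ _)

theorem int_ediv_two_pow (z : ℤ) (k : ℕ) : z / 2 ^ k =
    if z < 0 then -(((z.natAbs - 1) / 2 ^ k : ℕ) : ℤ) - 1 else ((z.natAbs / 2 ^ k : ℕ) : ℤ) := by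
  split_ifs with h
  · obtain ⟨m, rfl⟩ := Int.eq_negSucc_of_lt_zero h
    rw [Int.negSucc_ediv m (by positivity)]
    simp only [Int.natAbs_negSucc, Nat.succ_eq_add_one, Nat.add_sub_cancel]
    push_cast
    show -((m : ℤ) / 2 ^ k + 1) = _
    ring
  · obtain ⟨m, rfl⟩ := Int.eq_ofNat_of_zero_le (not_lt.1 h)
    simp

/-- floor division by a power of two -/
@[fun_prop]
theorem TC.intDivTwoPow (hf : TC P T f) (hk : TU P T k) : TC P T (fun x => f x / 2 ^ k x) :=
  (TC.ite (TP.intLt hf (TC.const 0))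
    ((((hf.intNatAbs.natSub (TC.const 1)).natDivTwoPow hk).intNatCast.intNeg).intSub (TC.const 1))
    (hf.intNatAbs.natDivTwoPow hk).intNatCast).of_eq (fun _ => (int_ediv_two_pow _ _).symm)

/-- nonnegative remainder modulo a power of two -/
@[fun_prop]
theorem TC.intModTwoPow (hf : TC P T f) (hk : TU P T k) : TC P T (fun x => f x % 2 ^ k x) :=
  (hf.intSub (TC.intTwoPowMul hk (hf.intDivTwoPow hk))).of_eq (fun _ => (Int.emod_def _ _).symm)

theorem TC.intDivTwo (hf : TC P T f) : TC P T (fun x => f x / 2) :=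
  (hf.intDivTwoPow (TU.const 1)).of_eq (fun x => by simp)

theorem TC.intModTwo (hf : TC P T f) : TC P T (fun x => f x % 2) :=
  (hf.intModTwoPow (TU.const 1)).of_eq (fun x => by simp)

@[fun_prop]
theorem TC.intShiftRight (hf : TC P T f) (hk : TU P T k) : TC P T (fun x => f x >>> k x) :=
  (hf.intDivTwoPow hk).of_eq (fun x => by rw [Int.shiftRight_eq_div_pow]; simp)

/-- residue of an integer of absolute value below `M` -/
theorem TC.intModOfAbsLt {M : α → ℤ} (hf : TC P T f) (hM : TC P T M)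
    (h : ∀ x, P x → |f x| < M x) : TC P T (fun x => f x % M x) :=
  (TC.ite (TP.intLt hf (TC.const 0)) (hf.intAdd hM) hf).congr (fun x hx => by
    have h1 := abs_lt.1 (h x hx)
    split_ifs with hlt
    · rw [← Int.add_emod_right, Int.emod_eq_of_lt] <;> omega
    · rw [Int.emod_eq_of_lt] <;> omega)

theorem int_emod_nat (z : ℤ) {M : ℕ} (hM : 0 < M) : z % (M : ℤ) =
    if z < 0 ∧ z.natAbs % M ≠ 0 then ((M - z.natAbs % M : ℕ) : ℤ) else ((z.natAbs % M : ℕ) : ℤ) := by
  have h1 : z.natAbs % M < M := Nat.mod_lt _ hM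
  have h2 := Nat.div_add_mod z.natAbs M
  have h3 : (M : ℤ) * ((z.natAbs / M : ℕ) : ℤ) + ((z.natAbs % M : ℕ) : ℤ) = (z.natAbs : ℤ) := by
    exact_mod_cast h2
  generalize z.natAbs / M = q at h3
  generalize hr : z.natAbs % M = r at h1 h3
  split_ifs with h
  · have e : z = ((M - r : ℕ) : ℤ) + M * (-(q : ℤ) - 1) := by
      rw [Nat.cast_sub h1.le]
      have : (z.natAbs : ℤ) = -z := by omega
      linear_combination h3 + this
    conv_lhs => rw [e, Int.add_mul_emod_self_left]
    rw [Int.emod_eq_of_lt] <;> omega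
  · by_cases hz : z < 0
    · have hr0 : r = 0 := by
        by_contra h'
        exact h ⟨hz, h'⟩
      subst hr0
      have e : z = M * (-(q : ℤ)) := by
        have : (z.natAbs : ℤ) = -z := by omega
        push_cast at h3
        push_cast at this
        linear_combination h3 + this
      rw [e]; simp
    · have e : z = (r : ℤ) + M * q := by
        have : (z.natAbs : ℤ) = z := by omega
        linear_combination -h3 - this
      conv_lhs => rw [e, Int.add_mul_emod_self_left]
      rw [Int.emod_eq_of_lt] <;> omega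

/-- residue of an integer from the residue of its absolute value -/
theorem TC.intMod_of_natAbs {M : α → ℕ} (hf : TC P T f) (hM : TC P T M)
    (hpos : ∀ x, P x → 0 < M x) (h : TC P T (fun x => (f x).natAbs % M x)) :
    TC P T (fun x => f x % (M x : ℤ)) :=
  (TC.ite ((TP.intLt hf (TC.const 0)).and (TP.ne h (TC.const 0))) (hM.natSub h).intNatCast
    h.intNatCast).congr (fun x hx => (int_emod_nat _ (hpos x hx)).symm)

/-- residue modulo `2 ^ k - 1` of an integer of absolute value below `2 ^ (c k)` -/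
theorem TC.intModMersenne (c : ℕ) (hf : TC P T f) (hk : TU P T k)
    (h : ∀ x, P x → 1 ≤ k x ∧ (f x).natAbs < 2 ^ (c * k x)) :
    TC P T (fun x => f x % ((2 ^ k x - 1 : ℕ) : ℤ)) :=
  TC.intMod_of_natAbs hf ((TC.natTwoPow hk).natSub (TC.const 1)) (fun x hx => by
    have : 2 ^ 1 ≤ 2 ^ k x := Nat.pow_le_pow_right (by norm_num) (h x hx).1
    omega) (TC.natModMersenne c hf.intNatAbs hk h)

/-- the balanced representative of a residue `c < M` -/
def balL (M c : ℕ) : ℤ := if 2 * c < M then (c : ℤ) else (c : ℤ) - M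

theorem balL_emod {M : ℕ} {z : ℤ} (h : 2 * |z| < M) : balL M (z % (M : ℤ)).toNat = z := by
  have h1 := abs_lt.1 (show |z| < (M : ℤ) by have := abs_nonneg z; omega)
  unfold balL
  by_cases hz : z < 0
  · rw [← Int.add_emod_right, Int.emod_eq_of_lt (by omega) (by omega)]
    rw [abs_of_neg hz] at h
    split_ifs <;> omega
  · rw [Int.emod_eq_of_lt (by omega) (by omega)]
    rw [abs_of_nonneg (by omega)] at h
    split_ifs <;> omega

theorem balL_eq_of_modEq {M c : ℕ} {z : ℤ} (hc : c < M) (h : 2 * |z| < M)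
    (hz : (c : ℤ) ≡ z [ZMOD M]) : balL M c = z := by
  have : c = (z % (M : ℤ)).toNat := by
    rw [← hz, Int.emod_eq_of_lt (by omega) (by omega)]; simp
  rw [this, balL_emod h]

theorem natAbs_balL_le {M c : ℕ} (hc : c ≤ M) : 2 * (balL M c).natAbs ≤ M := by
  unfold balL
  split_ifs <;> omega

@[fun_prop]
theorem TC.balL {M c : α → ℕ} (hM : TC P T M) (hc : TC P T c) :
    TC P T (fun x => balL (M x) (c x)) :=
  TC.ite (TP.natLt (hc.natConstMul 2) hM) hc.intNatCast (hc.intNatCast.intSub hM.intNatCast)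

/-! ### `Lin` forms and sizes -/

theorem Lin.intAdd : Lin (fun p : ℤ × ℤ => p.1 + p.2) := by fun_prop
theorem Lin.intSub : Lin (fun p : ℤ × ℤ => p.1 - p.2) := by fun_prop
theorem Lin.intNeg : Lin (fun z : ℤ => -z) := by fun_prop

theorem sz_int_le_of_natAbs_lt {z : ℤ} {k : ℕ} (h : z.natAbs < 2 ^ k) : sz z ≤ k + 3 := by
  rw [sz_int]
  have := Nat.size_le.2 h
  omega

theorem sz_int_le_of_abs_lt {z : ℤ} {k : ℕ} (h : |z| < 2 ^ k) : sz z ≤ k + 3 :=
  sz_int_le_of_natAbs_lt (by zify; simpa using h)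

theorem sz_int_le_of_abs_le {z : ℤ} {k : ℕ} (h : |z| ≤ 2 ^ k) : sz z ≤ k + 4 :=
  sz_int_le_of_abs_lt (k := k + 1) (by
    have : (0 : ℤ) < 2 ^ k := by positivity
    rw [pow_succ]; omega)

end Crest.Agent.X326
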