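import Crest.Agent.X326.TC.Final
import Crest.Agent.X326.TC.ListLin
import Crest.Agent.X326.TC.MapAccum
import Crest.Prelude.Def_IntMul

/-!
# From a `TC` statement for the product of two natural numbers to the multiplication task
-/

set_option autoImplicit false
set_option linter.dupNamespace false

namespace Crest.Agent.X326.FM

open Crest.Agent.Lib.PT Crest.LogicCS.IntMul Crest.DTime

variable {α β : Type} [PTCode α] [PTCode β] {P : α → Prop} {T : α → ℕ}

/-! ### passes with a finite transducer -/

/-- a finite-state transducer over a finite alphabet is linear time -/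
theorem lin_accum_finite {σ A B : Type} [PTCode σ] [PTCode A] [PTCode B] [Finite σ] [Finite A]
    (f : σ × A → σ × List B) (s : σ) : Lin (fun l : List A => accumL f s l) := by
  obtain ⟨M, hM⟩ := OfTM.exists_sz_le σ
  refine TC.accumL_inv (Lin.of_finite f) (TC.const s) TC.id (fun _ _ _ => True) (fun _ _ => M)
    (fun _ _ => trivial) (fun _ _ t _ _ _ => ⟨trivial, by simpa using hM t, trivial⟩) ?_
  refine Bud.of_le 0 M 0 (fun l _ => ?_)
  have := length_le_sz l
  simp only [List.map_const', List.sum_replicate, smul_eq_mul, zero_mul, zero_add, add_zero]
  rw [mul_comm]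
  exact Nat.mul_le_mul_left _ this

theorem lin_filterMap_finite {A B : Type} [PTCode A] [PTCode B] [Finite A] (f : A → Option B) :
    Lin (fun l : List A => l.filterMap f) := by
  refine (lin_accum_finite (fun q : Unit × A => ((), (f q.2).toList)) ()).snd.of_eq (fun l => ?_)
  induction l with
  | nil => rfl
  | cons a l ih =>
    rw [accumL_cons, List.filterMap_cons]
    cases f a <;> simp [ih]

theorem lin_dropZeros : Lin (fun l : List Bool => l.dropWhile (fun b => !b)) := by
  refine (lin_accum_finite
    (fun q : Bool × Bool => (q.1 || q.2, if q.1 || q.2 then [q.2] else [])) false).snd.of_eq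
    (fun l => ?_)
  have h1 : ∀ l : List Bool, (accumL
      (fun q : Bool × Bool => (q.1 || q.2, if q.1 || q.2 then [q.2] else [])) true l).2 = l := by
    intro l
    induction l with
    | nil => rfl
    | cons a l ih => simpa using ih
  induction l with
  | nil => rfl
  | cons a l ih =>
    cases a
    · simpa using ih
    · simpa using h1 l

/-- the concatenated codes of a list -/
theorem lin_codes : Lin (fun l : List β => Bits.mk (l.flatMap enc)) := by
  refine TC.of_run ListRun.flattenP (Bud.of_le 0 14 2 (fun _ _ => le_rfl)) (fun L _ => ?_)
  rw [init_eq_st4]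
  have e : L.reverse.flatMap (fun a => [] ++ (enc a).reverse.flatMap (fun c => [c])) =
      (L.flatMap enc).reverse := by
    induction L with
    | nil => simp
    | cons a L ih => simp at ih ⊢; rw [ih]
  have hl : (L.flatMap enc).length ≤ sz L := by
    clear e
    induction L with
    | nil => simp
    | cons a L ih =>
      simp only [List.flatMap_cons, List.length_append, sz_cons, ListRun.length_enc]
      omega
  refine ((ListRun.run_allCells_loop _ _ L []).seq (run_mv (by decide) _)).of_eq ?_ ?_
  · rw [e]; simp [init_eq_st4]
  · rw [e]; simp only [st4_one, List.append_nil, List.length_reverse, List.length_cons,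
      List.length_nil]
    omega

/-- a list of Booleans as a raw string -/
theorem lin_bitsMk : Lin (fun l : List Bool => Bits.mk l) :=
  lin_codes.of_eq (fun l => by
    congr 1
    induction l with
    | nil => rfl
    | cons a l ih => simp [ih])

/-- a raw string as a list of Booleans -/
theorem lin_bitsVal : Lin (fun x : Bits => x.val) :=
  (LinRaw.flatMap (fun b => [true, b, false])).lin (fun x => by
    rcases x with ⟨l⟩
    induction l with
    | nil => rfl
    | cons a l ih => simpa [pair] using ih)

/-! ### numbers and bit strings -/

theorem bitsVal_append_singleton (x : List Bool) (b : Bool) :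
    bitsVal (x ++ [b]) = Nat.bit b (bitsVal x) := by
  unfold bitsVal
  rw [List.foldl_append, Nat.bit_val]
  cases b <;> simp

theorem bitsVal_lt (x : List Bool) : bitsVal x < 2 ^ x.length := by
  induction x using List.reverseRecOn with
  | nil => simp [bitsVal]
  | append_singleton x b ih =>
    rw [bitsVal_append_singleton, Nat.bit_val, List.length_append, List.length_singleton, pow_succ]
    cases b <;> simp <;> omega

theorem bits_bitsVal (x : List Bool) :
    (bitsVal x).bits = (x.dropWhile (fun b => !b)).reverse := by
  induction x using List.reverseRecOn with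
  | nil => simp [bitsVal]
  | append_singleton x b ih =>
    rw [bitsVal_append_singleton, List.dropWhile_append]
    by_cases h : x.dropWhile (fun b => !b) = []
    · have h0 : bitsVal x = 0 := by
        rw [h] at ih
        have := Nat.size_eq_bits_len (bitsVal x)
        rw [ih] at this
        exact Nat.size_eq_zero.1 this.symm
      rw [h0, h]
      cases b <;> simp
    · have h0 : bitsVal x ≠ 0 := by
        intro h0
        rw [h0] at ih
        exact h (by simpa using ih)
      rw [Nat.bits_append_bit _ _ (fun e => absurd e h0), ih]
      simp [h]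

theorem lin_val : Lin bitsVal :=
  (TC.comp_lin lin_bitsMk lin_dropZeros.reverse).recode (fun x _ => by
    rw [enc_nat, bits_bitsVal]; rfl)

theorem toBits_eq (k z : ℕ) : Crest.LogicCS.IntMul.toBits k z = (List.takeD k z.bits false).reverse := by
  unfold Crest.LogicCS.IntMul.toBits
  congr 1
  apply List.ext_getElem
  · simp
  · intro i h1 h2
    have hi : i < k := by simpa using h1
    rw [List.getElem_map, List.getElem_range, Nat.testBit_eq_inth, ← List.getD_default_eq_getI]
    generalize z.bits = l at *
    clear h1
    induction l generalizing i k with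
    | nil => simp
    | cons a l ih =>
      obtain ⟨k, rfl⟩ : ∃ j, k = j + 1 := ⟨k - 1, by omega⟩
      cases i with
      | zero => simp [List.takeD]
      | succ i =>
        have := ih k i (by omega) (by rw [List.takeD_length]; omega)
        simpa [List.takeD] using this

theorem tc_toBits {k z : α → ℕ} (hk : TU P T k) (hz : TC P T z) :
    TC P T (fun x => Crest.LogicCS.IntMul.toBits (k x) (z x)) := by
  have h1 : TC P T (fun x => (z x).bits) := TC.comp_lin (f := fun x => Lib.PT.toBits (z x)) lin_bitsVal hz.toBits
  exact (TC.takeD hk h1 (TC.const false) (hk.bud.mono (fun x _ => by simp))).reverse.of_eq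
    (fun x => (toBits_eq _ _).symm)

/-- **The multiplication task from a `TC` statement.** The input is the common length `n` in
unary and the two factors, both below `2 ^ n`. -/
theorem timeBound_of_tc_mul {t : ℕ → ℕ} (ht : ∃ D : ℕ, ∀ n, n ≤ D * t (2 * n) + D)
    (h : TC (fun q : Un × ℕ × ℕ => q.2.1 < 2 ^ q.1.val ∧ q.2.2 < 2 ^ q.1.val)
      (fun q => t (2 * q.1.val)) (fun q => q.2.1 * q.2.2)) :
    ∃ c : ℕ, TimeBoundComputable EqLenPair.enc (Computability.encodingList Bool).encode mulOutput
      (fun N => c * t N + c) := by
  classical
  let D : List (Bool ⊕ Bool) → Prop := fun l =>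
    (unL l).length = (unR l).length ∧ l.length = 2 * (unL l).length
  let t' : ℕ → ℕ := fun N => if N % 2 = 0 then t N else N
  have hL : TC D (fun l => t' l.length) unL := (lin_filterMap_finite _).tc
  have hR : TC D (fun l => t' l.length) unR := (lin_filterMap_finite _).tc
  have hn : TU D (fun l => t' l.length) (fun l => (unL l).length) := TU.length hL
  have hq : TC D (fun l => t' l.length)
      (fun l => (Un.mk (unL l).length, bitsVal (unL l), bitsVal (unR l))) :=
    TC.prodMk hn ((TC.comp_lin lin_val hL).prodMk (TC.comp_lin lin_val hR))
  have hm := h.comp hq (fun l hl => ⟨bitsVal_lt _, by rw [hl.1]; exact bitsVal_lt _⟩)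
    (Bud.self.mono (fun l hl => by simp [t', hl.2]))
  have hout := TC.comp_lin lin_bitsMk (tc_toBits (hn.const_mul 2) hm)
  obtain ⟨E, hE⟩ := ht
  obtain ⟨c, M, hM⟩ := timeBound_of_tc (ea := EqLenPair.enc)
    (eb := (Computability.encodingList Bool).encode) (f := mulOutput) hout
    (fun a => by
      have e : (EqLenPair.enc a).length = a.1.1.length + a.1.2.length := by
        simp [EqLenPair.enc, pairEnc_eq]
      have := a.2
      simp only [D, EqLenPair.enc, unL_pairEnc, unR_pairEnc] at e ⊢
      omega)
    (fun a => by simp only [EqLenPair.enc, unL_pairEnc, unR_pairEnc]; rfl)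
    ⟨2 * E + 1, fun n => by
      by_cases hn : n % 2 = 0
      · have := hE (n / 2)
        have e : 2 * (n / 2) = n := by omega
        rw [e] at this
        simp only [t', hn, if_true]
        have e2 : (2 * E + 1) * t n = 2 * (E * t n) + t n := by ring
        omega
      · simp only [t', hn, if_false]
        have e2 : (2 * E + 1) * n = 2 * (E * n) + n := by ring
        omega⟩
  refine ⟨c, ⟨{ M.toTM2ComputableAux with
    time := fun N => c * t N + c
    outputsFun := fun a => ?_ }, fun _ => le_rfl⟩⟩
  obtain ⟨h1, h2⟩ := M.outputsFun a
  refine ⟨h1, h2.trans ((hM _).trans ?_)⟩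
  have e : (EqLenPair.enc a).length % 2 = 0 := by
    have e : (EqLenPair.enc a).length = a.1.1.length + a.1.2.length := by
      simp [EqLenPair.enc, pairEnc_eq]
    have := a.2
    omega
  simp [t', e]

end Crest.Agent.X326.FM
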