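import Crest.Agent.X326.TC.MergeSpec
import Crest.Agent.X326.TC.MapAccum
import Crest.Agent.X326.TC.ListLin

/-!
# Row 326, machine layer: dealing a list into `W` streams and interleaving them again

* `deal W w l`  : the entries of `l` at the positions `≡ w (mod W)`.
* `dealAll W l` : the list of the `W` streams.
* `rows Ls`     : transposition of a list of streams (`rows Ls` has one row per position).
* `undeal Ls`   : interleave the streams, `(undeal Ls)[i * W + w] = Ls[w][i]`.

For fixed `W` all of them are linear.
-/

set_option autoImplicit false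

namespace Crest.Agent.X326

open Crest.Agent.Lib.PT Function

section defs

variable {α β : Type}

/-- the entries at the positions `≡ w (mod W)` -/
def deal (W w : ℕ) (l : List α) : List α :=
  ((chunks W l).map (fun r => (r.drop w).take 1)).flatten

/-- all `W` streams -/
def dealAll (W : ℕ) (l : List α) : List (List α) := (List.range W).map (fun w => deal W w l)

/-- transposition of a list of streams -/
def rows : List (List α) → List (List α)
  | [] => []
  | [L] => L.map (fun x => [x])
  | L :: L' :: Ls => List.zipWith List.cons L (rows (L' :: Ls))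

/-- interleave the streams -/
def undeal (Ls : List (List α)) : List α := (rows Ls).flatten

theorem deal_eq {W w m : ℕ} (hw : w < W) {l : List α} (hl : l.length = m * W) (d : α) :
    deal W w l = (List.range m).map (fun i => l.getD (i * W + w) d) := by
  have hW : 0 < W := by omega
  have h1 : ∀ i ∈ List.range m, (((l.drop (i * W)).take W).drop w).take 1 =
      [l.getD (i * W + w) d] := by
    intro i hi
    have hi' : i + 1 ≤ m := by simpa using hi
    have h2 := Nat.mul_le_mul_right W hi'
    rw [Nat.succ_mul] at h2
    have h3 : i * W + w < l.length := by omega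
    rw [List.getD_eq_getElem _ _ h3]
    apply List.ext_getElem
    · simp only [List.length_take, List.length_drop, List.length_singleton]; omega
    · intro j h4 h5
      have : j = 0 := by simpa using h5
      subst this
      simp
  rw [deal, chunks_eq_range hW hl, List.map_map]
  rw [List.map_congr_left (g := fun i => [l.getD (i * W + w) d]) (fun i hi => by
    simpa only [comp_apply] using h1 i hi)]
  induction List.range m with
  | nil => rfl
  | cons a r ih => simp only [List.map_cons, List.flatten_cons, ih, List.singleton_append]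

theorem length_deal {W w m : ℕ} (hw : w < W) {l : List α} (hl : l.length = m * W) :
    (deal W w l).length = m := by
  rcases l with _ | ⟨d, l⟩
  · have : m = 0 := by
      rcases Nat.eq_zero_or_pos m with h | h
      · exact h
      · have := Nat.mul_pos h (show 0 < W by omega)
        simp only [List.length_nil] at hl
        omega
    simp [deal, this]
  · rw [deal_eq hw hl d]; simp

theorem getD_deal {W w m : ℕ} (hw : w < W) {l : List α} (hl : l.length = m * W) (i : ℕ) (d : α) :
    (deal W w l).getD i d = l.getD (i * W + w) d := by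
  rw [deal_eq hw hl d]
  by_cases hi : i < m
  · exact getD_map_range _ hi d
  · have h1 : m * W ≤ i * W := Nat.mul_le_mul_right W (by omega)
    rw [List.getD_eq_default _ _ (by simp; omega), List.getD_eq_default _ _ (by omega)]

theorem mem_of_mem_deal {W w : ℕ} {l : List α} {a : α} (h : a ∈ deal W w l) : a ∈ l := by
  simp only [deal, List.mem_flatten, List.mem_map] at h
  obtain ⟨_, ⟨r, hr, rfl⟩, ha⟩ := h
  exact mem_of_mem_chunks hr (List.mem_of_mem_drop (List.mem_of_mem_take ha))

theorem deal_map (W w : ℕ) (f : α → β) (l : List α) :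
    deal W w (l.map f) = (deal W w l).map f := by
  simp only [deal, chunks_map, List.map_map, List.map_flatten]
  congr 1
  refine List.map_congr_left (fun r _ => ?_)
  simp [List.map_drop, List.map_take]

@[simp] theorem length_dealAll (W : ℕ) (l : List α) : (dealAll W l).length = W := by
  simp [dealAll]

theorem getD_dealAll {W w : ℕ} (hw : w < W) (l : List α) :
    (dealAll W l).getD w [] = deal W w l := getD_map_range _ hw _

theorem length_of_mem_dealAll {W m : ℕ} {l L : List α} (hl : l.length = m * W)
    (h : L ∈ dealAll W l) : L.length = m := by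
  obtain ⟨w, hw, rfl⟩ := List.mem_map.1 h
  exact length_deal (List.mem_range.1 hw) hl

theorem mem_of_mem_dealAll {W : ℕ} {l L : List α} {a : α} (h : L ∈ dealAll W l) (ha : a ∈ L) :
    a ∈ l := by
  obtain ⟨w, _, rfl⟩ := List.mem_map.1 h
  exact mem_of_mem_deal ha

theorem rows_eq {m : ℕ} {Ls : List (List α)} (hne : Ls ≠ []) (h : ∀ L ∈ Ls, L.length = m)
    (d : α) : rows Ls = (List.range m).map (fun i => Ls.map (fun L => L.getD i d)) := by
  induction Ls with
  | nil => exact absurd rfl hne
  | cons L Ls ih =>
    have hL : L.length = m := h L (by simp)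
    cases Ls with
    | nil =>
      rw [rows]
      conv_lhs => rw [← map_getD_range L d, hL]
      simp
    | cons L' Ls =>
      rw [rows, ih (by simp) (fun L hL => h L (by simp [hL]))]
      conv_lhs => rw [← map_getD_range L d, hL]
      rw [List.zipWith_map, List.zipWith_self]
      simp

theorem undeal_eq {m : ℕ} {Ls : List (List α)} (h : ∀ L ∈ Ls, L.length = m) (d : α) :
    undeal Ls = (List.range (m * Ls.length)).map
      (fun k => (Ls.getD (k % Ls.length) []).getD (k / Ls.length) d) := by
  by_cases hne : Ls = []
  · subst hne; simp [undeal, rows]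
  rw [undeal, rows_eq hne h d,
    ← flatten_map_range m Ls.length (fun i w => (Ls.getD w []).getD i d)]
  congr 1
  refine List.map_congr_left (fun i _ => ?_)
  conv_lhs => rw [← map_getD_range Ls []]
  rw [List.map_map]
  rfl

theorem length_undeal {m : ℕ} {Ls : List (List α)} (h : ∀ L ∈ Ls, L.length = m) :
    (undeal Ls).length = m * Ls.length := by
  by_cases hm : m = 0
  · subst hm
    have : rows Ls = [] := by
      rcases Ls with _ | ⟨L, _ | ⟨L', Ls⟩⟩
      · rfl
      · rw [List.eq_nil_of_length_eq_zero (h L (by simp))]; rfl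
      · rw [List.eq_nil_of_length_eq_zero (h L (by simp))]; rfl
    simp [undeal, this]
  · rcases Ls with _ | ⟨L, Ls⟩
    · simp [undeal, rows]
    · have hL : L.length = m := h L (by simp)
      rw [undeal_eq h (L[0]'(by omega))]
      simp

theorem getD_undeal {m W : ℕ} {Ls : List (List α)} (hW : Ls.length = W)
    (h : ∀ L ∈ Ls, L.length = m) (i : ℕ) {w : ℕ} (hw : w < W) (d : α) :
    (undeal Ls).getD (i * W + w) d = (Ls.getD w []).getD i d := by
  subst hW
  by_cases hi : i < m
  · have hi' : i + 1 ≤ m := hi
    have h2 := Nat.mul_le_mul_right Ls.length hi'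
    rw [Nat.succ_mul] at h2
    rw [undeal_eq h d, getD_map_range _ (by omega), Nat.mul_comm i, Nat.mul_add_mod,
      Nat.mul_add_div (by omega), Nat.mod_eq_of_lt hw, Nat.div_eq_of_lt hw, Nat.add_zero]
  · have h1 : m * Ls.length ≤ i * Ls.length := Nat.mul_le_mul_right _ (by omega)
    have h2 : (Ls.getD w []).length = m := by
      rw [List.getD_eq_getElem _ _ hw]; exact h _ (List.getElem_mem hw)
    rw [List.getD_eq_default _ _ (by rw [length_undeal h]; omega),
      List.getD_eq_default _ _ (by omega)]

theorem getD_undeal' {m W : ℕ} {Ls : List (List α)} (hW : Ls.length = W) (h0 : 0 < W)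
    (h : ∀ L ∈ Ls, L.length = m) (k : ℕ) (d : α) :
    (undeal Ls).getD k d = (Ls.getD (k % W) []).getD (k / W) d := by
  rw [← getD_undeal hW h (k / W) (Nat.mod_lt k h0) d, Nat.div_add_mod']

theorem mem_rows {Ls : List (List α)} {r : List α} {a : α} (hr : r ∈ rows Ls) (ha : a ∈ r) :
    ∃ L ∈ Ls, a ∈ L := by
  induction Ls generalizing r with
  | nil => simp [rows] at hr
  | cons L Ls ih =>
    cases Ls with
    | nil =>
      simp only [rows, List.mem_map] at hr
      obtain ⟨x, hx, rfl⟩ := hr
      rw [List.mem_singleton.1 ha]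
      exact ⟨L, by simp, hx⟩
    | cons L' Ls =>
      rw [rows, ← List.map_uncurry_zip_eq_zipWith] at hr
      obtain ⟨⟨x, r'⟩, hx, rfl⟩ := List.mem_map.1 hr
      rcases List.mem_cons.1 ha with rfl | ha
      · exact ⟨L, by simp, (List.of_mem_zip hx).1⟩
      · obtain ⟨L'', h1, h2⟩ := ih (List.of_mem_zip hx).2 ha
        exact ⟨L'', List.mem_cons_of_mem _ h1, h2⟩

theorem mem_of_mem_undeal {Ls : List (List α)} {a : α} (h : a ∈ undeal Ls) :
    ∃ L ∈ Ls, a ∈ L := by
  obtain ⟨r, hr, ha⟩ := List.mem_flatten.1 h
  exact mem_rows hr ha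

theorem undeal_dealAll {W : ℕ} (hW : 0 < W) {l : List α} (hl : W ∣ l.length) :
    undeal (dealAll W l) = l := by
  obtain ⟨m, hm⟩ := hl
  rw [Nat.mul_comm] at hm
  rcases l with _ | ⟨d, l⟩
  · apply List.eq_nil_of_length_eq_zero
    rw [length_undeal (fun L hL => length_of_mem_dealAll hm hL), length_dealAll, ← hm]
    rfl
  · refine ext_getD d ?_ (fun k _ => ?_)
    · rw [length_undeal (fun L hL => length_of_mem_dealAll hm hL), length_dealAll, hm]
    · rw [getD_undeal' (length_dealAll _ _) hW (fun L hL => length_of_mem_dealAll hm hL),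
        getD_dealAll (Nat.mod_lt k hW), getD_deal (Nat.mod_lt k hW) hm, Nat.div_add_mod']

theorem deal_undeal {m W w : ℕ} {Ls : List (List α)} (hW : Ls.length = W)
    (h : ∀ L ∈ Ls, L.length = m) (hw : w < W) : deal W w (undeal Ls) = Ls.getD w [] := by
  have hl : (undeal Ls).length = m * W := by rw [length_undeal h, hW]
  have h2 : (Ls.getD w []).length = m := by
    rw [List.getD_eq_getElem _ _ (by omega)]; exact h _ (List.getElem_mem _)
  refine List.ext_getElem (by rw [length_deal hw hl, h2]) (fun i h3 h4 => ?_)
  have h5 := getD_deal hw hl i ((Ls.getD w [])[i])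
  rw [getD_undeal hW h i hw, List.getD_eq_getElem _ _ h3, List.getD_eq_getElem _ _ h4] at h5
  exact h5

end defs

/-! ### the machine side -/

namespace Mg

variable {ι α β : Type} [PTCode ι] [PTCode α] [PTCode β] {P : ι → Prop} {T : ι → ℕ}

theorem tc_cons {f : ι → α} {g : ι → List α} (hf : TC P T f) (hg : TC P T g) :
    TC P T (fun x => f x :: g x) := (hf.prodMk hg).recode (fun _ _ => rfl)

omit [PTCode α] [PTCode β] in
theorem accumL_map (f : α → β) (l : List α) :
    (accumL (fun p : Unit × α => ((), [f p.2])) () l).2 = l.map f := by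
  induction l with
  | nil => rfl
  | cons a l ih => simp [ih]

/-- `map` of a linear-time function -/
theorem tc_map_lin {f : α → β} (hf : Lin f) {l : ι → List α} (hl : TC P T l) :
    TC P T (fun x => (l x).map f) := by
  have h1 : Lin (fun p : Unit × α => ((), [f p.2])) :=
    (TC.const ()).prodMk (tc_cons (TC.comp_lin hf TC.id.snd) (TC.const []))
  refine (TC.accumL_inv h1 (TC.const ()) hl (fun _ _ _ => True) (fun _ _ => 0)
    (fun _ _ => trivial) (fun _ _ _ _ _ _ => ⟨trivial, by simp, trivial⟩)
    ((Bud.const 0).mono (fun x _ => by simp))).snd.of_eq (fun x => accumL_map f (l x))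

theorem tc_listMap_fixed {κ : Type} (l : List κ) {g : κ → ι → β} (h : ∀ i ∈ l, TC P T (g i)) :
    TC P T (fun x => l.map (fun i => g i x)) := by
  induction l with
  | nil => exact TC.const []
  | cons i l ih => exact tc_cons (h i (by simp)) (ih (fun j hj => h j (by simp [hj])))

theorem tc_rows (W : ℕ) :
    TC (fun Ls : List (List α) => Ls.length = W) (fun _ => 0) (fun Ls => rows Ls) := by
  have hd : Lin (fun Ls : List (List α) => (Ls.take 1).flatten) :=
    TC.flatten (TC.take (TU.const 1) TC.id)
  have hs : Lin (fun x : α => [x]) := tc_cons TC.id (TC.const [])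
  have hc : Lin (fun p : α × List α => p.1 :: p.2) := tc_cons TC.id.fst TC.id.snd
  induction W with
  | zero =>
    refine (TC.const []).congr (fun Ls h => ?_)
    rw [List.eq_nil_of_length_eq_zero h]; rfl
  | succ W ih =>
    rcases Nat.eq_zero_or_pos W with rfl | hW
    · refine (tc_map_lin hs (Lin.tc hd)).congr (fun Ls h => ?_)
      obtain ⟨L, rfl⟩ := List.length_eq_one_iff.1 h
      simp [rows]
    · have h1 : TC (fun Ls : List (List α) => Ls.length = W + 1) (fun _ => 0)
          (fun Ls => rows (Ls.drop 1)) :=
        TC.comp ih (TC.drop (TU.const 1) TC.id) (fun Ls h => by simp [h]) (Bud.const 0)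
      refine (tc_map_lin hc (TC.zip (Lin.tc hd) h1)).congr (fun Ls h => ?_)
      rcases Ls with _ | ⟨L, _ | ⟨L', Ls⟩⟩
      · simp at h
      · simp at h; omega
      · rw [rows, ← List.map_uncurry_zip_eq_zipWith]
        simp only [List.take_succ_cons, List.take_zero, List.flatten_cons, List.flatten_nil,
          List.append_nil, List.drop_succ_cons, List.drop_zero]
        rfl

end Mg

section tc

variable {ι α : Type} [PTCode ι] [PTCode α] {P : ι → Prop} {T : ι → ℕ}

/-- one stream, `W` and `w` fixed -/
@[fun_prop]
theorem TC.deal (W w : ℕ) {l : ι → List α} (hl : TC P T l) :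
    TC P T (fun x => deal W w (l x)) :=
  TC.flatten (Mg.tc_map_lin (TC.take (TU.const 1) (TC.drop (TU.const w) TC.id))
    (TC.chunks (TU.const W) hl))

/-- all streams, `W` fixed -/
@[fun_prop]
theorem TC.dealAll (W : ℕ) {l : ι → List α} (hl : TC P T l) :
    TC P T (fun x => dealAll W (l x)) :=
  Mg.tc_listMap_fixed (List.range W) (fun w _ => TC.deal W w hl)

/-- transposition of `W` streams, `W` fixed -/
theorem TC.rows (W : ℕ) {L : ι → List (List α)} (hL : TC P T L)
    (h : ∀ x, P x → (L x).length = W) : TC P T (fun x => rows (L x)) :=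
  TC.comp (Mg.tc_rows W) hL h (Bud.const 0)

/-- interleaving `W` streams, `W` fixed -/
theorem TC.undeal (W : ℕ) {L : ι → List (List α)} (hL : TC P T L)
    (h : ∀ x, P x → (L x).length = W) : TC P T (fun x => undeal (L x)) :=
  TC.flatten (TC.rows W hL h)

/-- blocks of `n` elements, `n` in unary (`fun_prop` form) -/
@[fun_prop]
theorem TC.chunksTU {n : ι → ℕ} {x : ι → List α} (hn : TU P T n) (hx : TC P T x) :
    TC P T (fun a => X326.chunks (n a) (x a)) := TC.chunks hn hx

theorem sz_deal_le_of {W w m B : ℕ} (hw : w < W) {l : List α} (hl : l.length = m * W)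
    (hB : ∀ a ∈ l, sz a ≤ B) : sz (deal W w l) ≤ m * (2 * B + 1) := by
  have := sz_le_of_mem (l' := deal W w l) (fun _ => mem_of_mem_deal) hB
  rwa [length_deal hw hl] at this

theorem sz_undeal_le_of {m B : ℕ} {Ls : List (List α)} (h : ∀ L ∈ Ls, L.length = m)
    (hB : ∀ L ∈ Ls, ∀ a ∈ L, sz a ≤ B) : sz (undeal Ls) ≤ m * Ls.length * (2 * B + 1) := by
  have := sz_list_le (l := undeal Ls) (m := B) (fun a ha => by
    obtain ⟨L, h1, h2⟩ := mem_of_mem_undeal ha
    exact hB L h1 a h2)
  rwa [length_undeal h] at this

end tc

end Crest.Agent.X326
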