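import Crest.Agent.X326.TC.Rec

/-!
# Fine-grained time calculus: recursion in direct style

A recursive function `f : X → Y` that satisfies
`f x = bif isBase x then base x else post (runStages f prog (pre x))`
for a FIXED list `prog` of stages (free steps on a state `Z`, conditional recursive calls) is
computed within `B x` as soon as `L x + (sum of B over the calls made at x) ≤ B x`, where `L x`
bounds the local work of the node `x` up to a constant (`TC.recStages`, `TC.recStages'`,
`TC.recLinear`).

`TCG R V h` is the "ghost" form of `TC`: `h z` is computed within `O(V x + sz x + 1 + sz z)` for all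
states `z` related by `R` to a node `x`.
-/

set_option autoImplicit false
set_option linter.dupNamespace false

namespace Crest.Agent.X326

open Crest.Agent.Lib.PT Function

/-! ### ghost budgets -/

section ghost

variable {X Z W : Type} [PTCode X] [PTCode Z] [PTCode W]

/-- `h` is computed on all `z` related to some ghost `x` within the budget of `x`. -/
def TCG (R : X → Z → Prop) (V : X → ℕ) (h : Z → W) : Prop :=
  ∃ (Q : Z → Prop) (S : Z → ℕ), TC Q S h ∧
    ∃ C, ∀ x z, R x z → Q z ∧ S z ≤ C * (V x + sz x + 1)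

theorem TCG.intro {R : X → Z → Prop} {V : X → ℕ} {h : Z → W} {Q : Z → Prop} {S : Z → ℕ}
    (hh : TC Q S h) (C : ℕ) (hQ : ∀ x z, R x z → Q z)
    (hS : ∀ x z, R x z → S z ≤ C * (V x + sz x + 1)) : TCG R V h :=
  ⟨Q, S, hh, C, fun x z hr => ⟨hQ x z hr, hS x z hr⟩⟩

/-- the usual case: the cost of the step is at most `C * V x` -/
theorem TCG.intro' {R : X → Z → Prop} {V : X → ℕ} {h : Z → W} {Q : Z → Prop} {S : Z → ℕ}
    (hh : TC Q S h) (C : ℕ) (hQ : ∀ x z, R x z → Q z)
    (hS : ∀ x z, R x z → S z ≤ C * V x) : TCG R V h :=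
  TCG.intro hh C hQ (fun x z hr => (hS x z hr).trans (Nat.mul_le_mul_left _ (by omega)))

theorem TCG.of_lin {R : X → Z → Prop} {V : X → ℕ} {h : Z → W} (hh : Lin h) : TCG R V h :=
  TCG.intro hh 0 (fun _ _ _ => trivial) (fun _ _ _ => by simp)

theorem TCG.mono {R R' : X → Z → Prop} {V : X → ℕ} {h : Z → W} (hh : TCG R V h)
    (hR : ∀ x z, R' x z → R x z) : TCG R' V h := by
  obtain ⟨Q, S, h1, C, h2⟩ := hh
  exact ⟨Q, S, h1, C, fun x z hr => h2 x z (hR x z hr)⟩

theorem TCG.congr {R : X → Z → Prop} {V : X → ℕ} {h h' : Z → W} (hh : TCG R V h)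
    (he : ∀ x z, R x z → h z = h' z) : TCG R V h' := by
  obtain ⟨Q, S, h1, C, h2⟩ := hh
  refine ⟨fun z => Q z ∧ h z = h' z, S, (h1.restrict (fun _ h => h.1)).congr (fun _ h => h.2), C,
    fun x z hr => ⟨⟨(h2 x z hr).1, he x z hr⟩, (h2 x z hr).2⟩⟩

/-- the least budget of a ghost -/
noncomputable def gcost (R : X → Z → Prop) (V : X → ℕ) (z : Z) : ℕ :=
  sInf {t | ∃ x, R x z ∧ t = V x + sz x + 1}

omit [PTCode Z] in
theorem gcost_le {R : X → Z → Prop} {V : X → ℕ} {x : X} {z : Z} (h : R x z) :
    gcost R V z ≤ V x + sz x + 1 := Nat.sInf_le ⟨x, h, rfl⟩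

omit [PTCode Z] in
theorem gcost_spec {R : X → Z → Prop} (V : X → ℕ) {z : Z} (h : ∃ x, R x z) :
    ∃ x, R x z ∧ gcost R V z = V x + sz x + 1 := by
  obtain ⟨x, hx⟩ := h
  exact Nat.sInf_mem (s := {t | ∃ x, R x z ∧ t = V x + sz x + 1}) ⟨_, x, hx, rfl⟩

omit [PTCode Z] [PTCode W] in
theorem gcost_mono {R : X → Z → Prop} {R' : X → W → Prop} {V : X → ℕ} {z : Z} {w : W}
    (h : ∃ x, R x z) (h' : ∀ x, R x z → R' x w) : gcost R' V w ≤ gcost R V z := by
  obtain ⟨x, hx, e⟩ := gcost_spec V h
  rw [e]
  exact gcost_le (h' x hx)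

theorem TCG.tc {R : X → Z → Prop} {V : X → ℕ} {h : Z → W} (hh : TCG R V h) :
    TC (fun z => ∃ x, R x z) (gcost R V) h := by
  obtain ⟨Q, S, h1, C, h2⟩ := hh
  refine h1.mono (fun z ⟨x, hx⟩ => (h2 x z hx).1) (Bud.of_le_mul C (fun z hz => ?_))
  obtain ⟨x, hx, e⟩ := gcost_spec V hz
  rw [e]
  exact (h2 x z hx).2

theorem TCG.of_tc {R : X → Z → Prop} {V : X → ℕ} {h : Z → W}
    (hh : TC (fun z => ∃ x, R x z) (gcost R V) h) : TCG R V h :=
  TCG.intro hh 1 (fun x _ hr => ⟨x, hr⟩) (fun _ _ hr => by simpa using gcost_le hr)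

/-- apply a ghost step to the result of a computation whose input is the ghost -/
theorem TC.compG {R : X → Z → Prop} {P : X → Prop} {V : X → ℕ} {h : Z → W} {g : X → Z}
    (hh : TCG R V h) (hg : TC P V g) (hR : ∀ x, P x → R x (g x)) : TC P V (fun x => h (g x)) := by
  obtain ⟨Q, S, h1, C, h2⟩ := hh
  exact h1.comp hg (fun x hx => (h2 x _ (hR x hx)).1) ⟨C, fun x hx => (h2 x _ (hR x hx)).2⟩

/-- size of the result of a ghost step -/
theorem TCG.sz_le {R : X → Z → Prop} {V : X → ℕ} {h : Z → W} (hh : TCG R V h) :
    ∃ C, ∀ x z, R x z → sz (h z) ≤ C * (V x + sz x + 1 + sz z + 1) := by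
  obtain ⟨C, hC⟩ := hh.tc.sz
  refine ⟨C, fun x z hr => (hC z ⟨x, hr⟩).trans (Nat.mul_le_mul_left _ ?_)⟩
  have := gcost_le (V := V) hr
  omega

end ghost

/-! ### stages -/

/-- One stage of a recursive procedure with state `Z`: a free step or a conditional call. -/
inductive Stage (X Y Z : Type) : Type
  /-- a step without recursive call -/
  | free (h : Z → Z) : Stage X Y Z
  /-- if `c z` holds, call the procedure on `get z` and store the result with `put` -/
  | callIf (c : Z → Bool) (get : Z → X) (put : Z → Y → Z) : Stage X Y Z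

namespace Stage

variable {X Y Z : Type}

/-- an unconditional call -/
@[reducible] def call (get : Z → X) (put : Z → Y → Z) : Stage X Y Z :=
  .callIf (fun _ => true) get put

/-- effect of a stage when calls are answered by `f` -/
def run (f : X → Y) : Stage X Y Z → Z → Z
  | free h, z => h z
  | callIf c get put, z => bif c z then put z (f (get z)) else z

/-- cost `B` of the call made by a stage -/
def cost (B : X → ℕ) : Stage X Y Z → Z → ℕ
  | free _, _ => 0
  | callIf c get _, z => bif c z then B (get z) else 0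

/-- `1` for a call stage, `0` for a free stage -/
def isCall : Stage X Y Z → ℕ
  | free _ => 0
  | callIf _ _ _ => 1

@[simp] theorem run_free (f : X → Y) (h : Z → Z) (z : Z) : (free h : Stage X Y Z).run f z = h z :=
  rfl

@[simp] theorem run_callIf (f : X → Y) (c : Z → Bool) (get : Z → X) (put : Z → Y → Z) (z : Z) :
    (callIf c get put).run f z = bif c z then put z (f (get z)) else z := rfl

theorem run_call (f : X → Y) (get : Z → X) (put : Z → Y → Z) (z : Z) :
    (call get put).run f z = put z (f (get z)) := rfl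

@[simp] theorem cost_free (B : X → ℕ) (h : Z → Z) (z : Z) :
    (free h : Stage X Y Z).cost B z = 0 := rfl

@[simp] theorem cost_callIf (B : X → ℕ) (c : Z → Bool) (get : Z → X) (put : Z → Y → Z) (z : Z) :
    (callIf c get put).cost B z = bif c z then B (get z) else 0 := rfl

@[simp] theorem isCall_free (h : Z → Z) : (free h : Stage X Y Z).isCall = 0 := rfl

@[simp] theorem isCall_callIf (c : Z → Bool) (get : Z → X) (put : Z → Y → Z) :
    (callIf c get put).isCall = 1 := rfl

/-- The machine-level requirements on a stage, for the states `z` related by `R` to the node `x`: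
every part is computed within the budget `V x`, and calls stay in the domain `P` and decrease the
measure `μ`. -/
def OK [PTCode X] [PTCode Y] [PTCode Z] (f : X → Y) (P : X → Prop) (μ V : X → ℕ)
    (R : X → Z → Prop) : Stage X Y Z → Prop
  | free h => TCG R V h
  | callIf c get put => TCG R V c ∧ TCG (fun x z => R x z ∧ c z = true) V get ∧
      TCG (fun x (p : Z × Y) => R x p.1 ∧ c p.1 = true ∧ p.2 = f (get p.1)) V
        (fun p => put p.1 p.2) ∧
      ∀ x z, R x z → c z = true → P (get z) ∧ μ (get z) < μ x

variable [PTCode X] [PTCode Y] [PTCode Z] {f : X → Y} {P : X → Prop} {μ V : X → ℕ}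
  {R R' : X → Z → Prop}

theorem ok_free {h : Z → Z} (hh : TCG R V h) : (free h : Stage X Y Z).OK f P μ V R := hh

theorem ok_callIf {c : Z → Bool} {get : Z → X} {put : Z → Y → Z} (hc : TCG R V c)
    (hget : TCG (fun x z => R x z ∧ c z = true) V get)
    (hput : TCG (fun x (p : Z × Y) => R x p.1 ∧ c p.1 = true ∧ p.2 = f (get p.1)) V
      (fun p => put p.1 p.2))
    (hdom : ∀ x z, R x z → c z = true → P (get z) ∧ μ (get z) < μ x) :
    (callIf c get put).OK f P μ V R := ⟨hc, hget, hput, hdom⟩

theorem ok_call {get : Z → X} {put : Z → Y → Z} (hget : TCG R V get)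
    (hput : TCG (fun x (p : Z × Y) => R x p.1 ∧ p.2 = f (get p.1)) V (fun p => put p.1 p.2))
    (hdom : ∀ x z, R x z → P (get z) ∧ μ (get z) < μ x) : (call get put).OK f P μ V R :=
  ⟨TCG.of_lin (TC.const true), hget.mono (fun _ _ h => h.1),
    hput.mono (fun _ _ h => ⟨h.1, h.2.2⟩), fun x z h _ => hdom x z h⟩

theorem OK.mono {s : Stage X Y Z} (h : s.OK f P μ V R) (hR : ∀ x z, R' x z → R x z) :
    s.OK f P μ V R' := by
  cases s with
  | free h' => exact TCG.mono h hR
  | callIf c get put =>
    exact ⟨h.1.mono hR, h.2.1.mono (fun x z hr => ⟨hR x z hr.1, hr.2⟩),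
      h.2.2.1.mono (fun x p hr => ⟨hR x p.1 hr.1, hr.2⟩), fun x z hr => h.2.2.2 x z (hR x z hr)⟩

end Stage

section stages

variable {X Y Z : Type}

/-- run a list of stages -/
def runStages (f : X → Y) (l : List (Stage X Y Z)) (z : Z) : Z :=
  l.foldl (fun z s => s.run f z) z

/-- total cost `B` of the calls made by a list of stages -/
def callCost (f : X → Y) (B : X → ℕ) : List (Stage X Y Z) → Z → ℕ
  | [], _ => 0
  | s :: l, z => s.cost B z + callCost f B l (s.run f z)

@[simp] theorem runStages_nil (f : X → Y) (z : Z) : runStages f ([] : List (Stage X Y Z)) z = z :=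
  rfl

@[simp] theorem runStages_cons (f : X → Y) (s : Stage X Y Z) (l : List (Stage X Y Z)) (z : Z) :
    runStages f (s :: l) z = runStages f l (s.run f z) := rfl

theorem runStages_append (f : X → Y) (l l' : List (Stage X Y Z)) (z : Z) :
    runStages f (l ++ l') z = runStages f l' (runStages f l z) := by
  simp [runStages]

@[simp] theorem callCost_nil (f : X → Y) (B : X → ℕ) (z : Z) :
    callCost f B ([] : List (Stage X Y Z)) z = 0 := rfl

@[simp] theorem callCost_cons (f : X → Y) (B : X → ℕ) (s : Stage X Y Z)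
    (l : List (Stage X Y Z)) (z : Z) :
    callCost f B (s :: l) z = s.cost B z + callCost f B l (s.run f z) := rfl

/-- `runStages` only depends on the answers to the calls that are really made -/
theorem runStages_congr {f g : X → Y} (l : List (Stage X Y Z)) (J : Z → Prop) (D : X → Prop)
    (hfg : ∀ x, D x → f x = g x) (hJ : ∀ s ∈ l, ∀ z, J z → J (s.run f z))
    (hD : ∀ c get put, Stage.callIf c get put ∈ l → ∀ z, J z → c z = true → D (get z))
    (z : Z) (hz : J z) : runStages f l z = runStages g l z := by
  induction l generalizing z with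
  | nil => rfl
  | cons s l ih =>
    have e : s.run f z = s.run g z := by
      cases s with
      | free h => rfl
      | callIf c get put =>
        cases hc : c z
        · simp [hc]
        · simp [hc, hfg _ (hD c get put (by simp) z hz hc)]
    rw [runStages_cons, runStages_cons, ← e]
    exact ih (fun s' hs' => hJ s' (by simp [hs']))
      (fun c get put h => hD c get put (by simp [h])) _ (hJ s (by simp) z hz)

/-- if every call costs at most `b`, the calls cost at most `(number of call stages) * b` -/
theorem callCost_le {f : X → Y} {B : X → ℕ} (l : List (Stage X Y Z)) (J : Z → Prop) (b : ℕ)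
    (hJ : ∀ s ∈ l, ∀ z, J z → J (s.run f z))
    (hb : ∀ c get put, Stage.callIf c get put ∈ l → ∀ z, J z → c z = true → B (get z) ≤ b)
    (z : Z) (hz : J z) : callCost f B l z ≤ (l.map Stage.isCall).sum * b := by
  induction l generalizing z with
  | nil => simp
  | cons s l ih =>
    have h1 := ih (fun s' hs' => hJ s' (by simp [hs']))
      (fun c get put h => hb c get put (by simp [h])) _ (hJ s (by simp) z hz)
    have h2 : s.cost B z ≤ s.isCall * b := by
      cases s with
      | free h => simp
      | callIf c get put =>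
        cases hc : c z
        · simp [hc]
        · simpa [hc] using hb c get put (by simp) z hz hc
    rw [callCost_cons, List.map_cons, List.sum_cons, add_mul]
    omega

/-- run the stages up to the next call -/
def stGo (n : ℕ) (post : Z → Y) : List (Stage X Y Z) → ℕ → Z → ((Fin (n + 1) × Z) × X) ⊕ Y
  | [], _, z => Sum.inr (post z)
  | .free h :: l, i, z => stGo n post l (i + 1) (h z)
  | .callIf c get _ :: l, i, z =>
      bif c z then Sum.inl ((Fin.ofNat (n + 1) i, z), get z) else stGo n post l (i + 1) z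

/-- continue after the call of the first stage has returned -/
def stResume (n : ℕ) (post : Z → Y) : List (Stage X Y Z) → ℕ → Z × Y →
    ((Fin (n + 1) × Z) × X) ⊕ Y
  | .callIf _ _ put :: l, i, p => stGo n post l (i + 1) (put p.1 p.2)
  | _, _, p => Sum.inr p.2

theorem drop_eq_cons {α : Type} {prog l : List α} {s : α} {i : ℕ} (h : prog.drop i = s :: l) :
    ∃ hi : i < prog.length, prog[i] = s ∧ prog.drop (i + 1) = l := by
  have hi : i < prog.length := by
    by_contra hi
    rw [List.drop_of_length_le (by omega)] at h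
    exact absurd h (by simp)
  rw [List.drop_eq_getElem_cons hi] at h
  exact ⟨hi, (List.cons.inj h).1, (List.cons.inj h).2⟩

variable [PTCode X] [PTCode Y] [PTCode Z]

theorem tc_stGo {prog : List (Stage X Y Z)} {f : X → Y} {P : X → Prop} {V μ : X → ℕ}
    {post : Z → Y} {R : ℕ → X → Z → Prop}
    (hR : ∀ i (hi : i < prog.length) x z, R i x z → R (i + 1) x (prog[i].run f z))
    (hst : ∀ i (hi : i < prog.length), prog[i].OK f P μ V (R i))
    (hpost : TCG (R prog.length) V post) (l : List (Stage X Y Z)) (i : ℕ)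
    (hl : prog.drop i = l) (hi : i ≤ prog.length) :
    TC (fun z => ∃ x, R i x z) (gcost (R i) V) (stGo prog.length post l i) := by
  induction l generalizing i with
  | nil =>
    have : i = prog.length := by
      have := List.drop_eq_nil_iff.1 hl
      omega
    subst this
    exact hpost.tc.inr
  | cons s l ih =>
    obtain ⟨hi', e1, e2⟩ := drop_eq_cons hl
    have h1 := hst i hi'
    have h2 := hR i hi'
    rw [e1] at h1 h2
    have h3 := ih (i + 1) e2 hi'
    cases s with
    | free h =>
      exact h3.comp (TCG.tc h1) (fun z ⟨x, hx⟩ => ⟨x, h2 x z hx⟩)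
        (Bud.self.mono (fun z hz => gcost_mono hz (fun x hx => h2 x z hx)))
    | callIf c get put =>
      refine TC.cond' h1.1.tc ?_ ?_
      · refine TC.inl (TC.prodMk (TC.prodMk (TC.const _) TC.id) ?_)
        exact h1.2.1.tc.mono (fun z ⟨⟨x, hx⟩, hc⟩ => ⟨x, hx, hc⟩)
          (Bud.self.mono (fun z hz => gcost_mono hz.1 (fun x hx => ⟨hx, hz.2⟩)))
      · have h4 : ∀ x z, R i x z → c z = false → R (i + 1) x z := fun x z hx hc => by
          simpa [hc] using h2 x z hx
        exact h3.mono (fun z ⟨⟨x, hx⟩, hc⟩ => ⟨x, h4 x z hx hc⟩)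
          (Bud.self.mono (fun z hz => gcost_mono hz.1 (fun x hx => h4 x z hx hz.2)))

/-- **Staged recursion**, with an invariant `I x i z` that may depend on the number `i` of stages
already executed.  `V` is the budget of the local steps, `L` dominates `V x + sz x + 1` up to a
constant, `B` bounds the total cost. -/
theorem TC.recStages (prog : List (Stage X Y Z)) {f : X → Y} {P : X → Prop} {V L B μ : X → ℕ}
    {isBase : X → Bool} {base : X → Y} {pre : X → Z} {post : Z → Y} (I : X → ℕ → Z → Prop)
    (hf : ∀ x, P x → f x = bif isBase x then base x else post (runStages f prog (pre x)))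
    (hisBase : TC P V isBase)
    (hbase : TC (fun x => P x ∧ isBase x = true) V base)
    (hpre : TC (fun x => P x ∧ isBase x = false) V pre)
    (hI0 : ∀ x, P x → isBase x = false → I x 0 (pre x))
    (hI : ∀ i (hi : i < prog.length) x z, P x → isBase x = false → I x i z →
      I x (i + 1) (prog[i].run f z))
    (hsz : ∃ C, ∀ x i z, P x → isBase x = false → I x i z →
      Lib.PT.sz z ≤ C * (V x + Lib.PT.sz x + 1))
    (hst : ∀ i (hi : i < prog.length),
      prog[i].OK f P μ V (fun x z => P x ∧ isBase x = false ∧ I x i z))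
    (hpost : TCG (fun x z => P x ∧ isBase x = false ∧ I x prog.length z) V post)
    (hL : ∃ c, ∀ x, P x → V x + Lib.PT.sz x + 1 ≤ c * L x)
    (hB0 : ∀ x, P x → isBase x = true → L x ≤ B x)
    (hB : ∀ x, P x → isBase x = false → L x + callCost f B prog (pre x) ≤ B x) :
    TC P B f := by
  classical
  set n := prog.length with hn
  let R : ℕ → X → Z → Prop := fun i x z => P x ∧ isBase x = false ∧ I x i z
  have hR : ∀ i (hi : i < prog.length) x z, R i x z → R (i + 1) x (prog[i].run f z) :=
    fun i hi x z h => ⟨h.1, h.2.1, hI i hi x z h.1 h.2.1 h.2.2⟩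
  have hgo := tc_stGo (R := R) hR hst hpost
  let step : X ⊕ ((Fin (n + 1) × Z) × Y) → ((Fin (n + 1) × Z) × X) ⊕ Y :=
    Sum.elim (fun x => bif isBase x then Sum.inr (base x) else stGo n post prog 0 (pre x))
      (fun q => stResume n post (prog.drop q.1.1) q.1.1 (q.1.2, q.2))
  let PS : X ⊕ ((Fin (n + 1) × Z) × Y) → Prop :=
    Sum.elim P (fun q => ∃ x, R q.1.1 x q.1.2 ∧ ∃ c get put l,
      prog.drop q.1.1 = .callIf c get put :: l ∧ c q.1.2 = true ∧ q.2 = f (get q.1.2))
  let TS : X ⊕ ((Fin (n + 1) × Z) × Y) → ℕ := Sum.elim V (fun q => gcost (R q.1.1) V q.1.2)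
  have hstep : TC PS TS step := by
    refine TC.sumElim (TC.cond' hisBase hbase.inr ?_) ?_
    · exact TC.compG (TCG.of_tc (hgo prog 0 rfl (Nat.zero_le _))) hpre
        (fun x hx => ⟨hx.1, hx.2, hI0 x hx.1 hx.2⟩)
    · refine TC.finite_cases' (c := fun q : (Fin (n + 1) × Z) × Y => q.1.1)
        (f := fun d q => stResume n post (prog.drop d) d (q.1.2, q.2)) TC.id.fst.fst (fun d => ?_)
      rcases hd : prog.drop d with _ | ⟨_ | ⟨c, get, put⟩, l⟩
      · exact TC.id.snd.inr
      · exact TC.id.snd.inr
      · obtain ⟨hi', e1, e2⟩ := drop_eq_cons hd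
        have h1 := hst d hi'
        have h2 := hR d hi'
        rw [e1] at h1 h2
        have h3 := hgo l (d + 1) e2 hi'
        have key : ∀ q : (Fin (n + 1) × Z) × Y, PS (Sum.inr q) ∧ q.1.1 = d →
            (∃ x, R d x q.1.2) ∧ c q.1.2 = true ∧ q.2 = f (get q.1.2) := by
          rintro q ⟨⟨x, hx, c', get', put', l', h4, h5, h6⟩, h7⟩
          rw [h7] at hx h4
          rw [hd] at h4
          obtain ⟨h8, -⟩ := List.cons.inj h4
          obtain ⟨rfl, rfl, rfl⟩ := Stage.callIf.inj h8
          exact ⟨⟨x, hx⟩, h5, h6⟩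
        have h5 : TC (fun q : (Fin (n + 1) × Z) × Y => PS (Sum.inr q) ∧ q.1.1 = d)
            (fun q => TS (Sum.inr q)) (fun q => put q.1.2 q.2) := by
          refine h1.2.2.1.tc.comp (f := fun q : (Fin (n + 1) × Z) × Y => (q.1.2, q.2))
            (TC.id.fst.snd.prodMk TC.id.snd) (fun q hq => ?_) (Bud.self.mono (fun q hq => ?_))
          · obtain ⟨⟨x, hx⟩, h6⟩ := key q hq
            exact ⟨x, hx, h6⟩
          · obtain ⟨h7, h6⟩ := key q hq
            show _ ≤ gcost (R q.1.1) V q.1.2
            rw [hq.2]
            exact gcost_mono h7 (fun x hx => ⟨hx, h6⟩)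
        have h6 : ∀ (q : (Fin (n + 1) × Z) × Y) x, c q.1.2 = true → q.2 = f (get q.1.2) →
            R d x q.1.2 → R (d + 1) x (put q.1.2 q.2) := fun q x hc hy hx => by
          simpa [hc, hy] using h2 x q.1.2 hx
        refine h3.comp h5 (fun q hq => ?_) (Bud.self.mono (fun q hq => ?_))
        · obtain ⟨⟨x, hx⟩, h7, h8⟩ := key q hq
          exact ⟨x, h6 q x h7 h8 hx⟩
        · obtain ⟨h9, h7, h8⟩ := key q hq
          show _ ≤ gcost (R q.1.1) V q.1.2
          rw [hq.2]
          exact gcost_mono h9 (fun x hx => h6 q x h7 h8 hx)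
  obtain ⟨Cz, hCz⟩ := hsz
  obtain ⟨c, hc⟩ := hL
  obtain ⟨Cb, hCb⟩ := hbase.sz
  obtain ⟨Cp, hCp⟩ := hpost.sz_le
  have hreach : ∀ (x : X) (l : List (Stage X Y Z)) (i : ℕ) (z : Z), prog.drop i = l →
      i ≤ n → R i x z → R n x (runStages f l z) := by
    intro x l
    induction l with
    | nil =>
      intro i z hl hi hz
      have : i = n := by
        have := List.drop_eq_nil_iff.1 hl
        omega
      exact this ▸ hz
    | cons s l ih =>
      intro i z hl hi hz
      obtain ⟨hi', e1, e2⟩ := drop_eq_cons hl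
      exact ih (i + 1) _ e2 hi' (e1 ▸ hR i hi' x z hz)
  -- constants
  obtain ⟨E, hE⟩ : ∃ E, E = 4 * n + 4 * Cz + 6 := ⟨_, rfl⟩
  obtain ⟨D, hD⟩ : ∃ D, D = (2 + n * E + Cb + Cp * (Cz + 2)) * c := ⟨_, rfl⟩
  have main : ∀ (m : ℕ) (x : X), μ x < m → P x →
      ∃ t, RecRun step PS TS (Sum.inl x) (f x) t ∧ t + Lib.PT.sz (f x) ≤ D * B x := by
    intro m
    induction m with
    | zero => intro x hx; omega
    | succ m ihm =>
      intro x hμ hx
      obtain ⟨U, hU⟩ : ∃ U, U = V x + Lib.PT.sz x + 1 := ⟨_, rfl⟩
      have hU1 : 1 ≤ U := by omega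
      have hUL : U ≤ c * L x := hU ▸ hc x hx
      have hcost : TS (Sum.inl x) + Lib.PT.sz (Sum.inl x : X ⊕ ((Fin (n + 1) × Z) × Y)) + 1 =
          U + 1 := by
        simp only [TS, Sum.elim_inl, sz_inl]
        omega
      cases hb : isBase x
      · have inner : ∀ (l : List (Stage X Y Z)) (i : ℕ) (z : Z) (a : X ⊕ ((Fin (n + 1) × Z) × Y)),
            prog.drop i = l → i ≤ n → R i x z → PS a → step a = stGo n post l i z →
            ∃ t, RecRun step PS TS a (post (runStages f l z)) t ∧
              t ≤ TS a + Lib.PT.sz a + 1 + l.length * (E * U) + D * callCost f B l z := by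
          intro l
          induction l with
          | nil =>
            intro i z a _ _ _ ha hs
            exact ⟨_, RecRun.ret ha hs, by simp⟩
          | cons s l ih =>
            intro i z a hl hi hz ha hs
            obtain ⟨hi', e1, e2⟩ := drop_eq_cons hl
            have h1 := hst i hi'
            have h2 := hR i hi' x z hz
            rw [e1] at h1 h2
            have e3 : (s :: l).length * (E * U) = l.length * (E * U) + E * U := by
              rw [List.length_cons, add_mul, one_mul]
            cases s with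
            | free h =>
              obtain ⟨t, ht, hle⟩ := ih (i + 1) (h z) a e2 hi' h2 ha hs
              refine ⟨t, ht, ?_⟩
              rw [e3, callCost_cons, Stage.cost_free, zero_add, Stage.run_free]
              omega
            | callIf c' get put =>
              cases hc' : c' z
              · have h3 : (Stage.callIf c' get put).run f z = z := by simp [hc']
                rw [h3] at h2
                obtain ⟨t, ht, hle⟩ := ih (i + 1) z a e2 hi' h2 ha
                  (by rw [hs]; simp [stGo, hc'])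
                refine ⟨t, by rwa [runStages_cons, h3], ?_⟩
                rw [e3, callCost_cons, h3, mul_add]
                omega
              · have h3 : (Stage.callIf c' get put).run f z = put z (f (get z)) := by simp [hc']
                rw [h3] at h2
                obtain ⟨hP', hμ'⟩ := h1.2.2.2 x z hz hc'
                obtain ⟨t₁, ht₁, hle₁⟩ := ihm (get z) (by omega) hP'
                have hv : ((Fin.ofNat (n + 1) i : Fin (n + 1)) : ℕ) = i := by
                  simp [Nat.mod_eq_of_lt (Nat.lt_succ_of_le hi)]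
                have ha' : PS (Sum.inr ((Fin.ofNat (n + 1) i, z), f (get z))) :=
                  ⟨x, by simpa only [hv] using hz, c', get, put, l, by simpa only [hv] using hl,
                    hc', rfl⟩
                obtain ⟨t₂, ht₂, hle₂⟩ := ih (i + 1) (put z (f (get z)))
                  (Sum.inr ((Fin.ofNat (n + 1) i, z), f (get z))) e2 hi' h2 ha'
                  (by simp only [step, Sum.elim_inr, hv, hl, stResume])
                refine ⟨_, RecRun.call (k := (Fin.ofNat (n + 1) i, z)) ha
                  (by rw [hs]; simp only [stGo, hc', cond_true]) ht₁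
                  (by rwa [runStages_cons, h3]), ?_⟩
                have b1 : TS (Sum.inr ((Fin.ofNat (n + 1) i, z), f (get z))) ≤ U := by
                  simp only [TS, Sum.elim_inr, hv]
                  exact hU ▸ gcost_le hz
                have b2 : Lib.PT.sz (Fin.ofNat (n + 1) i) ≤ n := by
                  have : Lib.PT.sz (Fin.ofNat (n + 1) i) = Lib.PT.sz i := by
                    rw [sz_fin, hv, sz_nat]
                  have := sz_nat_le i
                  omega
                have b3 := hCz x i z hz.1 hz.2.1 hz.2.2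
                have b4 : E * U = 4 * (n * U) + 4 * (Cz * U) + 6 * U := by rw [hE]; ring
                have b5 : n ≤ n * U := Nat.le_mul_of_pos_right _ hU1
                rw [← hU] at b3
                simp only [sz_inr, sz_prod] at hle₂
                rw [e3, callCost_cons, h3, mul_add, Stage.cost_callIf, hc', cond_true]
                omega
        have hz0 : R 0 x (pre x) := ⟨hx, hb, hI0 x hx hb⟩
        obtain ⟨t, ht, hle⟩ := inner prog 0 (pre x) (Sum.inl x) rfl (Nat.zero_le _) hz0 hx
          (by simp [step, hb])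
        have hfx : f x = post (runStages f prog (pre x)) := by rw [hf x hx, hb]; rfl
        have hend := hreach x prog 0 (pre x) rfl (Nat.zero_le _) hz0
        refine ⟨t, hfx ▸ ht, ?_⟩
        have b1 := hCp x _ hend
        have b2 := hCz x n _ hend.1 hend.2.1 hend.2.2
        rw [← hfx, ← hU] at b1
        rw [← hU] at b2
        have b3 : Cp * (U + Lib.PT.sz (runStages f prog (pre x)) + 1) ≤ Cp * ((Cz + 2) * U) :=
          Nat.mul_le_mul_left _ (by rw [add_mul]; omega)
        have b4 : (2 + n * E + Cb + Cp * (Cz + 2)) * U ≤ D * L x := by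
          rw [hD, mul_assoc]
          exact Nat.mul_le_mul_left _ hUL
        have b5 : (2 + n * E + Cb + Cp * (Cz + 2)) * U =
            2 * U + n * (E * U) + Cb * U + Cp * ((Cz + 2) * U) := by ring
        have b6 : D * (L x + callCost f B prog (pre x)) ≤ D * B x :=
          Nat.mul_le_mul_left _ (hB x hx hb)
        rw [mul_add] at b6
        rw [hcost, ← hn] at hle
        omega
      · have hfx : f x = base x := by rw [hf x hx, hb]; rfl
        refine ⟨_, RecRun.ret hx (by simp [step, hb, hfx]), ?_⟩
        have b1 : Lib.PT.sz (base x) ≤ Cb * (V x + Lib.PT.sz x + 1) := hCb x ⟨hx, hb⟩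
        rw [← hfx, ← hU] at b1
        have b4 : (2 + n * E + Cb + Cp * (Cz + 2)) * U ≤ D * L x := by
          rw [hD, mul_assoc]
          exact Nat.mul_le_mul_left _ hUL
        have b5 : (2 + n * E + Cb + Cp * (Cz + 2)) * U =
            2 * U + n * (E * U) + Cb * U + Cp * ((Cz + 2) * U) := by ring
        have b6 : D * L x ≤ D * B x := Nat.mul_le_mul_left _ (hB0 x hx hb)
        rw [hcost]
        omega
  refine hstep.recRun D (fun x hx => ?_)
  obtain ⟨t, ht, hle⟩ := main (μ x + 1) x (Nat.lt_succ_self _) hx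
  refine ⟨t, ht, ?_⟩
  have : D * B x ≤ D * (B x + Lib.PT.sz x + 1) := Nat.mul_le_mul_left _ (by omega)
  omega

/-- **Staged recursion** with an invariant that does not depend on the stage. -/
theorem TC.recStages' (prog : List (Stage X Y Z)) {f : X → Y} {P : X → Prop} {V L B μ : X → ℕ}
    {isBase : X → Bool} {base : X → Y} {pre : X → Z} {post : Z → Y} (I : X → Z → Prop)
    (hf : ∀ x, P x → f x = bif isBase x then base x else post (runStages f prog (pre x)))
    (hisBase : TC P V isBase)
    (hbase : TC (fun x => P x ∧ isBase x = true) V base)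
    (hpre : TC (fun x => P x ∧ isBase x = false) V pre)
    (hI0 : ∀ x, P x → isBase x = false → I x (pre x))
    (hI : ∀ s ∈ prog, ∀ x z, P x → isBase x = false → I x z → I x (s.run f z))
    (hsz : ∃ C, ∀ x z, P x → isBase x = false → I x z →
      Lib.PT.sz z ≤ C * (V x + Lib.PT.sz x + 1))
    (hst : ∀ s ∈ prog, s.OK f P μ V (fun x z => P x ∧ isBase x = false ∧ I x z))
    (hpost : TCG (fun x z => P x ∧ isBase x = false ∧ I x z) V post)
    (hL : ∃ c, ∀ x, P x → V x + Lib.PT.sz x + 1 ≤ c * L x)
    (hB0 : ∀ x, P x → isBase x = true → L x ≤ B x)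
    (hB : ∀ x, P x → isBase x = false → L x + callCost f B prog (pre x) ≤ B x) :
    TC P B f :=
  TC.recStages prog (μ := μ) (fun x _ z => I x z) hf hisBase hbase hpre hI0
    (fun _ hi x z => hI _ (List.getElem_mem hi) x z)
    (hsz.imp (fun _ h x _ z => h x z)) (fun _ hi => hst _ (List.getElem_mem hi)) hpost hL hB0 hB

/-- **Linear recursion**: one recursive call on `arg x`, the frame `keep x` is kept meanwhile. -/
theorem TC.recLinear {K : Type} [PTCode K] {f : X → Y} {P : X → Prop} {V L B μ : X → ℕ}
    {isBase : X → Bool} {base : X → Y} {keep : X → K} {arg : X → X} {post : K → Y → Y}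
    (hf : ∀ x, P x → f x = bif isBase x then base x else post (keep x) (f (arg x)))
    (hisBase : TC P V isBase)
    (hbase : TC (fun x => P x ∧ isBase x = true) V base)
    (hkeep : TC (fun x => P x ∧ isBase x = false) V keep)
    (harg : TC (fun x => P x ∧ isBase x = false) V arg)
    (hpost : TCG (fun x (p : K × Y) => P x ∧ isBase x = false ∧ p.1 = keep x ∧ p.2 = f (arg x)) V
      (fun p => post p.1 p.2))
    (hdom : ∀ x, P x → isBase x = false → P (arg x) ∧ μ (arg x) < μ x)
    (hL : ∃ c, ∀ x, P x → V x + Lib.PT.sz x + 1 ≤ c * L x)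
    (hout : ∃ c, ∀ x, P x → Lib.PT.sz (f x) ≤ c * L x)
    (hB0 : ∀ x, P x → isBase x = true → L x ≤ B x)
    (hB : ∀ x, P x → isBase x = false → L x + B (arg x) ≤ B x) : TC P B f := by
  classical
  let R : X → K × Y → Prop := fun x p => P x ∧ isBase x = false ∧ p.1 = keep x ∧ p.2 = f (arg x)
  let step : X ⊕ (K × Y) → (K × X) ⊕ Y :=
    Sum.elim (fun x => bif isBase x then Sum.inr (base x) else Sum.inl (keep x, arg x))
      (fun p => Sum.inr (post p.1 p.2))
  let PS : X ⊕ (K × Y) → Prop := Sum.elim P (fun p => ∃ x, R x p)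
  let TS : X ⊕ (K × Y) → ℕ := Sum.elim V (gcost R V)
  have hstep : TC PS TS step :=
    TC.sumElim (TC.cond' hisBase hbase.inr (hkeep.prodMk harg).inl) hpost.tc.inr
  obtain ⟨c, hc⟩ := hL
  obtain ⟨Cy, hCy⟩ := hout
  obtain ⟨Ck, hCk⟩ := hkeep.sz
  obtain ⟨D, hD⟩ : ∃ D, D = (2 * Ck + 6) * c + Cy := ⟨_, rfl⟩
  have main : ∀ (m : ℕ) (x : X), μ x < m → P x →
      ∃ t, RecRun step PS TS (Sum.inl x) (f x) t ∧ t + Lib.PT.sz (f x) ≤ D * B x := by
    intro m
    induction m with
    | zero => intro x hx; omega
    | succ m ihm =>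
      intro x hμ hx
      obtain ⟨U, hU⟩ : ∃ U, U = V x + Lib.PT.sz x + 1 := ⟨_, rfl⟩
      have hU1 : 1 ≤ U := by omega
      have hcost : TS (Sum.inl x) + Lib.PT.sz (Sum.inl x : X ⊕ (K × Y)) + 1 = U + 1 := by
        simp only [TS, Sum.elim_inl, sz_inl]
        omega
      have b0 : (2 * Ck + 6) * U ≤ (2 * Ck + 6) * (c * L x) :=
        Nat.mul_le_mul_left _ (hU ▸ hc x hx)
      have b1 : D * L x = (2 * Ck + 6) * (c * L x) + Cy * L x := by rw [hD]; ring
      have b2 : (2 * Ck + 6) * U = 2 * (Ck * U) + 6 * U := by ring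
      have b3 := hCy x hx
      cases hb : isBase x
      · obtain ⟨hP', hμ'⟩ := hdom x hx hb
        obtain ⟨t₁, ht₁, hle₁⟩ := ihm (arg x) (by omega) hP'
        have hfx : f x = post (keep x) (f (arg x)) := by rw [hf x hx, hb]; rfl
        have hR : R x (keep x, f (arg x)) := ⟨hx, hb, rfl, rfl⟩
        refine ⟨_, RecRun.call (k := keep x) hx (by simp [step, hb]) ht₁
          (RecRun.ret (a := Sum.inr (keep x, f (arg x))) ⟨x, hR⟩ (by simp [step, hfx])), ?_⟩
        have b4 : TS (Sum.inr (keep x, f (arg x))) ≤ U := hU ▸ gcost_le (V := V) hR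
        have b5 : Lib.PT.sz (keep x) ≤ Ck * U := hU ▸ hCk x ⟨hx, hb⟩
        have b6 : D * (L x + B (arg x)) ≤ D * B x := Nat.mul_le_mul_left _ (hB x hx hb)
        rw [mul_add] at b6
        rw [hcost]
        simp only [sz_inr, sz_prod]
        omega
      · have hfx : f x = base x := by rw [hf x hx, hb]; rfl
        refine ⟨_, RecRun.ret hx (by simp [step, hb, hfx]), ?_⟩
        have b6 : D * L x ≤ D * B x := Nat.mul_le_mul_left _ (hB0 x hx hb)
        rw [hcost]
        omega
  refine hstep.recRun D (fun x hx => ?_)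
  obtain ⟨t, ht, hle⟩ := main (μ x + 1) x (Nat.lt_succ_self _) hx
  refine ⟨t, ht, ?_⟩
  have : D * B x ≤ D * (B x + Lib.PT.sz x + 1) := Nat.mul_le_mul_left _ (by omega)
  omega

end stages

end Crest.Agent.X326
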