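import Crest.Agent.X326.TC.NatLin
import Crest.Agent.X326.TC.ListLin
import Crest.Agent.X326.TC.Map
import Crest.Agent.X326.TC.MergeSpec

/-!
# Kronecker substitution in linear time

* `packW k l`    : the low `k` bits of all entries, concatenated (`= Nat.ofDigits (2 ^ k) l` for
  entries below `2 ^ k`).
* `unpackW k K n`: the first `K` digits of `n` in base `2 ^ k`.
* `TC.ofDigitsTwoPow` : evaluation `Nat.ofDigits (2 ^ b) l` for entries of arbitrary size
  (carry propagation).
-/

set_option autoImplicit false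
set_option linter.dupNamespace false

namespace Crest.Agent.X326

open Crest.Agent.Lib.PT Function

/-- concatenation of `k`-bit fields -/
def packW (k : ℕ) (l : List ℕ) : ℕ := lsb (l.flatMap (bitsW k))

theorem packW_eq_mod (k : ℕ) (l : List ℕ) :
    packW k l = Nat.ofDigits (2 ^ k) (l.map (fun c => c % 2 ^ k)) := by
  unfold packW
  induction l with
  | nil => rfl
  | cons c l ih =>
    rw [List.flatMap_cons, lsb_append, ih, lsb_bitsW, length_bitsW, List.map_cons,
      Nat.ofDigits_cons]

theorem packW_eq {k : ℕ} {l : List ℕ} (h : ∀ c ∈ l, c < 2 ^ k) :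
    packW k l = Nat.ofDigits (2 ^ k) l := by
  rw [packW_eq_mod]
  congr 1
  conv_rhs => rw [← List.map_id l]
  exact List.map_congr_left (fun c hc => Nat.mod_eq_of_lt (h c hc))

theorem length_flatMap_bitsW (k : ℕ) (l : List ℕ) :
    (l.flatMap (bitsW k)).length = l.length * k := by
  induction l with
  | nil => simp
  | cons c l ih => rw [List.flatMap_cons, List.length_append, ih, length_bitsW]; simp; ring

theorem packW_lt (k : ℕ) (l : List ℕ) : packW k l < 2 ^ (l.length * k) := by
  rw [← length_flatMap_bitsW]; exact lsb_lt _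

/-- the first `K` digits in base `2 ^ k` -/
def unpackW (k K n : ℕ) : List ℕ := (List.range K).map (fun i => n / 2 ^ (k * i) % 2 ^ k)

@[simp] theorem length_unpackW (k K n : ℕ) : (unpackW k K n).length = K := by simp [unpackW]

theorem lt_of_mem_unpackW {k K n c : ℕ} (h : c ∈ unpackW k K n) : c < 2 ^ k := by
  obtain ⟨i, -, rfl⟩ := List.mem_map.1 h
  exact Nat.mod_lt _ (by positivity)

theorem getD_unpackW {k K n i : ℕ} (hi : i < K) :
    (unpackW k K n).getD i 0 = n / 2 ^ (k * i) % 2 ^ k := getD_map_range _ hi _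

theorem unpackW_succ (k K n : ℕ) :
    unpackW k (K + 1) n = n % 2 ^ k :: unpackW k K (n / 2 ^ k) := by
  unfold unpackW
  rw [List.range_succ_eq_map, List.map_cons, List.map_map]
  simp only [mul_zero, pow_zero, Nat.div_one, List.cons.injEq, true_and]
  refine List.map_congr_left (fun i _ => ?_)
  rw [Function.comp_apply, Nat.div_div_eq_div_mul, ← pow_add]
  congr 3
  simp; ring

theorem ofDigits_unpackW (k K n : ℕ) : Nat.ofDigits (2 ^ k) (unpackW k K n) = n % 2 ^ (K * k) := by
  induction K generalizing n with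
  | zero => simp [unpackW, Nat.mod_one]
  | succ K ih =>
    rw [unpackW_succ, Nat.ofDigits_cons, ih, show (K + 1) * k = k + K * k by ring, pow_add,
      Nat.mod_mul]

theorem unpackW_ofDigits {k : ℕ} {l : List ℕ} (h : ∀ c ∈ l, c < 2 ^ k) :
    unpackW k l.length (Nat.ofDigits (2 ^ k) l) = l := by
  induction l with
  | nil => rfl
  | cons c l ih =>
    have hc := h c (by simp)
    rw [List.length_cons, unpackW_succ, Nat.ofDigits_cons, Nat.add_mul_mod_self_left,
      Nat.mod_eq_of_lt hc, Nat.add_mul_div_left _ _ (by positivity), Nat.div_eq_of_lt hc, zero_add,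
      ih (fun d hd => h d (by simp [hd]))]

theorem unpackW_eq_chunks {k : ℕ} (hk : 0 < k) (K n : ℕ) :
    unpackW k K n = (chunks k (bitsW (K * k) n)).map lsb := by
  rw [chunks_eq_range (m := K) hk (by simp), List.map_map]
  refine List.map_congr_left fun i hi => ?_
  have hi' : i < K := List.mem_range.1 hi
  obtain ⟨j, rfl⟩ := Nat.exists_eq_add_of_lt hi'
  rw [Function.comp_apply, lsb_take, lsb_drop, lsb_bitsW,
    show (i + j + 1) * k = i * k + (k + j * k) by ring, pow_add, Nat.mod_mul_right_div_self,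
    pow_add, Nat.mod_mul_right_mod, mul_comm k i]

/-- carry propagation: state `(b, carry)` -/
def carryStep (q : (Un × ℕ) × ℕ) : (Un × ℕ) × List Bool :=
  ((q.1.1, (q.1.2 + q.2) / 2 ^ q.1.1.val), bitsW q.1.1.val (q.1.2 + q.2))

theorem accumL_carry (b c : ℕ) (l : List ℕ) :
    lsb ((accumL carryStep (⟨b⟩, c) l).2 ++ (accumL carryStep (⟨b⟩, c) l).1.2.bits) =
      c + Nat.ofDigits (2 ^ b) l := by
  induction l generalizing c with
  | nil => simp
  | cons a l ih =>
    rw [accumL_cons]
    simp only [carryStep, List.append_assoc]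
    rw [lsb_append, ih, lsb_bitsW, length_bitsW, Nat.ofDigits_cons, mul_add, ← add_assoc,
      Nat.mod_add_div, add_assoc]

variable {α : Type} [PTCode α] {P : α → Prop} {T : α → ℕ}

theorem TC.packW {k : α → ℕ} {l : α → List ℕ} (hk : TU P T k) (hl : TC P T l)
    (hB : Bud P T (fun x => (l x).length * k x)) : TC P T (fun x => packW (k x) (l x)) := by
  have h1 : Lin (fun p : Un × ℕ => X326.bitsW p.1.val p.2) :=
    TC.bitsW (TU.val TC.id.fst) TC.id.snd
  exact (TC.flatMapCtx_lin (f := fun (u : Un) (c : ℕ) => X326.bitsW u.val c) h1 hk hl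
    (hB.mono fun a _ => by simp)).lsb

/-- Kronecker packing of entries below `2 ^ k` -/
theorem TC.ofDigits_of_lt {k : α → ℕ} {l : α → List ℕ} (hk : TU P T k) (hl : TC P T l)
    (hB : Bud P T (fun x => (l x).length * k x)) (h : ∀ x, P x → ∀ c ∈ l x, c < 2 ^ k x) :
    TC P T (fun x => Nat.ofDigits (2 ^ k x) (l x)) :=
  (TC.packW hk hl hB).congr (fun x hx => packW_eq (h x hx))

theorem TC.unpackW {k K n : α → ℕ} (hk : TU P T k) (hK : TU P T K) (hn : TC P T n)
    (hB : Bud P T (fun x => K x * k x)) : TC P T (fun x => unpackW (k x) (K x) (n x)) := by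
  have h1 : Lin (fun l : List Bool => X326.lsb l) := TC.lsb TC.id
  have h2 := TC.map h1 (TC.chunks hk (TC.bitsW (hK.mul hk hB) hn))
  refine (TC.ite (TP.eqU hk (TU.const 0)) (TC.replicate_const 0 hK) h2).of_eq (fun x => ?_)
  split_ifs with h0
  · unfold X326.unpackW
    rw [h0]
    simp [Nat.mod_one]
  · exact (unpackW_eq_chunks (Nat.pos_of_ne_zero h0) _ _).symm

theorem lin_carryStep : Lin carryStep := by
  have hb : LinU (fun q : (Un × ℕ) × ℕ => q.1.1.val) := TU.val TC.id.fst.fst
  have hs : Lin (fun q : (Un × ℕ) × ℕ => q.1.2 + q.2) := TC.id.fst.snd.natAdd TC.id.snd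
  exact (TC.id.fst.fst.prodMk (hs.natDivTwoPow hb)).prodMk (TC.bitsW hb hs)

/-- evaluation of a digit list with entries below `2 ^ w` at `2 ^ b`, `1 ≤ b` -/
theorem TC.ofDigitsTwoPow {b : α → ℕ} {l : α → List ℕ} (w : α → ℕ) (hb : TU P T b)
    (hl : TC P T l) (h : ∀ x, P x → 1 ≤ b x ∧ ∀ c ∈ l x, c < 2 ^ w x)
    (hB : Bud P T (fun x => (l x).length * (b x + w x))) :
    TC P T (fun x => Nat.ofDigits (2 ^ b x) (l x)) := by
  have h1 := TC.accumL_inv lin_carryStep (s := fun x => (Un.mk (b x), 0)) (hb.tc.prodMk (TC.const 0))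
    hl (fun x t r => t.1.val = b x ∧ t.2 < 2 ^ w x ∧ ∀ c ∈ r, c < 2 ^ w x)
    (fun x _ => 2 * (b x + w x) + 1)
    (fun x hx => ⟨rfl, by positivity, (h x hx).2⟩)
    (fun x hx t a r ht => by
      obtain ⟨e1, e2, e3⟩ := ht
      refine ⟨trivial, ?_, e1, ?_, fun c hc => e3 c (by simp [hc])⟩
      · have := sz_le_of_lt_two_pow e2
        rw [sz_prod, sz_un, e1]
        omega
      · have e4 := e3 a (by simp)
        have e5 : 2 ^ 1 ≤ 2 ^ b x := Nat.pow_le_pow_right (by norm_num) (h x hx).1
        show (t.2 + a) / 2 ^ t.1.val < 2 ^ w x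
        rw [e1, Nat.div_lt_iff_lt_mul (by positivity)]
        nlinarith)
    (((hB.const_mul 2).add hl.bud_length).mono (fun x _ => by
      simp only [List.map_const', List.sum_replicate, smul_eq_mul]
      ring_nf
      omega))
  refine (h1.snd.append h1.fst.snd.natBits).lsb.of_eq (fun x => ?_)
  rw [accumL_carry, zero_add]

end Crest.Agent.X326
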