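import Crest.Agent.X326.TC.Cases
import Crest.Prelude.Def_TimeBound

/-!
# From `TC` to `Crest.DTime.TimeBoundComputable`
-/

set_option autoImplicit false
set_option linter.dupNamespace false

namespace Crest.Agent.X326

open Crest.Agent.Lib.PT Crest.Agent.Lib.PT.Front Turing Function

theorem flatMap_reverse_code {A : Type} [PTCode A] (l : List A) :
    l.reverse.flatMap (fun a => (pair (enc a) []).reverse) = (enc l).reverse := by
  induction l with
  | nil => rfl
  | cons a l ih =>
    rw [List.reverse_cons, List.flatMap_append, ih, enc_cons]
    simp [pair]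

/-- A function on coded lists over a finite alphabet that is computed within the budget
`t (length)` is computed by a machine with that input alphabet in time `c * t N + c`, provided `t`
is at least linear up to constants. The output is a raw bit string. -/
theorem timeBound_of_tc {α β A : Type} [PTCode A] [Finite A] {ea : α → List A}
    {eb : β → List Bool} {f : α → β} {g : List A → Bits} {P : List A → Prop} {t : ℕ → ℕ}
    (hg : TC P (fun l => t l.length) g) (hP : ∀ a, P (ea a))
    (h : ∀ a, (g (ea a)).val = eb (f a)) (ht : ∃ D : ℕ, ∀ n, n ≤ D * t n + D) :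
    ∃ c : ℕ, Crest.DTime.TimeBoundComputable ea eb f (fun N => c * t N + c) := by
  classical
  let _ : Fintype A := Fintype.ofFinite A
  obtain ⟨B, hB⟩ := OfTM.exists_sz_le A
  obtain ⟨D, hD⟩ := ht
  obtain ⟨c, C, hc⟩ := hg
  obtain ⟨r, R, hr⟩ := LinRaw.reverse
  let M : FinTM2 := Cmd.toTM (.seq r c)
  let hh : A → List (M.Γ M.k₀) := fun a => (pair (enc a) []).reverse
  let K : ℕ := (R + C) * (2 * B + 1) + 2
  have key : ∀ a, ∃ n, 2 * (ea a).length + 1 + n ≤
        (C + K * D + R + C + 2) * t (ea a).length + (C + K * D + R + C + 2) ∧
      it M.m n (some (initList M ((ea a).reverse.flatMap hh))) =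
        some (haltList M (eb (f a))) := by
    intro a
    have h1 := hr (enc (ea a)).reverse
    rw [List.reverse_reverse] at h1
    obtain ⟨n, hn, hrun⟩ := h1.seq (hc (ea a) (hP a))
    refine ⟨n + 1, ?_, ?_⟩
    · have b1 : sz (ea a) ≤ (ea a).length * (2 * B + 1) := sz_list_le (fun b _ => hB b)
      have b2 := hD (ea a).length
      have e1 : (enc (ea a)).reverse.length = sz (ea a) := by simp [sz]
      rw [e1] at hn
      beta_reduce at hn
      generalize sz (ea a) = s at *
      generalize (ea a).length = N at *
      generalize t N = u at *
      have b3 : (R + C) * s ≤ (R + C) * (N * (2 * B + 1)) := Nat.mul_le_mul_left _ b1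
      have b4 : K * N ≤ K * (D * u + D) := Nat.mul_le_mul_left _ b2
      have e2 : K * N = (R + C) * (N * (2 * B + 1)) + 2 * N := by simp only [K]; ring
      have e3 : R * (s + 1) + C * (u + s + 1) = (R + C) * s + C * u + R + C := by ring
      have e4 : (C + K * D + R + C + 2) * u + (C + K * D + R + C + 2) =
          C * u + K * (D * u + D) + R + C + 2 + ((R + C + 2) * u + C) := by ring
      omega
    · have e : (ea a).reverse.flatMap hh = (enc (ea a)).reverse := flatMap_reverse_code _
      rw [e, ← h a]
      exact outputs_of_exec hrun
  refine ⟨C + K * D + R + C + 2, ⟨{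
            tm := front M A hh
            inputAlphabet := Equiv.refl _
            outputAlphabet := Equiv.refl _
            time := fun N => (C + K * D + R + C + 2) * t N + (C + K * D + R + C + 2)
            outputsFun := fun a => ?_ }, fun _ => le_rfl⟩⟩
  have e1 : ∀ y : List A, List.map (Equiv.refl A).invFun y = y := fun y => List.map_id y
  have e2 : ∀ y : List Bool, List.map (Equiv.refl Bool).invFun y = y := fun y => List.map_id y
  have h2 := front_outputs hh (ea a) (eb (f a)) (key a).choose_spec.2
  have h3 : ∀ (y : List A) (z : List Bool), y = ea a → z = eb (f a) →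
      it (prg hh) (2 * (ea a).length + 1 + (key a).choose) (some (initList (front M A hh) y)) =
      some (haltList (front M A hh) z) := by
    rintro y z rfl rfl
    exact h2
  exact
    { steps := 2 * (ea a).length + 1 + (key a).choose
      evals_in_steps := h3 _ _ (e1 _) (e2 _)
      steps_le_m := (key a).choose_spec.1 }

end Crest.Agent.X326
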