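import Crest.Agent.Lib.PT.Iter

/-!
# Finite-state transducers with two input streams run in linear time (raw level)

`run2 δ s x y` reads the bit strings `x` and `y` in parallel (the shorter one padded by `none`),
and returns the final state and the concatenation of the emitted words.
`exists_run2`: a `Cmd` program maps `pair x y` to `pair (tag final state) output` in linear time.
-/

set_option autoImplicit false

namespace Crest.Agent.X326.Fst

open Crest.Agent.Lib.PT Function

variable {σ : Type}

/-- two-stream transducer semantics -/
def run2 (δ : σ → Option Bool → Option Bool → σ × List Bool) :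
    σ → List Bool → List Bool → σ × List Bool
  | s, [], [] => (s, [])
  | s, a :: x, [] =>
      ((run2 δ (δ s (some a) none).1 x []).1,
        (δ s (some a) none).2 ++ (run2 δ (δ s (some a) none).1 x []).2)
  | s, [], b :: y =>
      ((run2 δ (δ s none (some b)).1 [] y).1,
        (δ s none (some b)).2 ++ (run2 δ (δ s none (some b)).1 [] y).2)
  | s, a :: x, b :: y =>
      ((run2 δ (δ s (some a) (some b)).1 x y).1,
        (δ s (some a) (some b)).2 ++ (run2 δ (δ s (some a) (some b)).1 x y).2)
termination_by _ x y => x.length + y.length

theorem run2_nil_nil (δ : σ → Option Bool → Option Bool → σ × List Bool) (s : σ) :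
    run2 δ s [] [] = (s, []) := by rw [run2]

theorem run2_cons_left (δ : σ → Option Bool → Option Bool → σ × List Bool) (s : σ) (a : Bool)
    (x y : List Bool) :
    run2 δ s (a :: x) y = ((run2 δ (δ s (some a) y.head?).1 x y.tail).1,
      (δ s (some a) y.head?).2 ++ (run2 δ (δ s (some a) y.head?).1 x y.tail).2) := by
  cases y with
  | nil => rw [run2]; rfl
  | cons b y => rw [run2]; rfl

theorem run2_nil_cons (δ : σ → Option Bool → Option Bool → σ × List Bool) (s : σ) (b : Bool)
    (y : List Bool) :
    run2 δ s [] (b :: y) = ((run2 δ (δ s none (some b)).1 [] y).1,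
      (δ s none (some b)).2 ++ (run2 δ (δ s none (some b)).1 [] y).2) := by
  rw [run2]

theorem run2_cons_cons (δ : σ → Option Bool → Option Bool → σ × List Bool) (s : σ) (a b : Bool)
    (x y : List Bool) :
    run2 δ s (a :: x) (b :: y) = ((run2 δ (δ s (some a) (some b)).1 x y).1,
      (δ s (some a) (some b)).2 ++ (run2 δ (δ s (some a) (some b)).1 x y).2) := by
  rw [run2]

theorem run2_cons_nil (δ : σ → Option Bool → Option Bool → σ × List Bool) (s : σ) (a : Bool)
    (x : List Bool) :
    run2 δ s (a :: x) [] = ((run2 δ (δ s (some a) none).1 x []).1,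
      (δ s (some a) none).2 ++ (run2 δ (δ s (some a) none).1 x []).2) := by
  rw [run2]

theorem length_run2_le (δ : σ → Option Bool → Option Bool → σ × List Bool) {B : ℕ}
    (hB : ∀ s a b, (δ s a b).2.length ≤ B) (s : σ) (x y : List Bool) :
    (run2 δ s x y).2.length ≤ B * (x.length + y.length) := by
  fun_induction run2 δ s x y with
  | case1 s => simp
  | case2 s a x ih =>
    have := hB s (some a) none
    simp only [List.length_append, List.length_cons, List.length_nil] at ih ⊢
    nlinarith
  | case3 s b y ih =>
    have := hB s none (some b)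
    simp only [List.length_append, List.length_cons, List.length_nil] at ih ⊢
    nlinarith
  | case4 s a x b y ih =>
    have := hB s (some a) (some b)
    simp only [List.length_append, List.length_cons] at ih ⊢
    nlinarith

/-! ### dispatch on a unary number -/

/-- run the `i`-th command, where stack `k` holds `i` in unary (the number is consumed) -/
def dispatch (k : ℕ) : List Cmd → Cmd
  | [] => .skip
  | c :: cs => .ite k c (.seq (.pop k) (dispatch k cs)) (.seq (.pop k) (dispatch k cs))

theorem run_dispatch (k : ℕ) (cs : List Cmd) (i : ℕ) (hi : i < cs.length) (S S' : Store) (n : ℕ)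
    (hS : S k = List.replicate i true) (h : Run cs[i] (update S k []) S' n) :
    Run (dispatch k cs) S S' (2 * i + 1 + n) := by
  induction cs generalizing i S with
  | nil => simp at hi
  | cons c cs ih =>
    cases i with
    | zero =>
      have e : update S k [] = S := by
        rw [← show S k = [] from hS]; simp
      rw [e] at h
      exact (Run.ite_nil hS h).mono (by omega)
    | succ i =>
      have h1 := ih i (by simpa using hi) (update S k (S k).tail)
        (by simp [hS, List.replicate_succ]) (by simpa using h)
      exact (Run.ite_true (l := List.replicate i true) (by simpa [List.replicate_succ] using hS)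
        ((run_pop k S).seq h1)).mono (by omega)

/-! ### the program -/

section prog

variable (δ : σ → Option Bool → Option Bool → σ × List Bool) (idx : σ → ℕ)

/-- the action for known state and heads: streams on stacks `3` and `0`, reversed output on `1`,
state on `2` -/
def act (s : σ) (a b : Option Bool) : Cmd :=
  .seq (.pop 3) (.seq (.pop 0) (.seq (pushAll 1 (δ s a b).2.reverse)
    (pushAll 2 (List.replicate (idx (δ s a b).1) true))))

/-- the action for known state and first head -/
def act1 (s : σ) (a : Option Bool) : Cmd :=
  .ite 0 (act δ idx s a none) (act δ idx s a (some true)) (act δ idx s a (some false))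

/-- the action for known state -/
def act0 (s : σ) : Cmd :=
  .ite 3 (act1 δ idx s none) (act1 δ idx s (some true)) (act1 δ idx s (some false))

theorem run_act (s : σ) (a b : Option Bool) (x y o : List Bool) :
    Run (act δ idx s a b) (st4 y o [] x)
      (st4 y.tail ((δ s a b).2.reverse ++ o) (List.replicate (idx (δ s a b).1) true) x.tail)
      (4 + (δ s a b).2.length + idx (δ s a b).1) := by
  refine ((run_pop 3 _).seq ((run_pop 0 _).seq ((run_pushAll 1 _ _).seq
    (run_pushAll 2 _ _)))).of_eq ?_ ?_
  · simp
  · simp; omega

theorem run_act1 (s : σ) (a : Option Bool) (x y o : List Bool) :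
    Run (act1 δ idx s a) (st4 y o [] x)
      (st4 y.tail ((δ s a y.head?).2.reverse ++ o)
        (List.replicate (idx (δ s a y.head?).1) true) x.tail)
      (5 + (δ s a y.head?).2.length + idx (δ s a y.head?).1) := by
  rcases y with _ | ⟨b, y⟩
  · exact (Run.ite_nil rfl (run_act δ idx s a none x [] o)).of_eq rfl (by simp; omega)
  · cases b
    · exact (Run.ite_false (l := y) rfl (run_act δ idx s a (some false) x _ o)).of_eq rfl
        (by simp; omega)
    · exact (Run.ite_true (l := y) rfl (run_act δ idx s a (some true) x _ o)).of_eq rfl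
        (by simp; omega)

theorem run_act0 (s : σ) (x y o : List Bool) :
    Run (act0 δ idx s) (st4 y o [] x)
      (st4 y.tail ((δ s x.head? y.head?).2.reverse ++ o)
        (List.replicate (idx (δ s x.head? y.head?).1) true) x.tail)
      (6 + (δ s x.head? y.head?).2.length + idx (δ s x.head? y.head?).1) := by
  rcases x with _ | ⟨a, x⟩
  · exact (Run.ite_nil rfl (run_act1 δ idx s none [] y o)).of_eq rfl (by simp; omega)
  · cases a
    · exact (Run.ite_false (l := x) rfl (run_act1 δ idx s (some false) _ y o)).of_eq rfl
        (by simp; omega)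
    · exact (Run.ite_true (l := x) rfl (run_act1 δ idx s (some true) _ y o)).of_eq rfl
        (by simp; omega)

variable (L : List σ)

/-- loop body -/
def body : Cmd := dispatch 2 (L.map (act0 δ idx))

variable {δ idx L}

theorem run_body {N B : ℕ} (hL : ∀ s, ∃ h : idx s < L.length, L[idx s] = s) (hN : L.length ≤ N)
    (hB : ∀ s a b, (δ s a b).2.length ≤ B) (s : σ) (x y o : List Bool) :
    Run (body δ idx L) (st4 y o (List.replicate (idx s) true) x)
      (st4 y.tail ((δ s x.head? y.head?).2.reverse ++ o)
        (List.replicate (idx (δ s x.head? y.head?).1) true) x.tail) (3 * N + B + 7) := by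
  obtain ⟨h1, h2⟩ := hL s
  obtain ⟨h3, -⟩ := hL (δ s x.head? y.head?).1
  have h4 := hB s x.head? y.head?
  refine (run_dispatch 2 (L.map (act0 δ idx)) (idx s) (by simpa using h1) _ _ _ rfl ?_).mono
    (n := 2 * idx s + 1 + (6 + (δ s x.head? y.head?).2.length + idx (δ s x.head? y.head?).1))
    (by omega)
  simp only [List.getElem_map, h2, update_st4_two]
  exact run_act0 δ idx s x y o

theorem run_loop0 {N B : ℕ} (hL : ∀ s, ∃ h : idx s < L.length, L[idx s] = s) (hN : L.length ≤ N)
    (hB : ∀ s a b, (δ s a b).2.length ≤ B) (s : σ) (y o : List Bool) :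
    Run (.loop 0 (body δ idx L)) (st4 y o (List.replicate (idx s) true) [])
      (st4 [] ((run2 δ s [] y).2.reverse ++ o) (List.replicate (idx (run2 δ s [] y).1) true) [])
      ((3 * N + B + 8) * y.length + 1) := by
  induction y generalizing s o with
  | nil =>
    rw [run2_nil_nil]
    exact (Run.loop_nil rfl).of_eq (by simp) (by simp)
  | cons b y ih =>
    have h1 := run_body hL hN hB s [] (b :: y) o
    simp only [List.head?_nil, List.head?_cons, List.tail_cons, List.tail_nil] at h1
    refine (Run.loop_cons (by simp) h1 (ih _ _)).of_eq ?_ ?_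
    · rw [run2_nil_cons]; simp
    · simp only [List.length_cons]; nlinarith

theorem run_loops {N B : ℕ} (hL : ∀ s, ∃ h : idx s < L.length, L[idx s] = s) (hN : L.length ≤ N)
    (hB : ∀ s a b, (δ s a b).2.length ≤ B) (s : σ) (x y o : List Bool) :
    Run (.seq (.loop 3 (body δ idx L)) (.loop 0 (body δ idx L)))
      (st4 y o (List.replicate (idx s) true) x)
      (st4 [] ((run2 δ s x y).2.reverse ++ o) (List.replicate (idx (run2 δ s x y).1) true) [])
      ((3 * N + B + 8) * (x.length + y.length) + 2) := by
  induction x generalizing s y o with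
  | nil =>
    exact ((Run.loop_nil rfl).seq (run_loop0 hL hN hB s y o)).of_eq rfl (by simp; omega)
  | cons a x ih =>
    have h1 := run_body hL hN hB s (a :: x) y o
    simp only [List.head?_cons, List.tail_cons] at h1
    obtain ⟨t, ht, h2⟩ := ih (δ s (some a) y.head?).1 y.tail ((δ s (some a) y.head?).2.reverse ++ o)
    cases h2 with
    | @seq _ _ _ S1 _ t1 t2 h3 h4 =>
      refine ((Run.loop_cons (by simp) h1 h3.run).seq h4.run).of_eq ?_ ?_
      · rw [run2_cons_left]; simp
      · have : y.tail.length ≤ y.length := by simp
        simp only [List.length_cons]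
        nlinarith

end prog

/-- A two-stream finite-state transducer runs in linear time. -/
theorem exists_run2 [Finite σ] (δ : σ → Option Bool → Option Bool → σ × List Bool) (s₀ : σ)
    (tag : σ → List Bool) :
    ∃ (c : Cmd) (C : ℕ), ∀ x y : List Bool,
      Run c (init (pair x y)) (init (pair (tag (run2 δ s₀ x y).1) (run2 δ s₀ x y).2))
        (C * ((pair x y).length + 1)) := by
  classical
  have := Fintype.ofFinite σ
  let L : List σ := (Finset.univ : Finset σ).toList
  let idx : σ → ℕ := fun s => L.idxOf s
  have hL : ∀ s, ∃ h : idx s < L.length, L[idx s] = s := fun s =>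
    ⟨List.idxOf_lt_length_of_mem (by simp [L]), List.getElem_idxOf _⟩
  obtain ⟨B, hB⟩ : ∃ B, ∀ s a b, (δ s a b).2.length ≤ B := by
    refine ⟨∑ q : σ × Option Bool × Option Bool, (δ q.1 q.2.1 q.2.2).2.length, fun s a b => ?_⟩
    exact Finset.single_le_sum (f := fun q : σ × Option Bool × Option Bool =>
      (δ q.1 q.2.1 q.2.2).2.length) (fun _ _ => Nat.zero_le _) (Finset.mem_univ (s, a, b))
  obtain ⟨G, hG⟩ : ∃ G, ∀ s, (tag s).length ≤ G := by
    refine ⟨∑ s, (tag s).length, fun s => ?_⟩
    exact Finset.single_le_sum (f := fun s => (tag s).length) (fun _ _ => Nat.zero_le _)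
      (Finset.mem_univ s)
  set N := L.length with hN
  refine ⟨.seq parse (.seq (mv 1 3) (.seq (pushAll 2 (List.replicate (idx s₀) true))
    (.seq (.seq (.loop 3 (body δ idx L)) (.loop 0 (body δ idx L)))
    (.seq (mv 1 0) (dispatch 2 (L.map fun s => pushAll 0 (pair (tag s) []))))))),
    6 * N + 5 * B + 2 * G + 30, fun x y => ?_⟩
  have h1 := run_parse (pair x y)
  rw [fst_pair, snd_pair] at h1
  have e1 : st3 y x.reverse [] = st4 y x.reverse [] [] := by
    funext j; rcases j with _ | _ | _ | _ | j <;> simp [st3, st4]
  rw [e1] at h1
  have h2 : Run (mv 1 3) (st4 y x.reverse [] []) (st4 y [] [] x) (4 * x.length + 1) :=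
    (run_mv (by decide) _).of_eq (by simp) (by simp)
  have h3 : Run (pushAll 2 (List.replicate (idx s₀) true)) (st4 y [] [] x)
      (st4 y [] (List.replicate (idx s₀) true) x) (N + 1) :=
    (run_pushAll 2 _ _).of_eq (by simp) (by have := (hL s₀).1; simp; omega)
  have h4 := run_loops (δ := δ) hL le_rfl hB s₀ x y []
  set r := run2 δ s₀ x y with hr
  have hlen : r.2.length ≤ B * (x.length + y.length) := length_run2_le δ hB s₀ x y
  rw [List.append_nil] at h4
  have h5 : Run (mv 1 0) (st4 [] r.2.reverse (List.replicate (idx r.1) true) [])
      (st4 r.2 [] (List.replicate (idx r.1) true) []) (4 * r.2.length + 1) :=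
    (run_mv (by decide) _).of_eq (by simp) (by simp)
  have h6 : Run (dispatch 2 (L.map fun s => pushAll 0 (pair (tag s) [])))
      (st4 r.2 [] (List.replicate (idx r.1) true) []) (init (pair (tag r.1) r.2))
      (2 * N + 1 + (2 * G + 2)) := by
    obtain ⟨g1, g2⟩ := hL r.1
    refine (run_dispatch 2 _ (idx r.1) (by simpa using g1) _ _ (2 * G + 2) rfl ?_).mono (by omega)
    simp only [List.getElem_map, g2, update_st4_two]
    refine (run_pushAll 0 _ _).of_eq ?_ ?_
    · rw [init_eq_st4]; simp [pair]
    · have := hG r.1
      simp; omega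
  refine (h1.seq (h2.seq (h3.seq (h4.seq (h5.seq h6))))).mono ?_
  rw [length_pair]
  nlinarith

/-- raw append in linear time -/
theorem run_append (x y : List Bool) :
    Run (.seq parse (mv 1 0)) (init (pair x y)) (init (x ++ y)) (10 * ((pair x y).length + 1)) := by
  have h1 := run_parse (pair x y)
  rw [fst_pair, snd_pair] at h1
  refine (h1.seq (run_mv (by decide) _)).of_eq ?_ ?_
  · funext j; rcases j with _ | _ | _ | j <;> simp [st3, init]
  · simp [st3]
    omega

/-- raw reversal in linear time -/
theorem run_reverse (x : List Bool) :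
    Run (.seq (mv 0 1) (.seq (mv 1 2) (mv 2 0))) (init x) (init x.reverse)
      (12 * (x.length + 1)) := by
  refine ((run_mv (by decide) (init x)).seq ((run_mv (by decide) _).seq
    (run_mv (by decide) _))).of_eq ?_ ?_
  · funext j
    rcases j with _ | _ | _ | j <;> simp [init]
  · simp [init]
    omega

end Crest.Agent.X326.Fst
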