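import Crest.Agent.X326.TC.Deal
import Crest.Agent.X326.TC.Un

/-!
# Row 326, machine layer: tables and gathers

* `exists_tc_tab`        : the table `(range n).map (f c)` of a polynomial-time `f`.
* `gatherMono idx l`     : the entries of `l` at a sorted list of binary positions.
* `overlay fl idx l out` : overwrite the flagged entries of `out` by entries of `l`.
* `exists_tc_gather`     : `(range n).map (fun j => l.getD (σ c j) d)` when `σ c` is monotone on
  each of `K` colour classes (`K` fixed, `σ` and the colouring polynomial time).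
-/

set_option autoImplicit false

namespace Crest.Agent.X326

open Crest.Agent.Lib.PT Function

/-! ### pure part -/

section pure

variable {ι α : Type}

/-- the entries of `l` at a sorted list of positions -/
def gatherMono (idx : List ℕ) (l : List α) : List α := gatherGaps (gaps idx) l

theorem gatherMono_eq (d : α) {l : List α} {idx : List ℕ} (hs : idx.Pairwise (· ≤ ·))
    (hN : ∀ i ∈ idx, i < l.length) : gatherMono idx l = idx.map (fun i => l.getD i d) :=
  gatherGaps_gaps d l hs hN

/-- overwrite the flagged entries of `out` by the entries of `l` at the flagged positions -/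
def overlay (fl : List Bool) (idx : List ℕ) (l out : List α) : List α :=
  mergeBy fl (gatherMono (filterBy fl idx) l) (filterBy (fl.map not) out)

theorem overlay_map (d : α) (I : List ι) (p : ι → Bool) (s : ι → ℕ) (g : ι → α) (l : List α)
    (hs : ((I.filter p).map s).Pairwise (· ≤ ·)) (hN : ∀ i ∈ (I.filter p).map s, i < l.length) :
    overlay (I.map p) (I.map s) l (I.map g) =
      I.map (fun i => if p i then l.getD (s i) d else g i) := by
  rw [overlay, filterBy_map, gatherMono_eq d hs hN, List.map_map, List.map_map,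
    show (not ∘ p) = fun i => !p i from rfl, filterBy_map]
  exact mergeBy_map I p _ g

theorem sz_le_of_sublist [PTCode α] {l l' : List α} (h : l.Sublist l') : sz l ≤ sz l' := by
  induction h with
  | slnil => exact le_rfl
  | cons a _ ih => simp only [sz_cons]; omega
  | cons_cons a _ ih => simp only [sz_cons]; omega

theorem pairwise_filter_range {n : ℕ} {p : ℕ → Bool} {s : ℕ → ℕ}
    (h : ∀ j j', j < j' → j' < n → p j = true → p j' = true → s j ≤ s j') :
    (((List.range n).filter p).map s).Pairwise (· ≤ ·) := by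
  rw [List.pairwise_map, List.pairwise_filter]
  refine List.Pairwise.imp_of_mem ?_ (List.pairwise_lt_range (n := n))
  intro a b _ hb hab ha' hb'
  exact h a b hab (List.mem_range.1 hb) ha' hb'

end pure

/-! ### budgets of the form `n * s ^ k` -/

theorem Bud.mul_pow_mono {ι : Type} [PTCode ι] {P : ι → Prop} {T : ι → ℕ} {n s m u : ι → ℕ}
    {k k' : ℕ} (A : ℕ) (hb : Bud P T (fun x => n x * s x ^ k)) (hk : k' ≤ k)
    (h : ∀ x, P x → 1 ≤ s x ∧ m x ≤ n x ∧ u x ≤ A * s x) :
    Bud P T (fun x => m x * u x ^ k') := by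
  refine (hb.const_mul (A ^ k')).mono (fun x hx => ?_)
  obtain ⟨h1, h2, h3⟩ := h x hx
  have h4 : u x ^ k' ≤ A ^ k' * s x ^ k := by
    refine (Nat.pow_le_pow_left h3 k').trans ?_
    rw [mul_pow]
    exact Nat.mul_le_mul_left _ (Nat.pow_le_pow_right h1 hk)
  calc m x * u x ^ k' ≤ n x * (A ^ k' * s x ^ k) := Nat.mul_le_mul h2 h4
    _ = A ^ k' * (n x * s x ^ k) := by ring

namespace Mg

variable {ι α β γ : Type}

/-- one step of the table loop -/
def tabStep (f : γ → ℕ → β) (p : (γ × ℕ) × Unit) : (γ × ℕ) × List β :=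
  ((p.1.1, p.1.2 + 1), [f p.1.1 p.1.2])

theorem accumL_tab (f : γ → ℕ → β) (c : γ) (n s : ℕ) :
    (accumL (tabStep f) (c, s) (List.replicate n ())).2 =
      (List.range n).map (fun j => f c (s + j)) := by
  induction n generalizing s with
  | zero => rfl
  | succ n ih =>
    rw [List.replicate_succ, accumL_cons, List.range_succ_eq_map, List.map_cons, List.map_map]
    simp only [tabStep, ih, List.singleton_append, Nat.add_zero, List.cons.injEq, true_and]
    refine List.map_congr_left (fun j _ => ?_)
    simp only [comp_apply, Nat.succ_eq_add_one]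
    rw [Nat.add_assoc, Nat.add_comm 1 j]

variable [PTCode ι] [PTCode α] [PTCode β] [PTCode γ] {P : ι → Prop} {T : ι → ℕ}

/-- `map` of a function with a cost -/
theorem tc_map {Q : α → Prop} {S : α → ℕ} {f : α → β} (hf : TC Q S f) {l : ι → List α}
    (hl : TC P T l) (hQ : ∀ x, P x → ∀ a ∈ l x, Q a)
    (hS : Bud P T (fun x => ((l x).map S).sum)) : TC P T (fun x => (l x).map f) := by
  have h1 : TC (fun p : Unit × α => Q p.2) (fun p => S p.2) (fun p => ((), [f p.2])) :=
    (TC.const ()).prodMk (tc_cons (hf.precomp TC.id.snd) (TC.const []))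
  refine (TC.accumL_inv h1 (TC.const ()) hl (fun _ _ r => ∀ a ∈ r, Q a) (fun _ a => S a) hQ
    (fun _ _ _ a r h => ⟨h a (by simp), by simp, fun b hb => h b (by simp [hb])⟩)
    hS).snd.of_eq (fun x => accumL_map f (l x))

theorem exists_tc_gap : ∃ k : ℕ, TC (fun _ : ℕ × ℕ => True)
    (fun p => (sz p + 1) ^ k + (p.1 - p.2)) (fun p => Un.mk (p.1 - p.2)) := by
  obtain ⟨k, hk⟩ := exists_tc_of_ptf (f := fun p : ℕ × ℕ => p.1 - p.2) (by fun_prop)
  exact ⟨k, TU.ofNat (hk.le (fun _ _ => Nat.le_add_right _ _))
    (Bud.self.mono (fun _ _ => Nat.le_add_left _ _))⟩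

omit [PTCode ι] [PTCode α] [PTCode β] [PTCode γ] in
theorem map_gap (idx : List ℕ) :
    ((idx.zip (0 :: idx)).map (fun p : ℕ × ℕ => Un.mk (p.1 - p.2))).map Un.val = gaps idx := by
  rw [List.map_map, gaps_eq_zipWith, ← List.map_uncurry_zip_eq_zipWith]
  rfl

end Mg

/-! ### tables -/

/-- the table of a polynomial-time function -/
theorem exists_tc_tab {β γ : Type} [PTCode β] [PTCode γ] {f : γ → ℕ → β} (hf : PTF₂ f) :
    ∃ k : ℕ, TC (fun _ : γ × Un => True) (fun q => q.2.val * (sz q.1 + q.2.val.size + 1) ^ k)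
      (fun q => (List.range q.2.val).map (f q.1)) := by
  have h0 : PTF (Mg.tabStep f) := by
    have h1 : PTF (fun p : (γ × ℕ) × Unit => f p.1.1 p.1.2) :=
      PTF.comp₂ hf (by fun_prop) (by fun_prop)
    unfold Mg.tabStep
    fun_prop
  obtain ⟨k, hk⟩ := exists_tc_of_ptf h0
  refine ⟨k + 1, ?_⟩
  refine (TC.accumL_inv hk (s := fun q : γ × Un => (q.1, 0))
    (l := fun q => List.replicate q.2.val ()) (TC.id.fst.prodMk (TC.const 0))
    (TU.units (TU.val TC.id.snd))
    (fun q t r => t.1 = q.1 ∧ t.2 + r.length = q.2.val)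
    (fun q _ => (4 ^ k + 2) * (sz q.1 + q.2.val.size + 1) ^ (k + 1))
    (fun q _ => by simp) ?_ ?_).snd.of_eq (fun q => ?_)
  · rintro q - ⟨c, j⟩ a r ⟨h1, h2⟩
    simp only [List.length_cons] at h1 h2
    subst h1
    refine ⟨trivial, ?_, rfl, by simp only [Mg.tabStep]; omega⟩
    have h3 : j.size ≤ q.2.val.size := Nat.size_le_size (by omega)
    simp only [sz_prod, sz_nat, sz_unit]
    generalize q.2.val.size = b at h3
    generalize sz q.1 = a
    have h4 : (2 * (2 * a + 1 + j.size) + 1 + 0 + 1) ^ k ≤ 4 ^ k * (a + b + 1) ^ (k + 1) := by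
      refine (Nat.pow_le_pow_left (show _ ≤ 4 * (a + b + 1) by omega) k).trans ?_
      rw [mul_pow]
      exact Nat.mul_le_mul_left _ (Nat.pow_le_pow_right (by omega) (by omega))
    have h5 : a + b + 1 ≤ (a + b + 1) ^ (k + 1) := Nat.le_self_pow (by omega) _
    rw [add_mul]
    omega
  · refine (Bud.self.const_mul (4 ^ k + 2)).mono (fun q _ => ?_)
    simp only [List.map_replicate, List.sum_replicate, smul_eq_mul]
    exact le_of_eq (by ring)
  · simpa using Mg.accumL_tab f q.1 q.2.val 0

/-- compositional form of `exists_tc_tab` -/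
theorem exists_tc_tab' {β γ : Type} [PTCode β] [PTCode γ] {f : γ → ℕ → β} (hf : PTF₂ f) :
    ∃ k : ℕ, ∀ {ι : Type} [PTCode ι] {P : ι → Prop} {T : ι → ℕ} {c : ι → γ} {n : ι → ℕ},
      TC P T c → TU P T n → Bud P T (fun x => n x * (sz (c x) + (n x).size + 1) ^ k) →
      TC P T (fun x => (List.range (n x)).map (f (c x))) := by
  obtain ⟨k, hk⟩ := exists_tc_tab hf
  exact ⟨k, fun {ι} _ {P T c n} hc hn hb =>
    TC.comp (f := fun x => (c x, Un.mk (n x))) hk (hc.prodMk hn) (fun _ _ => trivial) hb⟩

/-! ### monotone gather -/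

theorem exists_tc_gatherMono : ∃ k : ℕ, ∀ {ι α : Type} [PTCode ι] [PTCode α] {P : ι → Prop}
    {T : ι → ℕ} {idx : ι → List ℕ} {l : ι → List α}, TC P T idx → TC P T l →
    (∀ x, P x → (idx x).Pairwise (· ≤ ·) ∧ ∀ i ∈ idx x, i ≤ (l x).length) →
    Bud P T (fun x => (idx x).length * ((l x).length.size + 1) ^ k) →
    Bud P T (fun x => sz (gatherMono (idx x) (l x))) →
    TC P T (fun x => gatherMono (idx x) (l x)) := by
  obtain ⟨k, hk⟩ := Mg.exists_tc_gap
  refine ⟨k, fun {ι α} _ _ {P T idx l} hi hl h hb ho => ?_⟩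
  have h1 : TC P T (fun x => ((idx x).zip (0 :: idx x)).map
      (fun p : ℕ × ℕ => Un.mk (p.1 - p.2))) := by
    refine Mg.tc_map hk (hi.zip (Mg.tc_cons (TC.const 0) hi)) (fun _ _ _ _ => trivial) ?_
    have hb' : Bud P T (fun x => (idx x).length * (3 * (l x).length.size + 2) ^ k) :=
      hb.mul_pow_mono 3 le_rfl (fun x _ => ⟨by omega, le_rfl, by omega⟩)
    refine (hb'.add hl.sz).mono (fun x hx => ?_)
    obtain ⟨hs, hN⟩ := h x hx
    rw [List.sum_map_add]
    refine Nat.add_le_add ?_ ?_
    · refine (List.sum_le_card_nsmul _ ((3 * (l x).length.size + 2) ^ k) ?_).trans ?_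
      · intro y hy
        obtain ⟨p, hp, rfl⟩ := List.mem_map.1 hy
        have h2 : p.1.size ≤ (l x).length.size := Nat.size_le_size (hN _ (List.of_mem_zip hp).1)
        have h3 : p.2.size ≤ (l x).length.size := by
          rcases List.mem_cons.1 (List.of_mem_zip hp).2 with e | e
          · rw [e]; simp
          · exact Nat.size_le_size (hN _ e)
        refine Nat.pow_le_pow_left ?_ k
        simp only [sz_prod, sz_nat]
        omega
      · simp
    · have h2 := sum_gaps_le hs hN
      rw [← Mg.map_gap, List.map_map] at h2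
      exact h2.trans (length_le_sz _)
  have h2 := TC.gatherGaps h1 hl (ho.mono (fun x _ => by rw [Mg.map_gap]; exact le_rfl))
  exact h2.of_eq (fun x => by rw [Mg.map_gap]; rfl)

/-! ### gather with `K` colours -/

theorem exists_tc_gather {γ : Type} [PTCode γ] (K : ℕ) {σ col : γ → ℕ → ℕ} (hσ : PTF₂ σ)
    (hcol : PTF₂ col) : ∃ k : ℕ, ∀ {ι α : Type} [PTCode ι] [PTCode α] {P : ι → Prop} {T : ι → ℕ}
    {c : ι → γ} {n : ι → ℕ} {d : ι → α} {l : ι → List α},
    TC P T c → TU P T n → TC P T d → TC P T l →
    (∀ x, P x → ∀ j, j < n x → σ (c x) j < (l x).length → col (c x) j < K) →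
    (∀ x, P x → ∀ j j', j < j' → j' < n x → σ (c x) j < (l x).length →
      σ (c x) j' < (l x).length → col (c x) j = col (c x) j' → σ (c x) j ≤ σ (c x) j') →
    Bud P T (fun x => n x * (sz (c x) + (n x).size + (l x).length.size + 1) ^ k) →
    Bud P T (fun x => n x * sz (d x)) →
    Bud P T (fun x => sz ((List.range (n x)).map (fun j => (l x).getD (σ (c x) j) (d x)))) →
    TC P T (fun x => (List.range (n x)).map (fun j => (l x).getD (σ (c x) j) (d x))) := by
  have hσ' : PTF (fun q : (γ × ℕ × ℕ) × ℕ => σ q.1.1 q.2) :=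
    PTF.comp₂ hσ (by fun_prop) (by fun_prop)
  have hcol' : PTF (fun q : (γ × ℕ × ℕ) × ℕ => col q.1.1 q.2) :=
    PTF.comp₂ hcol (by fun_prop) (by fun_prop)
  obtain ⟨k1, h1⟩ := exists_tc_tab' (f := fun (q : γ × ℕ × ℕ) (j : ℕ) => min (σ q.1 j) q.2.1)
    (by pt_prop)
  obtain ⟨k2, h2⟩ := exists_tc_tab'
    (f := fun (q : γ × ℕ × ℕ) (j : ℕ) => decide (σ q.1 j < q.2.1 ∧ col q.1 j = q.2.2))
    (PTPred.toPTF (PTPred.and (PTPred.natLt hσ' (by fun_prop))
      (PTPred.natEq hcol' (by fun_prop))))
  obtain ⟨k3, h3⟩ := exists_tc_gatherMono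
  refine ⟨k1 + k2 + k3, fun {ι α} _ _ {P T c n d l} hc hn hd hl hK hm hb hbd ho => ?_⟩
  have hctx : ∀ κ : ℕ, TC P T (fun x => (c x, (l x).length, κ)) :=
    fun κ => hc.prodMk (hl.length.prodMk (TC.const κ))
  have hbud : ∀ (κ k : ℕ), k ≤ k1 + k2 + k3 →
      Bud P T (fun x => n x * (sz (c x, (l x).length, κ) + (n x).size + 1) ^ k) := by
    intro κ k hk
    refine hb.mul_pow_mono (κ.size + 3) hk (fun x _ => ⟨by omega, le_rfl, ?_⟩)
    simp only [sz_prod, sz_nat]
    nlinarith [Nat.zero_le (κ.size * (sz (c x) + (n x).size + (l x).length.size))]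
  have hidx : TC P T (fun x => (List.range (n x)).map
      (fun j => min (σ (c x) j) (l x).length)) := h1 (hctx 0) hn (hbud 0 k1 (by omega))
  have hfl : ∀ κ : ℕ, TC P T (fun x => (List.range (n x)).map
      (fun j => decide (σ (c x) j < (l x).length ∧ col (c x) j = κ))) :=
    fun κ => h2 (hctx κ) hn (hbud κ k2 (by omega))
  have key : ∀ κ : ℕ, TC P T (fun x => (List.range (n x)).map (fun j =>
      if σ (c x) j < (l x).length ∧ col (c x) j < κ then (l x).getD (σ (c x) j) (d x)
      else d x)) := by
    intro κ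
    induction κ with
    | zero => exact (TC.replicate hn hd hbd).of_eq (fun x => by simp)
    | succ κ ih =>
      have hsort : ∀ x, P x → (((List.range (n x)).filter
          (fun j => decide (σ (c x) j < (l x).length ∧ col (c x) j = κ))).map
          (fun j => min (σ (c x) j) (l x).length)).Pairwise (· ≤ ·) := by
        intro x hx
        refine pairwise_filter_range (fun j j' a1 a2 a3 a4 => ?_)
        simp only [decide_eq_true_eq] at a3 a4
        have := hm x hx j j' a1 a2 a3.1 a4.1 (a3.2.trans a4.2.symm)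
        omega
      have hlt : ∀ x, P x → ∀ i ∈ ((List.range (n x)).filter
          (fun j => decide (σ (c x) j < (l x).length ∧ col (c x) j = κ))).map
          (fun j => min (σ (c x) j) (l x).length), i < (l x).length := by
        intro x _ i hi
        obtain ⟨j, hj, rfl⟩ := List.mem_map.1 hi
        have := (List.mem_filter.1 hj).2
        simp only [decide_eq_true_eq] at this
        omega
      have hg : TC P T (fun x => gatherMono (filterBy ((List.range (n x)).map
          (fun j => decide (σ (c x) j < (l x).length ∧ col (c x) j = κ)))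
          ((List.range (n x)).map (fun j => min (σ (c x) j) (l x).length))) (l x)) := by
        refine h3 (TC.filterBy (hfl κ) hidx) hl (fun x hx => ?_) ?_ ?_
        · rw [filterBy_map]
          exact ⟨hsort x hx, fun i hi => (hlt x hx i hi).le⟩
        · refine hb.mul_pow_mono 1 (by omega) (fun x _ => ⟨by omega, ?_, by omega⟩)
          exact (filterBy_sublist _ _).length_le.trans (by simp)
        · refine ho.mono (fun x hx => ?_)
          rw [filterBy_map, gatherMono_eq (d x) (hsort x hx) (hlt x hx), List.map_map]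
          refine le_trans (le_of_eq (congrArg sz (List.map_congr_left
            (g := fun j => (l x).getD (σ (c x) j) (d x)) (fun j hj => ?_))))
            (sz_le_of_sublist (List.filter_sublist.map _))
          have := (List.mem_filter.1 hj).2
          simp only [decide_eq_true_eq] at this
          simp only [comp_apply]
          rw [min_eq_left this.1.le]
      have hnot : Lin (fun b : Bool => !b) := TC.id.not
      refine (TC.mergeBy (hfl κ) hg (TC.filterBy (Mg.tc_map_lin hnot (hfl κ)) ih)).congr
        (fun x hx => ?_)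
      refine (overlay_map (d x) (List.range (n x)) _ _ _ (l x) (hsort x hx) (hlt x hx)).trans ?_
      refine List.map_congr_left (fun j _ => ?_)
      by_cases a1 : σ (c x) j < (l x).length
      · rcases Nat.lt_trichotomy (col (c x) j) κ with a2 | a2 | a2
        · simp [a1, a2, a2.ne, Nat.lt_succ_of_lt a2]
        · simp [a1, a2, min_eq_left a1.le]
        · have a3 : ¬ col (c x) j < κ := by omega
          have a4 : ¬ col (c x) j < κ + 1 := by omega
          simp [a2.ne', a3, a4]
      · simp [a1]
  refine (key K).congr (fun x hx => List.map_congr_left (fun j hj => ?_))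
  by_cases a1 : σ (c x) j < (l x).length
  · rw [if_pos ⟨a1, hK x hx j (List.mem_range.1 hj) a1⟩]
  · rw [if_neg (fun h => a1 h.1), List.getD_eq_default _ _ (by omega)]

/-- size of a gather when all records have size at most `B` -/
theorem sz_gather_le {α : Type} [PTCode α] (n : ℕ) (σ : ℕ → ℕ) {d : α} {l : List α} {B : ℕ}
    (hd : sz d ≤ B) (hl : ∀ a ∈ l, sz a ≤ B) :
    sz ((List.range n).map (fun j => l.getD (σ j) d)) ≤ n * (2 * B + 1) := by
  have := sz_list_le (l := (List.range n).map (fun j => l.getD (σ j) d)) (m := B) (fun a ha => by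
    obtain ⟨j, _, rfl⟩ := List.mem_map.1 ha
    by_cases hj : σ j < l.length
    · rw [List.getD_eq_getElem _ _ hj]; exact hl _ (List.getElem_mem hj)
    · rw [List.getD_eq_default _ _ (by omega)]; exact hd)
  simpa using this

end Crest.Agent.X326
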