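import Crest.Agent.Lib.PT.Iter

/-!
# Row 326, machine layer: control-driven transducers on coded lists (raw `Cmd` level)

A control string (a list of tokens) drives a program which moves, drops or copies the first cell
of one of two coded lists to an output stack.  `run_prog` is the generic correctness theorem; the
typed consequences (`mergeBy`, `filterBy`, `walk`, `gatherGaps`, `splitLengths`, `chunks`) are in
`Merge.lean`.
-/

set_option autoImplicit false

namespace Crest.Agent.X326.Mg

open Crest.Agent.Lib.PT Function

/-- tokens of the self-delimiting code -/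
def tok : Option Bool → List Bool
  | some b => [true, b]
  | none => [false]

/-- the tokens of one cell -/
def toks (x : List Bool) : List (Option Bool) := x.map some ++ [none]

/-- one cell of a coded list -/
def cell (x : List Bool) : List Bool := x.flatMap (fun b => [true, b]) ++ [false]

theorem pair_eq_cell (x y : List Bool) : pair x y = cell x ++ y := by simp [pair, cell]

theorem cell_nil : cell [] = [false] := rfl

theorem cell_cons (b : Bool) (x : List Bool) : cell (b :: x) = true :: b :: cell x := by
  simp [cell]

theorem toks_nil : toks [] = [none] := rfl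

theorem toks_cons (b : Bool) (x : List Bool) : toks (b :: x) = some b :: toks x := by
  simp [toks]

theorem length_cell (x : List Bool) : (cell x).length = 2 * x.length + 1 := by
  induction x with
  | nil => rfl
  | cons b x ih => rw [cell_cons]; simp [ih]; omega

theorem toks_flatMap_tok (x : List Bool) : (toks x).flatMap tok = cell x := by
  induction x with
  | nil => rfl
  | cons b x ih => rw [toks_cons, cell_cons, List.flatMap_cons, ih]; rfl

/-- forget the framing -/
def und : Option Bool → List Bool
  | some b => [b]
  | none => []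

theorem toks_flatMap_und (x : List Bool) : (toks x).flatMap und = x := by
  induction x with
  | nil => rfl
  | cons b x ih => rw [toks_cons, List.flatMap_cons, ih]; rfl

/-- frame every bit of a token -/
def dbl (o : Option Bool) : List Bool := (tok o).flatMap (fun b => [true, b])

theorem toks_flatMap_dbl (x : List Bool) :
    (toks x).flatMap dbl = (cell x).flatMap (fun b => [true, b]) := by
  rw [← toks_flatMap_tok, List.flatMap_assoc]; rfl

/-- write nothing -/
def non : Option Bool → List Bool := fun _ => []

theorem flatMap_non (l : List (Option Bool)) : l.flatMap non = [] := by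
  induction l with
  | nil => rfl
  | cons o l ih => rw [List.flatMap_cons, ih]; rfl

theorem enc_cons_cell {α : Type} [PTCode α] (a : α) (l : List α) :
    enc (a :: l) = cell (enc a) ++ enc l := by rw [enc_cons, pair_eq_cell]

theorem enc_append {α : Type} [PTCode α] (l l' : List α) : enc (l ++ l') = enc l ++ enc l' := by
  induction l with
  | nil => rfl
  | cons a l ih => rw [List.cons_append, enc_cons_cell, enc_cons_cell, ih, List.append_assoc]

theorem enc_eq_toks {γ : Type} [PTCode γ] (L : List γ) :
    enc L = (L.flatMap (fun c => toks (enc c))).flatMap tok := by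
  induction L with
  | nil => rfl
  | cons c L ih =>
    rw [enc_cons_cell, List.flatMap_cons, List.flatMap_append, toks_flatMap_tok, ← ih]

theorem length_le_flatMap_tok (l : List (Option Bool)) : l.length ≤ (l.flatMap tok).length := by
  induction l with
  | nil => simp
  | cons o l ih => cases o <;> simp [tok] at ih ⊢ <;> omega

/-! ### moving one cell -/

/-- update the stacks `a`, `3`, `4` -/
def U (S : Store) (a : ℕ) (r p q : List Bool) : Store := update (update (update S a r) 3 p) 4 q

section cellmove

variable {a : ℕ}

theorem U_self (h3 : a ≠ 3) (h4 : a ≠ 4) (S : Store) (r p q : List Bool) : U S a r p q a = r := by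
  simp [U, h3, h4]

theorem U_three (S : Store) (r p q : List Bool) : U S a r p q 3 = p := by simp [U]

theorem U_four (S : Store) (r p q : List Bool) : U S a r p q 4 = q := by simp [U]

theorem U_five (h5 : a ≠ 5) (S : Store) (r p q : List Bool) : U S a r p q 5 = S 5 := by
  simp [U, h5.symm]

theorem U_U (S : Store) (r p q r' p' q' : List Bool) :
    U (U S a r p q) a r' p' q' = U S a r' p' q' := by
  funext j
  by_cases h4 : j = 4
  · subst h4; simp [U]
  · by_cases h3 : j = 3
    · subst h3; simp [U]
    · by_cases ha : j = a
      · subst ha; simp [U, h3, h4]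
      · simp [U, h3, h4, ha]

/-- write the images of a token -/
def emit (h g : Option Bool → List Bool) (o : Option Bool) : Cmd :=
  .seq (pushAll 3 (h o).reverse) (pushAll 4 (g o).reverse)

theorem run_emit (h g : Option Bool → List Bool) (o : Option Bool) (S : Store) (r : List Bool)
    (hb : (h o).length + (g o).length ≤ 4) :
    Run (emit h g o) (update S a r) (U S a r ((h o).reverse ++ update S a r 3)
      ((g o).reverse ++ update S a r 4)) 6 := by
  refine ((run_pushAll 3 _ _).seq (run_pushAll 4 _ _)).of_eq ?_ ?_
  · simp [U]
  · simp; omega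

/-- body of the cell loop -/
def cellBody (a : ℕ) (h g : Option Bool → List Bool) : Cmd :=
  .ite a (.pop 5)
    (.seq (.pop a) (.ite a .skip (.seq (.pop a) (emit h g (some true)))
      (.seq (.pop a) (emit h g (some false)))))
    (.seq (.pop a) (.seq (emit h g none) (.pop 5)))

/-- consume one cell of stack `a`, writing images of its tokens on the stacks `3` and `4` -/
def cellCmd (a : ℕ) (h g : Option Bool → List Bool) : Cmd :=
  .seq (.push 5 true) (.loop 5 (cellBody a h g))

theorem run_cellLoop (h3 : a ≠ 3) (h4 : a ≠ 4) (h5 : a ≠ 5) (h g : Option Bool → List Bool)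
    (hb : ∀ o, (h o).length + (g o).length ≤ 4) (x r : List Bool) (S : Store)
    (hS : S a = cell x ++ r) (hf : S 5 = [true]) :
    Run (.loop 5 (cellBody a h g)) S
      (update (U S a r (((toks x).flatMap h).reverse ++ S 3)
        (((toks x).flatMap g).reverse ++ S 4)) 5 []) (11 * x.length + 11) := by
  induction x generalizing S with
  | nil =>
    have hS' : S a = false :: r := hS
    have e1 : Run (.pop a) S (update S a r) 1 := (run_pop a S).of_eq (by rw [hS']; rfl) le_rfl
    have e2 := run_emit (a := a) h g none S r (hb none)
    rw [update_of_ne h3.symm, update_of_ne h4.symm] at e2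
    have e3 := run_pop 5 (U S a r ((h none).reverse ++ S 3) ((g none).reverse ++ S 4))
    rw [U_five h5, hf, List.tail_cons] at e3
    have hbody : Run (cellBody a h g) S _ _ := Run.ite_false hS' (e1.seq (e2.seq e3))
    have hend : Run (.loop 5 (cellBody a h g))
        (update (U S a r ((h none).reverse ++ S 3) ((g none).reverse ++ S 4)) 5 []) _ 1 :=
      Run.loop_nil (by simp)
    refine (Run.loop_cons (by rw [hf]; simp) hbody hend).of_eq ?_ (by simp)
    simp [toks_nil]
  | cons b x ih =>
    have hS' : S a = true :: b :: (cell x ++ r) := by rw [hS, cell_cons]; rfl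
    have e1 : Run (.pop a) S (update S a (b :: (cell x ++ r))) 1 :=
      (run_pop a S).of_eq (by rw [hS']; rfl) le_rfl
    have e2 : Run (.pop a) (update S a (b :: (cell x ++ r))) (update S a (cell x ++ r)) 1 :=
      (run_pop a _).of_eq (by simp) le_rfl
    have e3 := run_emit (a := a) h g (some b) S (cell x ++ r) (hb _)
    rw [update_of_ne h3.symm, update_of_ne h4.symm] at e3
    have e4 : Run (.ite a .skip (.seq (.pop a) (emit h g (some true)))
        (.seq (.pop a) (emit h g (some false)))) (update S a (b :: (cell x ++ r)))
        (U S a (cell x ++ r) ((h (some b)).reverse ++ S 3) ((g (some b)).reverse ++ S 4))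
        (1 + (1 + 6)) := by
      cases b
      · exact Run.ite_false (l := cell x ++ r) (by simp) (e2.seq e3)
      · exact Run.ite_true (l := cell x ++ r) (by simp) (e2.seq e3)
    have hbody : Run (cellBody a h g) S _ _ := Run.ite_true hS' (e1.seq e4)
    have hrec := ih (U S a (cell x ++ r) ((h (some b)).reverse ++ S 3)
      ((g (some b)).reverse ++ S 4)) (U_self h3 h4 _ _ _ _) (by rw [U_five h5, hf])
    refine (Run.loop_cons (by rw [hf]; simp) hbody hrec).of_eq ?_ ?_
    · rw [U_U, U_three, U_four, toks_cons]
      simp
    · simp only [List.length_cons]; omega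

theorem run_cellCmd (h3 : a ≠ 3) (h4 : a ≠ 4) (h5 : a ≠ 5) (h g : Option Bool → List Bool)
    (hb : ∀ o, (h o).length + (g o).length ≤ 4) (x r : List Bool) (S : Store)
    (hS : S a = cell x ++ r) (hf : S 5 = []) :
    Run (cellCmd a h g) S
      (U S a r (((toks x).flatMap h).reverse ++ S 3) (((toks x).flatMap g).reverse ++ S 4))
      (11 * x.length + 12) := by
  have e1 := run_push 5 true S
  rw [hf] at e1
  have e2 := run_cellLoop h3 h4 h5 h g hb x r (update S 5 [true])
    (by rw [update_of_ne h5]; exact hS) (by simp)
  refine (e1.seq e2).of_eq ?_ (by omega)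
  funext j
  by_cases hj5 : j = 5
  · subst hj5; rw [update_self, U_five h5, hf]
  · by_cases hj4 : j = 4
    · subst hj4; simp [U]
    · by_cases hj3 : j = 3
      · subst hj3; simp [U]
      · by_cases ha : j = a
        · subst ha; simp [U, hj3, hj4, hj5]
        · simp [U, hj3, hj4, hj5, ha]

theorem run_cellCmd_nil (h5 : a ≠ 5) (h g : Option Bool → List Bool) (S : Store)
    (hS : S a = []) (hf : S 5 = []) : Run (cellCmd a h g) S S 5 := by
  have e1 := run_push 5 true S
  rw [hf] at e1
  have e2 : Run (.pop 5) (update S 5 [true]) S 1 := by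
    refine (run_pop 5 _).of_eq ?_ le_rfl
    simp [← hf]
  have hbody : Run (cellBody a h g) (update S 5 [true]) S _ :=
    Run.ite_nil (by rw [update_of_ne h5]; exact hS) e2
  have e3 : Run (.loop 5 (cellBody a h g)) (update S 5 [true]) S _ :=
    Run.loop_cons (by simp) hbody (Run.loop_nil hf)
  exact (e1.seq e3).mono (by omega)

/-- the tokens of the first cell of a list (nothing for the empty list) -/
def hdToks {α : Type} [PTCode α] : List α → List (Option Bool)
  | [] => []
  | x :: _ => toks (enc x)

theorem hdToks_tok {α : Type} [PTCode α] (l : List α) :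
    (hdToks l).flatMap tok = enc (l.take 1) := by
  cases l with
  | nil => rfl
  | cons x l => simp [hdToks, toks_flatMap_tok, pair_eq_cell]

theorem hdToks_dbl {α : Type} [PTCode α] (l : List α) :
    (hdToks l).flatMap dbl = (enc (l.take 1)).flatMap (fun b => [true, b]) := by
  cases l with
  | nil => rfl
  | cons x l => simp [hdToks, toks_flatMap_dbl, pair_eq_cell]

theorem sz_take_one_add_tail {α : Type} [PTCode α] (l : List α) :
    sz (l.take 1) + sz l.tail = sz l := by
  cases l <;> simp

theorem enc_take_one_tail {α : Type} [PTCode α] (l : List α) :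
    enc (l.take 1) ++ enc l.tail = enc l := by
  cases l <;> simp [pair_eq_cell]

/-- typed form: consume the first cell of the coded list on stack `a` -/
theorem run_cellList {α : Type} [PTCode α] (h3 : a ≠ 3) (h4 : a ≠ 4) (h5 : a ≠ 5)
    (h g : Option Bool → List Bool) (hb : ∀ o, (h o).length + (g o).length ≤ 4)
    (l : List α) (S : Store) (hS : S a = enc l) (hf : S 5 = []) :
    Run (cellCmd a h g) S
      (U S a (enc l.tail) (((hdToks l).flatMap h).reverse ++ S 3)
        (((hdToks l).flatMap g).reverse ++ S 4)) (6 * sz (l.take 1) + 6) := by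
  cases l with
  | nil =>
    refine (run_cellCmd_nil h5 h g S hS hf).of_eq ?_ (by simp)
    have hS' : S a = [] := hS
    simp only [U, hdToks, List.flatMap_nil, List.reverse_nil, List.nil_append, List.tail_nil,
      enc_nil]
    rw [← hS', update_eq_self, update_eq_self, update_eq_self]
  | cons x l =>
    refine (run_cellCmd h3 h4 h5 h g hb (enc x) (enc l) S (by rw [hS, enc_cons_cell]) hf).of_eq
      rfl ?_
    simp [sz]; omega

end cellmove

/-! ### stores with six stacks -/

/-- explicit small stores -/
def st6 (a b c d e f : List Bool) : Store := fun k =>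
  match k with
  | 0 => a
  | 1 => b
  | 2 => c
  | 3 => d
  | 4 => e
  | 5 => f
  | _ + 6 => []

theorem init_eq_st6 (z : List Bool) : init z = st6 z [] [] [] [] [] := by
  funext j; rcases j with _ | _ | _ | _ | _ | _ | j <;> simp [st6, init]

section st6

variable (a b c d e f v : List Bool)

@[simp] theorem st6_0 : st6 a b c d e f 0 = a := rfl
@[simp] theorem st6_1 : st6 a b c d e f 1 = b := rfl
@[simp] theorem st6_2 : st6 a b c d e f 2 = c := rfl
@[simp] theorem st6_3 : st6 a b c d e f 3 = d := rfl
@[simp] theorem st6_4 : st6 a b c d e f 4 = e := rfl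
@[simp] theorem st6_5 : st6 a b c d e f 5 = f := rfl

@[simp] theorem upd6_0 : update (st6 a b c d e f) 0 v = st6 v b c d e f := by
  funext j; rcases j with _ | _ | _ | _ | _ | _ | j <;> simp [st6]
@[simp] theorem upd6_1 : update (st6 a b c d e f) 1 v = st6 a v c d e f := by
  funext j; rcases j with _ | _ | _ | _ | _ | _ | j <;> simp [st6]
@[simp] theorem upd6_2 : update (st6 a b c d e f) 2 v = st6 a b v d e f := by
  funext j; rcases j with _ | _ | _ | _ | _ | _ | j <;> simp [st6]
@[simp] theorem upd6_3 : update (st6 a b c d e f) 3 v = st6 a b c v e f := by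
  funext j; rcases j with _ | _ | _ | _ | _ | _ | j <;> simp [st6]
@[simp] theorem upd6_4 : update (st6 a b c d e f) 4 v = st6 a b c d v f := by
  funext j; rcases j with _ | _ | _ | _ | _ | _ | j <;> simp [st6]
@[simp] theorem upd6_5 : update (st6 a b c d e f) 5 v = st6 a b c d e v := by
  funext j; rcases j with _ | _ | _ | _ | _ | _ | j <;> simp [st6]

end st6

/-! ### the control loop -/

/-- read tokens from stack `0` and execute the corresponding command -/
def ctl (c : Option Bool → Cmd) : Cmd :=
  .loop 0 (.ite 0 .skip
    (.seq (.pop 0) (.ite 0 .skip (.seq (.pop 0) (c (some true))) (.seq (.pop 0) (c (some false)))))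
    (.seq (.pop 0) (c none)))

theorem run_ctl {σ : Type} (St : List Bool → σ → Store) (h0 : ∀ r s, St r s 0 = r)
    (hu : ∀ r r' s, update (St r s) 0 r' = St r' s) (c : Option Bool → Cmd)
    (stp : σ → Option Bool → σ) (Φ : σ → ℤ) (K : ℕ)
    (hc : ∀ o r s, ∃ n : ℕ, Run (c o) (St r s) (St r (stp s o)) n ∧ n + Φ (stp s o) ≤ Φ s + K)
    (l : List (Option Bool)) (s : σ) :
    ∃ n : ℕ, Run (ctl c) (St (l.flatMap tok) s) (St [] (l.foldl stp s)) n ∧
      n + Φ (l.foldl stp s) ≤ Φ s + (K + 5) * l.length + 1 := by
  induction l generalizing s with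
  | nil => exact ⟨1, Run.loop_nil (h0 _ _), by simp; omega⟩
  | cons o l ih =>
    obtain ⟨n, hn, hn'⟩ := hc o (l.flatMap tok) s
    obtain ⟨m, hm, hm'⟩ := ih (stp s o)
    have hpop : ∀ (b : Bool) (r : List Bool), Run (.pop 0) (St (b :: r) s) (St r s) 1 :=
      fun b r => (run_pop 0 _).of_eq (by rw [h0, List.tail_cons, hu]) le_rfl
    have hbody : Run (.ite 0 .skip
        (.seq (.pop 0) (.ite 0 .skip (.seq (.pop 0) (c (some true)))
          (.seq (.pop 0) (c (some false))))) (.seq (.pop 0) (c none)))
        (St ((o :: l).flatMap tok) s) (St (l.flatMap tok) (stp s o)) (n + 4) := by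
      rcases o with _ | b
      · have e : (none :: l).flatMap tok = false :: l.flatMap tok := rfl
        rw [e]
        exact (Run.ite_false (h0 _ _) ((hpop _ _).seq hn)).mono (by omega)
      · have e : (some b :: l).flatMap tok = true :: b :: l.flatMap tok := rfl
        rw [e]
        cases b
        · exact (Run.ite_true (h0 _ _) ((hpop _ _).seq
            (Run.ite_false (h0 _ _) ((hpop _ _).seq hn)))).mono (by omega)
        · exact (Run.ite_true (h0 _ _) ((hpop _ _).seq
            (Run.ite_true (h0 _ _) ((hpop _ _).seq hn)))).mono (by omega)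
    have hne : St ((o :: l).flatMap tok) s 0 ≠ [] := by
      rw [h0]; cases o <;> simp [tok]
    refine ⟨1 + (n + 4) + m, Run.loop_cons hne hbody hm, ?_⟩
    simp only [List.foldl_cons, List.length_cons]
    push_cast at hm' hn' ⊢
    nlinarith

/-! ### actions on two lists and an output -/

/-- the elementary actions -/
inductive Act : Type
  | skip | take1 | take2 | drop1 | copy1 | take1d | take2d | close

section act

variable {α β : Type} [PTCode α] [PTCode β]

/-- the effect of an action on (first list, second list, output so far) -/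
def Act.sem : Act → List α × List β × List Bool → List α × List β × List Bool
  | .skip, s => s
  | .take1, s => (s.1.tail, s.2.1, s.2.2 ++ enc (s.1.take 1))
  | .take2, s => (s.1, s.2.1.tail, s.2.2 ++ enc (s.2.1.take 1))
  | .drop1, s => (s.1.tail, s.2.1, s.2.2)
  | .copy1, s => (s.1, s.2.1, s.2.2 ++ enc (s.1.take 1))
  | .take1d, s => (s.1.tail, s.2.1, s.2.2 ++ (enc (s.1.take 1)).flatMap (fun b => [true, b]))
  | .take2d, s => (s.1, s.2.1.tail, s.2.2 ++ (enc (s.2.1.take 1)).flatMap (fun b => [true, b]))
  | .close, s => (s.1, s.2.1, s.2.2 ++ [false])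

/-- the program of an action -/
def Act.cmd : Act → Cmd
  | .skip => .skip
  | .take1 => cellCmd 1 tok non
  | .take2 => cellCmd 2 tok non
  | .drop1 => cellCmd 1 non non
  | .copy1 => .seq (cellCmd 1 tok tok) (mv 4 1)
  | .take1d => cellCmd 1 dbl non
  | .take2d => cellCmd 2 dbl non
  | .close => .push 3 false

/-- the store of a state -/
def St (r : List Bool) (s : List α × List β × List Bool) : Store :=
  st6 r (enc s.1) (enc s.2.1) s.2.2.reverse [] []

/-- the potential -/
def Pot (s : List α × List β × List Bool) : ℤ :=
  10 * ((sz s.1 : ℤ) + sz s.2.1 - s.2.2.length)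

theorem hb_tok_non : ∀ o, (tok o).length + (non o).length ≤ 4 := by
  rintro (_ | _) <;> simp [tok, non]

theorem hb_non_non : ∀ o, (non o).length + (non o).length ≤ 4 := by
  rintro (_ | _) <;> simp [non]

theorem hb_tok_tok : ∀ o, (tok o).length + (tok o).length ≤ 4 := by
  rintro (_ | _) <;> simp [tok]

theorem hb_dbl_non : ∀ o, (dbl o).length + (non o).length ≤ 4 := by
  rintro (_ | _) <;> simp [tok, dbl, non]

theorem hb_und_non : ∀ o, (und o).length + (non o).length ≤ 4 := by
  rintro (_ | _) <;> simp [und, non]

theorem run_act (A : Act) (r : List Bool) (s : List α × List β × List Bool) :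
    ∃ n : ℕ, Run A.cmd (St r s) (St r (A.sem s)) n ∧ n + Pot (A.sem s) ≤ Pot s + (7 : ℕ) := by
  obtain ⟨xs, ys, o⟩ := s
  have hx := sz_take_one_add_tail xs
  have hy := sz_take_one_add_tail ys
  have ex : (enc (xs.take 1)).length = sz (xs.take 1) := rfl
  have ey : (enc (ys.take 1)).length = sz (ys.take 1) := rfl
  cases A with
  | skip => exact ⟨1, run_skip _, by simp only [Act.sem]; omega⟩
  | take1 =>
    refine ⟨_, (run_cellList (a := 1) (by decide) (by decide) (by decide) tok non hb_tok_non xs
      (St r (xs, ys, o)) rfl rfl).of_eq ?_ le_rfl, ?_⟩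
    · simp [U, St, Act.sem, hdToks_tok, flatMap_non]
    · simp only [Act.sem, Pot, List.length_append, ex]; omega
  | take2 =>
    refine ⟨_, (run_cellList (a := 2) (by decide) (by decide) (by decide) tok non hb_tok_non ys
      (St r (xs, ys, o)) rfl rfl).of_eq ?_ le_rfl, ?_⟩
    · simp [U, St, Act.sem, hdToks_tok, flatMap_non]
    · simp only [Act.sem, Pot, List.length_append, ey]; omega
  | drop1 =>
    refine ⟨_, (run_cellList (a := 1) (by decide) (by decide) (by decide) non non hb_non_non xs
      (St r (xs, ys, o)) rfl rfl).of_eq ?_ le_rfl, ?_⟩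
    · simp [U, St, Act.sem, flatMap_non]
    · simp only [Act.sem, Pot]; omega
  | copy1 =>
    have e1 : Run (cellCmd 1 tok tok) (St r (xs, ys, o))
        (st6 r (enc xs.tail) (enc ys) ((enc (xs.take 1)).reverse ++ o.reverse)
          (enc (xs.take 1)).reverse []) (6 * sz (xs.take 1) + 6) := by
      refine (run_cellList (a := 1) (by decide) (by decide) (by decide) tok tok hb_tok_tok xs
        (St r (xs, ys, o)) rfl rfl).of_eq ?_ le_rfl
      simp [U, St, hdToks_tok]
    refine ⟨_, (e1.seq (run_mv (by decide) _)).of_eq ?_ le_rfl, ?_⟩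
    · simp only [st6_4, st6_1, List.reverse_reverse, enc_take_one_tail, upd6_1, upd6_4, St,
        Act.sem, List.reverse_append]
    · simp only [Act.sem, Pot, List.length_append, ex, st6_4, List.length_reverse]; omega
  | take1d =>
    refine ⟨_, (run_cellList (a := 1) (by decide) (by decide) (by decide) dbl non hb_dbl_non xs
      (St r (xs, ys, o)) rfl rfl).of_eq ?_ le_rfl, ?_⟩
    · simp only [U, St, Act.sem, hdToks_dbl, flatMap_non, st6_3, st6_4, upd6_1, upd6_3, upd6_4,
        List.reverse_append, List.reverse_nil, List.append_nil]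
    · simp only [Act.sem, Pot, List.length_append]; omega
  | take2d =>
    refine ⟨_, (run_cellList (a := 2) (by decide) (by decide) (by decide) dbl non hb_dbl_non ys
      (St r (xs, ys, o)) rfl rfl).of_eq ?_ le_rfl, ?_⟩
    · simp only [U, St, Act.sem, hdToks_dbl, flatMap_non, st6_3, st6_4, upd6_2, upd6_3, upd6_4,
        List.reverse_append, List.reverse_nil, List.append_nil]
    · simp only [Act.sem, Pot, List.length_append]; omega
  | close =>
    refine ⟨1, (run_push 3 false _).of_eq ?_ le_rfl, ?_⟩
    · simp [St, Act.sem]
    · simp only [Act.sem, Pot, List.length_append]; omega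

theorem run_ctl_act (A : Option Bool → Act) (l : List (Option Bool))
    (s : List α × List β × List Bool) :
    ∃ n : ℕ, Run (ctl (fun o => (A o).cmd)) (St (l.flatMap tok) s)
      (St [] (l.foldl (fun s o => (A o).sem s) s)) n ∧
      n + Pot (l.foldl (fun s o => (A o).sem s) s) ≤ Pot s + 12 * l.length + 1 := by
  have := run_ctl (σ := List α × List β × List Bool) St (fun _ _ => rfl)
    (fun _ _ _ => by simp [St]) (fun o => (A o).cmd) (fun s o => (A o).sem s) Pot 7
    (fun o r s => run_act (A o) r s) l s
  simpa using this

theorem sem_sz_le (A : Act) (s : List α × List β × List Bool) :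
    sz (A.sem s).1 ≤ sz s.1 ∧ sz (A.sem s).2.1 ≤ sz s.2.1 := by
  have := sz_tail_le s.1
  have := sz_tail_le s.2.1
  cases A <;> simp only [Act.sem] <;> omega

theorem foldl_sem_sz_le (A : Option Bool → Act) (l : List (Option Bool))
    (s : List α × List β × List Bool) :
    sz (l.foldl (fun s o => (A o).sem s) s).1 ≤ sz s.1 ∧
      sz (l.foldl (fun s o => (A o).sem s) s).2.1 ≤ sz s.2.1 := by
  induction l generalizing s with
  | nil => simp
  | cons o l ih =>
    have h1 := ih ((A o).sem s)
    have h2 := sem_sz_le (A o) s
    simp only [List.foldl_cons]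
    omega

/-- unpack the first component of stack `0` to stack `k` -/
def unpack (k : ℕ) : Cmd := .seq (cellCmd 0 und non) (mv 3 k)

theorem run_unpack1 (x r : List Bool) :
    Run (unpack 1) (st6 (pair x r) [] [] [] [] []) (st6 r x [] [] [] []) (15 * x.length + 13) := by
  have e1 := run_cellCmd (a := 0) (by decide) (by decide) (by decide) und non hb_und_non x r
    (st6 (pair x r) [] [] [] [] []) (pair_eq_cell x r) rfl
  refine (e1.seq (run_mv (by decide) _)).of_eq ?_ ?_
  · simp [U, toks_flatMap_und, flatMap_non]
  · simp [U, toks_flatMap_und]; omega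

theorem run_unpack2 (x r y : List Bool) :
    Run (unpack 2) (st6 (pair x r) y [] [] [] []) (st6 r y x [] [] []) (15 * x.length + 13) := by
  have e1 := run_cellCmd (a := 0) (by decide) (by decide) (by decide) und non hb_und_non x r
    (st6 (pair x r) y [] [] [] []) (pair_eq_cell x r) rfl
  refine (e1.seq (run_mv (by decide) _)).of_eq ?_ ?_
  · simp [U, toks_flatMap_und, flatMap_non]
  · simp [U, toks_flatMap_und]; omega

/-- clean up and move the output to stack `0` -/
def finish : Cmd := .seq (clear 1) (.seq (clear 2) (mv 3 0))

theorem run_finish (x y o : List Bool) :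
    Run finish (st6 [] x y o.reverse [] []) (init o)
      (2 * x.length + 2 * y.length + 4 * o.length + 3) := by
  refine ((run_clear 1 _).seq ((run_clear 2 _).seq (run_mv (by decide) _))).of_eq ?_ ?_
  · simp [init_eq_st6]
  · simp; omega

/-- the whole transducer: input `(xs, ys, control)` -/
def prog (A : Option Bool → Act) : Cmd :=
  .seq (unpack 1) (.seq (unpack 2) (.seq (ctl (fun o => (A o).cmd)) finish))

/-- the output of the transducer -/
def out (A : Option Bool → Act) (l : List (Option Bool)) (xs : List α) (ys : List β) :
    List Bool := (l.foldl (fun s o => (A o).sem s) (xs, ys, [])).2.2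

theorem run_prog (A : Option Bool → Act) (l : List (Option Bool)) (xs : List α) (ys : List β) :
    Run (prog A) (init (pair (enc xs) (pair (enc ys) (l.flatMap tok)))) (init (out A l xs ys))
      (30 * (sz xs + sz ys + l.length + (out A l xs ys).length + 1)) := by
  obtain ⟨n, hn, hn'⟩ := run_ctl_act A l (xs, ys, ([] : List Bool))
  have hle := foldl_sem_sz_le A l (xs, ys, ([] : List Bool))
  have e1 := run_unpack1 (enc xs) (pair (enc ys) (l.flatMap tok))
  have e2 := run_unpack2 (enc ys) (l.flatMap tok) (enc xs)
  have e4 := run_finish (enc (l.foldl (fun s o => (A o).sem s) (xs, ys, ([] : List Bool))).1)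
    (enc (l.foldl (fun s o => (A o).sem s) (xs, ys, ([] : List Bool))).2.1) (out A l xs ys)
  rw [init_eq_st6]
  refine (e1.seq (e2.seq (Run.seq hn e4))).mono ?_
  simp only [Pot, sz, out] at hn' hle ⊢
  simp only [List.length_nil] at hn'
  omega

end act

end Crest.Agent.X326.Mg
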