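import Crest.Agent.X326.TC.Core
import Crest.Agent.X326.TC.MergeRaw

/-!
# Row 326, machine layer: merge, filter, monotone gather, chunks

* `mergeBy bs xs ys` : flag `true` takes the next element of `xs`, flag `false` the next of `ys`.
* `filterBy bs xs`   : keep the elements whose flag is `true`.
* `walk bs xs`       : flag `true` emits the current element (and keeps it), `false` drops it.
* `gatherGaps gs xs` : for each gap `g`: drop `g` elements, emit the current one (and keep it).
* `List.splitLengths ns xs` with the lengths in unary.
* `chunks n xs`      : consecutive blocks of `n` elements (`n` in unary).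

All are linear in the input size (`walk`, `gatherGaps`: input plus output size).
Index-level specifications are in `MergeSpec.lean`.
-/

set_option autoImplicit false

namespace Crest.Agent.X326

open Crest.Agent.Lib.PT Function

section defs

variable {α : Type}

/-- merge two lists along a list of flags (`true`: first list); an exhausted list yields nothing -/
def mergeBy : List Bool → List α → List α → List α
  | [], _, _ => []
  | true :: bs, xs, ys => xs.take 1 ++ mergeBy bs xs.tail ys
  | false :: bs, xs, ys => ys.take 1 ++ mergeBy bs xs ys.tail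

/-- keep the elements whose flag is `true` -/
def filterBy : List Bool → List α → List α
  | [], _ => []
  | true :: bs, xs => xs.take 1 ++ filterBy bs xs.tail
  | false :: bs, xs => filterBy bs xs.tail

/-- `true`: emit the current element, `false`: advance -/
def walk : List Bool → List α → List α
  | [], _ => []
  | true :: bs, xs => xs.take 1 ++ walk bs xs
  | false :: bs, xs => walk bs xs.tail

/-- for each gap `g`: advance by `g`, emit the current element -/
def gatherGaps : List ℕ → List α → List α
  | [], _ => []
  | g :: gs, xs => (xs.drop g).take 1 ++ gatherGaps gs (xs.drop g)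

/-- consecutive blocks of `n` elements (the last one may be shorter; nothing for `n = 0`) -/
def chunks (n : ℕ) (l : List α) : List (List α) :=
  if _h : l = [] ∨ n = 0 then [] else l.take n :: chunks n (l.drop n)
termination_by l.length
decreasing_by
  have h1 : l ≠ [] := fun e => _h (Or.inl e)
  have h2 : 0 < l.length := List.length_pos_of_ne_nil h1
  have h3 : n ≠ 0 := fun e => _h (Or.inr e)
  simp only [List.length_drop]
  omega

@[simp] theorem chunks_nil (n : ℕ) : chunks n ([] : List α) = [] := by
  rw [chunks]; simp

@[simp] theorem chunks_zero (l : List α) : chunks 0 l = [] := by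
  rw [chunks]; simp

theorem chunks_of_ne {n : ℕ} {l : List α} (hn : n ≠ 0) (hl : l ≠ []) :
    chunks n l = l.take n :: chunks n (l.drop n) := by
  rw [chunks, dif_neg (by simp [hn, hl])]

end defs

/-! ### sizes -/

section sizes

variable {α : Type} [PTCode α]

theorem sz_mergeBy_le (bs : List Bool) (xs ys : List α) :
    sz (mergeBy bs xs ys) ≤ sz xs + sz ys := by
  induction bs generalizing xs ys with
  | nil => simp [mergeBy]
  | cons b bs ih =>
    have h1 := Mg.sz_take_one_add_tail xs
    have h2 := Mg.sz_take_one_add_tail ys
    cases b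
    · have := ih xs ys.tail
      rw [mergeBy, sz_append]; omega
    · have := ih xs.tail ys
      rw [mergeBy, sz_append]; omega

theorem sz_filterBy_le (bs : List Bool) (xs : List α) : sz (filterBy bs xs) ≤ sz xs := by
  induction bs generalizing xs with
  | nil => simp [filterBy]
  | cons b bs ih =>
    have h1 := Mg.sz_take_one_add_tail xs
    have := ih xs.tail
    cases b
    · rw [filterBy]; omega
    · rw [filterBy, sz_append]; omega

theorem sz_take_add_drop (n : ℕ) (l : List α) : sz (l.take n) + sz (l.drop n) = sz l := by
  rw [← sz_append, List.take_append_drop]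

theorem sz_splitLengths_le (ns : List ℕ) (l : List α) :
    sz (ns.splitLengths l) ≤ 2 * sz l + ns.length := by
  induction ns generalizing l with
  | nil => simp
  | cons n ns ih =>
    have := ih (l.drop n)
    have := sz_take_add_drop n l
    simp only [List.splitLengths_cons, sz_cons, List.length_cons]
    omega

theorem sz_chunks_le (n : ℕ) (l : List α) : sz (chunks n l) ≤ 3 * sz l := by
  induction hl : l.length using Nat.strong_induction_on generalizing l with
  | _ k ih =>
    by_cases h : l = [] ∨ n = 0
    · rcases h with h | h <;> simp [h]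
    · have h1 : l ≠ [] := fun e => h (Or.inl e)
      have h3 : n ≠ 0 := fun e => h (Or.inr e)
      have h2 : 0 < l.length := List.length_pos_of_ne_nil h1
      have h4 := ih (l.drop n).length (by simp; omega) (l.drop n) rfl
      have h5 := sz_take_add_drop n l
      have h6 := length_le_sz (l.take n)
      have h7 : 0 < (l.take n).length := by simp; omega
      rw [chunks_of_ne h3 h1, sz_cons]
      omega

end sizes

/-! ### the transducer as a typed function -/

namespace Mg

variable {α β γ δ : Type} [PTCode α] [PTCode β] [PTCode γ] [PTCode δ]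

/-- the control tokens of a coded list -/
def ctlToks (L : List γ) : List (Option Bool) := L.flatMap (fun c => toks (enc c))

theorem tc_prog (A : Option Bool → Act) (F : List α × List β × List γ → δ)
    (hF : ∀ p, enc (F p) = out A (ctlToks p.2.2) p.1 p.2.1) :
    TC (fun _ => True) (fun p => sz (F p)) F := by
  refine TC.of_run (prog A) (n := fun p => 30 * (sz p.1 + sz p.2.1 + (ctlToks p.2.2).length +
    sz (F p) + 1)) (Bud.of_le 30 30 30 (fun p _ => ?_)) (fun p _ => ?_)
  · have h := length_le_flatMap_tok (ctlToks p.2.2)
    rw [ctlToks, ← enc_eq_toks] at h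
    have h2 : sz p = 2 * sz p.1 + 1 + (2 * sz p.2.1 + 1 + sz p.2.2) := by simp
    have h3 : sz p.2.2 = (enc p.2.2).length := rfl
    rw [ctlToks]
    omega
  · have h := run_prog A (ctlToks p.2.2) p.1 p.2.1
    rw [← hF] at h
    have e : enc p = pair (enc p.1) (pair (enc p.2.1) ((ctlToks p.2.2).flatMap tok)) := by
      rw [ctlToks, ← enc_eq_toks]; rfl
    rw [e]
    exact h

theorem ctlToks_cons (c : γ) (L : List γ) : ctlToks (c :: L) = toks (enc c) ++ ctlToks L := by
  simp [ctlToks]

theorem ctlToks_bool (b : Bool) (L : List Bool) :
    ctlToks (b :: L) = some b :: none :: ctlToks L := by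
  rw [ctlToks_cons]; rfl

theorem ctlToks_un (n : Un) (L : List Un) :
    ctlToks (n :: L) = List.replicate n.val (some true) ++ none :: ctlToks L := by
  rw [ctlToks_cons]; simp [toks]

/-- control of `mergeBy` -/
def aMerge : Option Bool → Act
  | some true => .take1
  | some false => .take2
  | none => .skip

theorem fold_merge (bs : List Bool) (xs ys : List α) (o : List Bool) :
    ((ctlToks bs).foldl (fun s o => (aMerge o).sem s) (xs, ys, o)).2.2 =
      o ++ enc (mergeBy bs xs ys) := by
  induction bs generalizing xs ys o with
  | nil => simp [ctlToks, mergeBy]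
  | cons b bs ih =>
    rw [ctlToks_bool]
    cases b <;> simp [aMerge, Act.sem, mergeBy, enc_append] <;> exact (ih _ _ _).trans (by simp)

/-- control of `filterBy` -/
def aFilter : Option Bool → Act
  | some true => .take1
  | some false => .drop1
  | none => .skip

theorem fold_filter (bs : List Bool) (xs : List α) (ys : List β) (o : List Bool) :
    ((ctlToks bs).foldl (fun s o => (aFilter o).sem s) (xs, ys, o)).2.2 =
      o ++ enc (filterBy bs xs) := by
  induction bs generalizing xs o with
  | nil => simp [ctlToks, filterBy]
  | cons b bs ih =>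
    rw [ctlToks_bool]
    cases b <;> simp [aFilter, Act.sem, filterBy, enc_append] <;> exact (ih _ _).trans (by simp)

/-- control of `walk` -/
def aWalk : Option Bool → Act
  | some true => .copy1
  | some false => .drop1
  | none => .skip

theorem fold_walk (bs : List Bool) (xs : List α) (ys : List β) (o : List Bool) :
    ((ctlToks bs).foldl (fun s o => (aWalk o).sem s) (xs, ys, o)).2.2 =
      o ++ enc (walk bs xs) := by
  induction bs generalizing xs o with
  | nil => simp [ctlToks, walk]
  | cons b bs ih =>
    rw [ctlToks_bool]
    cases b <;> simp [aWalk, Act.sem, walk, enc_append] <;> exact (ih _ _).trans (by simp)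

/-- control of `gatherGaps` -/
def aGather : Option Bool → Act
  | some _ => .drop1
  | none => .copy1

theorem fold_gather_rep (n : ℕ) (xs : List α) (ys : List β) (o : List Bool) :
    (List.replicate n (some true)).foldl (fun s o => (aGather o).sem s) (xs, ys, o) =
      (xs.drop n, ys, o) := by
  induction n generalizing xs with
  | zero => rfl
  | succ n ih =>
    rw [List.replicate_succ, List.foldl_cons]
    exact (ih xs.tail).trans (by simp)

theorem fold_gather (gs : List Un) (xs : List α) (ys : List β) (o : List Bool) :
    ((ctlToks gs).foldl (fun s o => (aGather o).sem s) (xs, ys, o)).2.2 =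
      o ++ enc (gatherGaps (gs.map Un.val) xs) := by
  induction gs generalizing xs o with
  | nil => simp [ctlToks, gatherGaps]
  | cons g gs ih =>
    rw [ctlToks_un, List.foldl_append, fold_gather_rep, List.foldl_cons]
    exact (ih _ _).trans (by simp [gatherGaps, enc_append])

/-- control of `splitLengths` and `chunks` -/
def aSplit : Option Bool → Act
  | some _ => .take1d
  | none => .close

theorem fold_split_rep (n : ℕ) (xs : List α) (ys : List β) (o : List Bool) :
    (List.replicate n (some true)).foldl (fun s o => (aSplit o).sem s) (xs, ys, o) =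
      (xs.drop n, ys, o ++ (enc (xs.take n)).flatMap (fun b => [true, b])) := by
  induction n generalizing xs o with
  | zero => simp
  | succ n ih =>
    rw [List.replicate_succ, List.foldl_cons]
    refine (ih xs.tail _).trans ?_
    cases xs with
    | nil => simp
    | cons x xs => simp [pair_eq_cell]

theorem fold_split_one (n : ℕ) (xs : List α) (ys : List β) (o : List Bool) :
    (List.replicate n (some true) ++ [none]).foldl (fun s o => (aSplit o).sem s) (xs, ys, o) =
      (xs.drop n, ys, o ++ cell (enc (xs.take n))) := by
  rw [List.foldl_append, fold_split_rep]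
  simp [aSplit, Act.sem, cell]

theorem fold_split (ns : List Un) (xs : List α) (ys : List β) (o : List Bool) :
    ((ctlToks ns).foldl (fun s o => (aSplit o).sem s) (xs, ys, o)).2.2 =
      o ++ enc ((ns.map Un.val).splitLengths xs) := by
  induction ns generalizing xs o with
  | nil => simp [ctlToks]
  | cons g gs ih =>
    rw [ctlToks_un, List.append_cons, List.foldl_append, fold_split_one]
    exact (ih _ _).trans (by simp [pair_eq_cell])

/-! ### the program for `chunks` -/

/-- one block -/
def chunkBody : Cmd := .seq (mv 2 4) (.seq (mv2 4 0 2) (ctl (fun o => (aSplit o).cmd)))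

theorem run_chunkLoop {n : ℕ} (hn : n ≠ 0) (xs : List α) (o : List Bool) :
    Run (.loop 1 chunkBody) (St [] (xs, [Un.mk n], o)) (St [] (([] : List α), [Un.mk n],
      o ++ enc (chunks n xs))) (100 * sz xs + 30 * n + 41) := by
  induction hl : xs.length using Nat.strong_induction_on generalizing xs o with
  | _ k ih =>
    by_cases hx : xs = []
    · subst hx
      refine (Run.loop_nil (k := 1) (c := chunkBody) rfl).of_eq (by simp) (by omega)
    · have hpos : 0 < xs.length := List.length_pos_of_ne_nil hx
      have ew : enc [Un.mk n] = (List.replicate n (some true) ++ [none]).flatMap tok := by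
        rw [enc_eq_toks]; simp [toks]
      have lw : (enc [Un.mk n]).length = 2 * n + 1 := by simp
      have e1 : Run (mv 2 4) (St [] (xs, [Un.mk n], o))
          (st6 [] (enc xs) [] o.reverse (enc [Un.mk n]).reverse []) (4 * (2 * n + 1) + 1) := by
        refine (run_mv (by decide) _).of_eq ?_ ?_
        · simp only [St, st6_2, st6_4, upd6_4, upd6_2, List.append_nil]
        · simp only [St, st6_2, lw]; exact le_rfl
      have e2 : Run (mv2 4 0 2) (st6 [] (enc xs) [] o.reverse (enc [Un.mk n]).reverse [])
          (St (enc [Un.mk n]) (xs, [Un.mk n], o)) (5 * (2 * n + 1) + 1) := by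
        refine (run_mv2 (by decide) (by decide) (by decide) _).of_eq ?_ ?_
        · simp only [St, st6_0, st6_2, st6_4, upd6_4, upd6_2, upd6_0, List.append_nil,
            List.reverse_reverse]
        · simp only [st6_4, List.length_reverse, lw]; exact le_rfl
      obtain ⟨m, hm, hm'⟩ := run_ctl_act aSplit (List.replicate n (some true) ++ [none])
        (xs, [Un.mk n], o)
      rw [← ew, fold_split_one] at hm
      rw [fold_split_one] at hm'
      have hrec := ih (xs.drop n).length (by simp; omega) (xs.drop n)
        (o ++ cell (enc (xs.take n))) rfl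
      have hne : St [] (xs, [Un.mk n], o) 1 ≠ [] := by
        obtain ⟨x, xs', rfl⟩ := List.exists_cons_of_ne_nil hx
        simp [St, pair_ne_nil]
      have h5 := sz_take_add_drop n xs
      have h6 := length_le_sz (xs.take n)
      have h7 : (xs.take n).length = min n xs.length := by simp
      have h8 : (cell (enc (xs.take n))).length = 2 * sz (xs.take n) + 1 := length_cell _
      simp only [Pot, List.length_append, h8, List.length_replicate, List.length_singleton] at hm'
      by_cases hd : xs.drop n = []
      · have hend : Run (.loop 1 chunkBody)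
            (St [] (xs.drop n, [Un.mk n], o ++ cell (enc (xs.take n)))) _ 1 :=
          Run.loop_nil (by rw [hd]; rfl)
        refine (Run.loop_cons hne (e1.seq (e2.seq hm)) hend).of_eq ?_ ?_
        · rw [chunks_of_ne hn hx, hd, chunks_nil, enc_cons_cell]; simp
        · rw [hd] at h5 hm'
          simp only [sz_nil] at h5 hm'
          omega
      · have h9 : n < xs.length := by
          by_contra hc
          exact hd (List.drop_eq_nil_of_le (by omega))
        refine (Run.loop_cons hne (e1.seq (e2.seq hm)) hrec).of_eq ?_ ?_
        · rw [chunks_of_ne hn hx, enc_cons_cell]; simp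
        · omega

/-- the whole program for `chunks`: input `(n, xs)` -/
def chunkProg : Cmd :=
  .seq (cellCmd 0 tok non) (.seq (mv 3 2) (.seq (mv 0 3) (.seq (mv 3 1)
    (.seq (.ite 2 .skip (.loop 1 chunkBody) .skip) finish))))

theorem run_chunkProg (n : ℕ) (xs : List α) :
    Run chunkProg (init (enc (Un.mk n, xs))) (init (enc (chunks n xs)))
      (130 * sz xs + 60 * n + 70) := by
  have ew : enc [Un.mk n] = cell (List.replicate n true) := by simp [pair_eq_cell]
  have lw : (enc [Un.mk n]).length = 2 * n + 1 := by simp
  have lx : (enc xs).length = sz xs := rfl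
  have e1 : Run (cellCmd 0 tok non) (st6 (enc (Un.mk n, xs)) [] [] [] [] [])
      (st6 (enc xs) [] [] (enc [Un.mk n]).reverse [] []) (11 * n + 12) := by
    refine (run_cellCmd (a := 0) (by decide) (by decide) (by decide) tok non hb_tok_non
      (List.replicate n true) (enc xs) _ (pair_eq_cell _ _) rfl).of_eq ?_ (by simp)
    rw [ew]
    simp [U, toks_flatMap_tok, flatMap_non]
  have e2 : Run (mv 3 2) (st6 (enc xs) [] [] (enc [Un.mk n]).reverse [] [])
      (st6 (enc xs) [] (enc [Un.mk n]) [] [] []) (4 * (2 * n + 1) + 1) := by
    refine (run_mv (by decide) _).of_eq ?_ ?_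
    · simp only [st6_2, st6_3, upd6_2, upd6_3, List.append_nil, List.reverse_reverse]
    · simp only [st6_3, List.length_reverse, lw]; exact le_rfl
  have e3 : Run (mv 0 3) (st6 (enc xs) [] (enc [Un.mk n]) [] [] [])
      (st6 [] [] (enc [Un.mk n]) (enc xs).reverse [] []) (4 * sz xs + 1) := by
    refine (run_mv (by decide) _).of_eq ?_ ?_
    · simp only [st6_0, st6_3, upd6_0, upd6_3, List.append_nil]
    · simp only [st6_0, lx]; exact le_rfl
  have e4 : Run (mv 3 1) (st6 [] [] (enc [Un.mk n]) (enc xs).reverse [] [])
      (St [] (xs, [Un.mk n], [])) (4 * sz xs + 1) := by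
    refine (run_mv (by decide) _).of_eq ?_ ?_
    · simp only [St, st6_1, st6_3, upd6_1, upd6_3, List.append_nil, List.reverse_reverse,
        List.reverse_nil]
    · simp only [st6_3, List.length_reverse, lx]; exact le_rfl
  have hsz := sz_chunks_le n xs
  rw [init_eq_st6 (enc (Un.mk n, xs))]
  rcases Nat.eq_zero_or_pos n with rfl | hn
  · have e5 : Run (.ite 2 .skip (.loop 1 chunkBody) .skip) (St [] (xs, [Un.mk 0], []))
        (St [] (xs, [Un.mk 0], [])) (1 + 1) := Run.ite_false (l := []) rfl (run_skip _)
    have e6 := run_finish (enc xs) (enc [Un.mk 0]) []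
    refine (e1.seq (e2.seq (e3.seq (e4.seq (e5.seq e6))))).of_eq (by simp) ?_
    simp only [lx, lw, List.length_nil]
    omega
  · obtain ⟨n, rfl⟩ : ∃ m, n = m + 1 := ⟨n - 1, by omega⟩
    have e5 : Run (.ite 2 .skip (.loop 1 chunkBody) .skip) (St [] (xs, [Un.mk (n + 1)], []))
        _ _ := Run.ite_true (l := true :: cell (List.replicate n true))
        (by simp only [St, st6_2, ew, List.replicate_succ, cell_cons])
        (run_chunkLoop (Nat.succ_ne_zero n) xs [])
    have e6 := run_finish [] (enc [Un.mk (n + 1)]) (enc (chunks (n + 1) xs))
    refine (e1.seq (e2.seq (e3.seq (e4.seq (e5.seq e6))))).mono ?_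
    have lc : (enc (chunks (n + 1) xs)).length = sz (chunks (n + 1) xs) := rfl
    simp only [lc, lw, List.length_nil]
    omega

end Mg

/-! ### the typed statements -/

section tc

variable {ι α : Type} [PTCode ι] [PTCode α] {P : ι → Prop} {T : ι → ℕ}

@[fun_prop]
theorem TC.mergeBy {b : ι → List Bool} {x y : ι → List α} (hb : TC P T b) (hx : TC P T x)
    (hy : TC P T y) : TC P T (fun a => mergeBy (b a) (x a) (y a)) := by
  have h := Mg.tc_prog Mg.aMerge
    (fun p : List α × List α × List Bool => X326.mergeBy p.2.2 p.1 p.2.1)
    (fun p => by simp [Mg.out, Mg.fold_merge])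
  refine TC.comp (f := fun a => (x a, y a, b a)) h (hx.prodMk (hy.prodMk hb))
    (fun _ _ => trivial) ((hx.sz.add hy.sz).mono (fun a _ => sz_mergeBy_le _ _ _))

@[fun_prop]
theorem TC.filterBy {b : ι → List Bool} {x : ι → List α} (hb : TC P T b) (hx : TC P T x) :
    TC P T (fun a => filterBy (b a) (x a)) := by
  have h := Mg.tc_prog Mg.aFilter
    (fun p : List α × List Unit × List Bool => X326.filterBy p.2.2 p.1)
    (fun p => by simp [Mg.out, Mg.fold_filter])
  refine TC.comp (f := fun a => (x a, ([] : List Unit), b a)) h
    (hx.prodMk ((TC.const _).prodMk hb)) (fun _ _ => trivial)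
    (hx.sz.mono (fun a _ => sz_filterBy_le _ _))

/-- `walk` costs input plus output size -/
theorem TC.walk {b : ι → List Bool} {x : ι → List α} (hb : TC P T b) (hx : TC P T x)
    (ho : Bud P T (fun a => Lib.PT.sz (walk (b a) (x a)))) :
    TC P T (fun a => walk (b a) (x a)) := by
  have h := Mg.tc_prog Mg.aWalk
    (fun p : List α × List Unit × List Bool => X326.walk p.2.2 p.1)
    (fun p => by simp [Mg.out, Mg.fold_walk])
  exact TC.comp (f := fun a => (x a, ([] : List Unit), b a)) h
    (hx.prodMk ((TC.const _).prodMk hb)) (fun _ _ => trivial) ho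

/-- `gatherGaps` (gaps in unary) costs input plus output size -/
theorem TC.gatherGaps {g : ι → List Un} {x : ι → List α} (hg : TC P T g) (hx : TC P T x)
    (ho : Bud P T (fun a => Lib.PT.sz (gatherGaps ((g a).map Un.val) (x a)))) :
    TC P T (fun a => gatherGaps ((g a).map Un.val) (x a)) := by
  have h := Mg.tc_prog Mg.aGather
    (fun p : List α × List Unit × List Un => X326.gatherGaps (p.2.2.map Un.val) p.1)
    (fun p => by simp [Mg.out, Mg.fold_gather])
  exact TC.comp (f := fun a => (x a, ([] : List Unit), g a)) h
    (hx.prodMk ((TC.const _).prodMk hg)) (fun _ _ => trivial) ho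

/-- split a list into blocks of given unary lengths -/
theorem TC.splitLengths {n : ι → List Un} {x : ι → List α} (hn : TC P T n) (hx : TC P T x) :
    TC P T (fun a => ((n a).map Un.val).splitLengths (x a)) := by
  have h := Mg.tc_prog Mg.aSplit
    (fun p : List α × List Unit × List Un => (p.2.2.map Un.val).splitLengths p.1)
    (fun p => by simp [Mg.out, Mg.fold_split])
  refine TC.comp (f := fun a => (x a, ([] : List Unit), n a)) h
    (hx.prodMk ((TC.const _).prodMk hn)) (fun _ _ => trivial)
    (((hx.sz.const_mul 2).add hn.sz).mono (fun a _ => ?_))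
  have h1 := sz_splitLengths_le ((n a).map Un.val) (x a)
  have h2 := length_le_sz (n a)
  simp only [List.length_map] at h1
  exact h1.trans (by omega)

theorem Lin.chunks : Lin (fun p : Un × List α => chunks p.1.val p.2) := by
  refine TC.of_run Mg.chunkProg (n := fun p => 130 * Lib.PT.sz p.2 + 60 * p.1.val + 70)
    (Bud.of_le 0 130 70 (fun p _ => ?_)) (fun p _ => Mg.run_chunkProg p.1.val p.2)
  have : Lib.PT.sz p = 2 * p.1.val + 1 + Lib.PT.sz p.2 := by simp
  omega

/-- blocks of `n` elements, `n` in unary -/
theorem TC.chunks {n : ι → ℕ} {x : ι → List α} (hn : TC P T (fun a => Un.mk (n a)))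
    (hx : TC P T x) : TC P T (fun a => chunks (n a) (x a)) :=
  TC.comp₂ (g := fun (u : Un) (l : List α) => X326.chunks u.val l) Lin.chunks hn hx

/-- blocks of `u.val` elements -/
@[fun_prop]
theorem TC.chunksUn {u : ι → Un} {x : ι → List α} (hu : TC P T u) (hx : TC P T x) :
    TC P T (fun a => X326.chunks (u a).val (x a)) :=
  TC.comp₂ (g := fun (u : Un) (l : List α) => X326.chunks u.val l) Lin.chunks hu hx

theorem Lin.mergeBy : Lin (fun p : List Bool × List α × List α => mergeBy p.1 p.2.1 p.2.2) :=
  TC.mergeBy TC.id.fst TC.id.snd.fst TC.id.snd.snd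

theorem Lin.filterBy : Lin (fun p : List Bool × List α => filterBy p.1 p.2) :=
  TC.filterBy TC.id.fst TC.id.snd

theorem Lin.splitLengths :
    Lin (fun p : List Un × List α => (p.1.map Un.val).splitLengths p.2) :=
  TC.splitLengths TC.id.fst TC.id.snd

end tc

end Crest.Agent.X326
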