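import Crest.Agent.X326.TC.Cases
import Crest.Agent.X326.TC.ListLin
import Crest.Agent.X326.TC.MapAccum
import Crest.Agent.X326.TC.MergeSpec
import Crest.Agent.X326.TC.Un

/-!
# Row 326, machine layer: moving address bits, transposition in logarithmically many passes

* `regroup A B l` : read `l` as `[R][2][A]`, write it as `[R'][2][B]` (`R * A = R' * B`): the address
  bit of weight `A` is moved to the weight `B`.  Linear time.
* `trOut b X l` : shape `[R][2 ^ b][X]` to shape `[R][X][2 ^ b]`, `b` passes.
* `trIn b X l`  : shape `[R][X][2 ^ b]` to shape `[R][2 ^ b][X]`, `b` passes.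
-/

set_option autoImplicit false

namespace Crest.Agent.X326

open Crest.Agent.Lib.PT Function

namespace Tr

/-- `n` periods of `A` flags `c` followed by `A` flags `!c` -/
def pat (c : Bool) (A n : ℕ) : List Bool :=
  (List.replicate n (List.replicate A c ++ List.replicate A (!c))).flatten

theorem pat_not (c : Bool) (A n : ℕ) : pat (!c) A n = (pat c A n).map not := by
  simp [pat, List.map_flatten]

theorem pat_eq_map (c : Bool) {A : ℕ} (hA : 0 < A) (n : ℕ) :
    pat c A n = (List.range (n * (2 * A))).map (fun k => if k / A % 2 = 0 then c else !c) := by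
  have h1 : List.replicate A c ++ List.replicate A (!c) =
      (List.range (2 * A)).map (fun j => if j < A then c else !c) := by
    apply List.ext_getElem
    · simp; omega
    · intro i h1 h2
      simp only [List.getElem_append, List.length_replicate, List.getElem_replicate,
        List.getElem_map, List.getElem_range]
      split_ifs <;> rfl
  have h2 : List.replicate n (List.replicate A c ++ List.replicate A (!c)) =
      (List.range n).map (fun _ => (List.range (2 * A)).map (fun j => if j < A then c else !c)) := by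
    rw [h1]; simp
  rw [pat, h2, flatten_map_range n (2 * A) (fun _ j => if j < A then c else !c)]
  refine List.map_congr_left (fun k _ => ?_)
  have h3 : k % (2 * A) / A = k / A % 2 := by
    rw [mul_comm 2 A, Nat.mod_mul_right_div_self]
  have h4 : k % (2 * A) < A ↔ k / A % 2 = 0 := by
    rw [← h3, Nat.div_eq_zero_iff]; omega
  simp only [h4]

/-- the address with the bit `e` inserted at weight `A` -/
def ins (A e u : ℕ) : ℕ := (u / A * 2 + e) * A + u % A

/-- the address with the bit of weight `A` deleted -/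
def del (A k : ℕ) : ℕ := k / (2 * A) * A + k % A

theorem ins_div {A : ℕ} (hA : 0 < A) (e u : ℕ) : ins A e u / A = u / A * 2 + e := by
  rw [ins, add_comm, Nat.add_mul_div_right _ _ hA, Nat.div_eq_of_lt (Nat.mod_lt _ hA), zero_add]

theorem ins_mod (A e u : ℕ) : ins A e u % A = u % A := by
  rw [ins, add_comm, Nat.add_mul_mod_self_right, Nat.mod_mod]

theorem del_ins {A e : ℕ} (hA : 0 < A) (he : e < 2) (u : ℕ) : del A (ins A e u) = u := by
  rw [del, ins_mod, mul_comm 2 A, ← Nat.div_div_eq_div_mul, ins_div hA]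
  have : (u / A * 2 + e) / 2 = u / A := by omega
  rw [this, Nat.div_add_mod']

theorem del_div {A : ℕ} (hA : 0 < A) (k : ℕ) : del A k / A = k / A / 2 := by
  rw [del, add_comm, Nat.add_mul_div_right _ _ hA, Nat.div_eq_of_lt (Nat.mod_lt _ hA), zero_add,
    mul_comm 2 A, Nat.div_div_eq_div_mul]

theorem del_mod (A k : ℕ) : del A k % A = k % A := by
  rw [del, add_comm, Nat.add_mul_mod_self_right, Nat.mod_mod]

theorem ins_del {A : ℕ} (hA : 0 < A) (k : ℕ) : ins A (k / A % 2) (del A k) = k := by
  rw [ins, del_div hA, del_mod, Nat.div_add_mod', Nat.div_add_mod']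

theorem ins_lt_ins {A : ℕ} (hA : 0 < A) (e : ℕ) {u v : ℕ} (h : u < v) : ins A e u < ins A e v := by
  have h1 : u / A ≤ v / A := Nat.div_le_div_right h.le
  have hu := Nat.div_add_mod' u A
  have hv := Nat.div_add_mod' v A
  have hu' := Nat.mod_lt u hA
  unfold ins
  rcases h1.eq_or_lt with h2 | h2
  · rw [h2] at hu ⊢; omega
  · have : (u / A * 2 + e + 1) * A ≤ (v / A * 2 + e) * A := Nat.mul_le_mul_right _ (by omega)
    rw [add_mul, one_mul] at this
    omega

theorem ins_lt {A e R u : ℕ} (hA : 0 < A) (he : e < 2) (hu : u < R * A) :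
    ins A e u < R * (2 * A) := by
  have h1 : u / A < R := (Nat.div_lt_iff_lt_mul hA).2 hu
  have h2 : ins A e u / A < R * 2 := by rw [ins_div hA]; omega
  rw [← mul_assoc]
  exact (Nat.div_lt_iff_lt_mul hA).1 h2

theorem del_lt {A R k : ℕ} (hA : 0 < A) (hk : k < R * (2 * A)) : del A k < R * A := by
  rw [← mul_assoc] at hk
  have h1 : k / A < R * 2 := (Nat.div_lt_iff_lt_mul hA).2 hk
  have h2 : del A k / A < R := by rw [del_div hA]; omega
  exact (Nat.div_lt_iff_lt_mul hA).1 h2

theorem filter_range {A e : ℕ} (hA : 0 < A) (he : e < 2) (R : ℕ) (p : ℕ → Bool)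
    (hp : ∀ k, p k = true ↔ k / A % 2 = e) :
    (List.range (R * (2 * A))).filter p = (List.range (R * A)).map (ins A e) := by
  refine List.Pairwise.eq_of_mem_iff (r := (· < ·)) (List.pairwise_lt_range.filter _) ?_ ?_
  · rw [List.pairwise_map]
    exact List.pairwise_lt_range.imp (fun h => ins_lt_ins hA e h)
  · intro k
    simp only [List.mem_filter, List.mem_range, List.mem_map, hp]
    constructor
    · rintro ⟨h1, h2⟩
      exact ⟨del A k, del_lt hA h1, by rw [← h2, ins_del hA]⟩
    · rintro ⟨u, hu, rfl⟩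
      refine ⟨ins_lt hA he hu, ?_⟩
      rw [ins_div hA]; omega

end Tr

open Tr

section defs

variable {α : Type}

/-- the number of blocks of `2 * A` elements -/
def Tr.nblk (A : ℕ) (l : List α) : ℕ := (chunks (2 * A) l).length

/-- the half of `l`, read as `[R][2][A]`, with middle bit `0` (for `c = true`) or `1` -/
def Tr.half (c : Bool) (A : ℕ) (l : List α) : List α := filterBy (pat c A (nblk A l)) l

/-- read `l` as `[R][2][A]`, write it as `[R'][2][B]` -/
def regroup (A B : ℕ) (l : List α) : List α :=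
  mergeBy (pat true B (nblk B l)) (half true A l) (half false A l)

/-- `[R][2 ^ b][X]` to `[R][X][2 ^ b]` -/
def trOut (b X : ℕ) (l : List α) : List α := (regroup (X * 2 ^ (b - 1)) 1)^[b] l

/-- `[R][X][2 ^ b]` to `[R][2 ^ b][X]` -/
def trIn (b X : ℕ) (l : List α) : List α := (regroup 1 (X * 2 ^ (b - 1)))^[b] l

theorem Tr.nblk_eq {A R : ℕ} (hA : 0 < A) {l : List α} (hl : l.length = R * (2 * A)) :
    nblk A l = R := length_chunks (by omega) hl

theorem Tr.half_map_range (c : Bool) {A : ℕ} (hA : 0 < A) (R : ℕ) (f : ℕ → α) :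
    half c A ((List.range (R * (2 * A))).map f) =
      (List.range (R * A)).map (fun u => f (ins A (if c then 0 else 1) u)) := by
  rw [half, nblk_eq (R := R) hA (by simp), pat_eq_map c hA, filterBy_map,
    filter_range (e := if c then 0 else 1) hA (by split_ifs <;> omega) R, List.map_map]
  · rfl
  · intro k
    have := Nat.mod_lt (k / A) (show 0 < 2 by omega)
    cases c <;> simp

theorem regroup_map_range {A B R R' : ℕ} (hA : 0 < A) (hB : 0 < B) (h : R * A = R' * B)
    (f : ℕ → α) :
    regroup A B ((List.range (R * (2 * A))).map f) =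
      (List.range (R * (2 * A))).map (fun k => f (ins A (k / B % 2) (del B k))) := by
  have h2 : R * (2 * A) = R' * (2 * B) := by
    calc R * (2 * A) = 2 * (R * A) := by ring
      _ = 2 * (R' * B) := by rw [h]
      _ = R' * (2 * B) := by ring
  rw [regroup, half_map_range true hA, half_map_range false hA,
    nblk_eq (R := R') hB (by simp [h2]), pat_eq_map true hB, h, h2]
  have key := mergeBy_map (List.range (R' * (2 * B)))
    (fun k => if k / B % 2 = 0 then true else !true)
    (fun k => f (ins A 0 (del B k))) (fun k => f (ins A 1 (del B k)))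
  rw [filter_range (e := 0) hB (by omega) R' _ (by intro k; simp),
    filter_range (e := 1) hB (by omega) R' _ (by intro k; simp),
    List.map_map, List.map_map] at key
  simp only [comp_def, del_ins hB (show 0 < 2 by omega), del_ins hB (show 1 < 2 by omega)] at key
  simp only [if_true, Bool.false_eq_true, if_false]
  rw [key]
  refine List.map_congr_left (fun k _ => ?_)
  have := Nat.mod_lt (k / B) (show 0 < 2 by omega)
  by_cases hk : k / B % 2 = 0
  · simp [hk]
  · have : k / B % 2 = 1 := by omega
    simp [this]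

@[simp] theorem regroup_nil (A B : ℕ) : regroup A B ([] : List α) = [] := by
  simp [regroup, half, nblk, pat, mergeBy]

theorem length_regroup {A B R R' : ℕ} (hA : 0 < A) (hB : 0 < B) (h : R * A = R' * B)
    {l : List α} (hl : l.length = R * (2 * A)) : (regroup A B l).length = l.length := by
  cases l with
  | nil => simp
  | cons a l =>
    have h1 := map_getD_range (a :: l) a
    rw [hl] at h1
    rw [← h1, regroup_map_range hA hB h]
    simp

theorem mem_of_mem_regroup {A B : ℕ} {l : List α} {a : α} (h : a ∈ regroup A B l) : a ∈ l := by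
  rcases mem_of_mem_mergeBy h with h | h <;> exact mem_of_mem_filterBy h

theorem mem_of_mem_iterate_regroup {A B b : ℕ} {l : List α} {a : α}
    (h : a ∈ (regroup A B)^[b] l) : a ∈ l := by
  induction b generalizing l with
  | zero => exact h
  | succ b ih => exact mem_of_mem_regroup (ih h)

theorem mem_of_mem_trOut {b X : ℕ} {l : List α} {a : α} (h : a ∈ trOut b X l) : a ∈ l :=
  mem_of_mem_iterate_regroup h

theorem mem_of_mem_trIn {b X : ℕ} {l : List α} {a : α} (h : a ∈ trIn b X l) : a ∈ l :=
  mem_of_mem_iterate_regroup h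

/-- source address of `trOut`: `(i, x, j) ↦ (i, j, x)` -/
def srcOut (B X k : ℕ) : ℕ := (k / (X * B) * B + k % B) * X + k / B % X

/-- source address of `trIn`: `(i, j, x) ↦ (i, x, j)` -/
def srcIn (B X k : ℕ) : ℕ := (k / (B * X) * X + k % X) * B + k / X % B

theorem srcIn_eq (B X k : ℕ) : srcIn B X k = srcOut X B k := rfl

theorem srcOut_mk {B X x j : ℕ} (i : ℕ) (hx : x < X) (hj : j < B) :
    srcOut B X ((i * X + x) * B + j) = (i * B + j) * X + x := by
  have hB : 0 < B := by omega
  have hX : 0 < X := by omega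
  have h1 : ((i * X + x) * B + j) / B = i * X + x := by
    rw [add_comm, Nat.add_mul_div_right _ _ hB, Nat.div_eq_of_lt hj, zero_add]
  have h2 : ((i * X + x) * B + j) % B = j := by
    rw [add_comm, Nat.add_mul_mod_self_right, Nat.mod_eq_of_lt hj]
  have h3 : (i * X + x) / X = i := by
    rw [add_comm, Nat.add_mul_div_right _ _ hX, Nat.div_eq_of_lt hx, zero_add]
  have h4 : (i * X + x) % X = x := by
    rw [add_comm, Nat.add_mul_mod_self_right, Nat.mod_eq_of_lt hx]
  rw [srcOut, mul_comm X B, ← Nat.div_div_eq_div_mul, h1, h2, h3, h4]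

theorem Tr.exists_mk3 {B X : ℕ} (hB : 0 < B) (hX : 0 < X) (k : ℕ) :
    ∃ i x j, x < X ∧ j < B ∧ k = (i * X + x) * B + j :=
  ⟨k / B / X, k / B % X, k % B, Nat.mod_lt _ hX, Nat.mod_lt _ hB, by
    rw [Nat.div_add_mod', Nat.div_add_mod']⟩

theorem Tr.mk3_lt {B X R i x j : ℕ} (hi : i < R) (hx : x < X) (hj : j < B) :
    (i * X + x) * B + j < R * X * B := by
  have h1 : i * X + x + 1 ≤ R * X := by
    have := Nat.mul_le_mul_right X (show i + 1 ≤ R from hi)
    rw [add_mul, one_mul] at this
    omega
  have := Nat.mul_le_mul_right B h1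
  rw [add_mul, one_mul] at this
  omega

theorem Tr.lt_of_mk3_lt {B X R i x j : ℕ} (h : (i * X + x) * B + j < R * X * B) : i < R := by
  by_contra hi
  have h1 : R * X ≤ i * X + x := (Nat.mul_le_mul_right X (not_lt.1 hi)).trans (by omega)
  have := Nat.mul_le_mul_right B h1
  omega

theorem srcOut_lt {B X R k : ℕ} (hk : k < R * X * B) : srcOut B X k < R * B * X := by
  have hB : 0 < B := Nat.pos_of_ne_zero (by rintro rfl; simp at hk)
  have hX : 0 < X := Nat.pos_of_ne_zero (by rintro rfl; simp at hk)
  obtain ⟨i, x, j, hx, hj, rfl⟩ := exists_mk3 hB hX k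
  rw [srcOut_mk i hx hj]
  exact mk3_lt (lt_of_mk3_lt hk) hj hx

theorem srcOut_srcOut {B X : ℕ} (hB : 0 < B) (hX : 0 < X) (k : ℕ) :
    srcOut X B (srcOut B X k) = k := by
  obtain ⟨i, x, j, hx, hj, rfl⟩ := exists_mk3 hB hX k
  rw [srcOut_mk i hx hj, srcOut_mk i hj hx]

theorem Tr.iterate_regroup_out {Y : ℕ} (hY : 0 < Y) (R b : ℕ) :
    ∀ (X : ℕ) (f : ℕ → α), X * 2 ^ b = 2 * Y →
      (regroup Y 1)^[b] ((List.range (R * (2 * Y))).map f) =
        (List.range (R * (2 * Y))).map (fun k => f (srcOut (2 ^ b) X k)) := by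
  induction b with
  | zero =>
    intro X f h
    have hX : 0 < X := by omega
    refine List.map_congr_left (fun k _ => ?_)
    simp [srcOut, Nat.mod_one, Nat.div_add_mod']
  | succ b ih =>
    intro X f h
    have hX : 0 < X := Nat.pos_of_ne_zero (by rintro rfl; omega)
    have hb : 0 < 2 ^ b := by positivity
    have hY' : Y = X * 2 ^ b := by rw [pow_succ, ← mul_assoc] at h; omega
    rw [iterate_succ_apply, regroup_map_range (R' := R * Y) hY Nat.one_pos (by simp),
      ih (X * 2) _ (by rw [hY']; ring)]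
    refine List.map_congr_left (fun k _ => congrArg f ?_)
    obtain ⟨i, x, j, hx, hj, rfl⟩ := exists_mk3 (show 0 < 2 ^ (b + 1) by positivity) hX k
    rw [srcOut_mk i hx hj]
    have hc : j / 2 ^ b < 2 := by
      rw [Nat.div_lt_iff_lt_mul hb]; rw [pow_succ] at hj; omega
    have hj' := Nat.mod_lt j hb
    have e0 := Nat.div_add_mod' j (2 ^ b)
    generalize j / 2 ^ b = c at hc e0
    generalize j % 2 ^ b = j' at hj' e0
    subst e0
    have e1 : (i * X + x) * 2 ^ (b + 1) + (c * 2 ^ b + j') =
        (i * (X * 2) + (x * 2 + c)) * 2 ^ b + j' := by ring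
    rw [e1, srcOut_mk i (by omega) hj']
    have e2 : (i * 2 ^ b + j') * (X * 2) + (x * 2 + c) = ((i * 2 ^ b + j') * X + x) * 2 + c := by
      ring
    have e3 : (i * 2 ^ b + j') * X + x = i * Y + (j' * X + x) := by rw [hY']; ring
    have h5 : j' * X + x < Y := by
      have := mk3_lt (B := X) (X := 2 ^ b) (R := 1) (i := 0) Nat.one_pos hj' hx
      rw [hY', mul_comm X]; simpa using this
    have e4 : del 1 ((i * Y + (j' * X + x)) * 2 + c) = i * Y + (j' * X + x) := by
      simp only [del, Nat.mod_one]; omega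
    have e5 : ((i * Y + (j' * X + x)) * 2 + c) / 1 % 2 = c := by omega
    rw [e2, e3, e4, e5, ins, add_comm (i * Y), Nat.add_mul_div_right _ _ hY,
      Nat.add_mul_mod_self_right, Nat.div_eq_of_lt h5, Nat.mod_eq_of_lt h5, hY']
    ring

theorem Tr.iterate_regroup_in {Y : ℕ} (hY : 0 < Y) (R b : ℕ) :
    ∀ (X : ℕ) (f : ℕ → α), X * 2 ^ b = 2 * Y →
      (regroup 1 Y)^[b] ((List.range (R * (2 * Y))).map f) =
        (List.range (R * (2 * Y))).map (fun k => f (srcIn (2 ^ b) X k)) := by
  induction b with
  | zero =>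
    intro X f h
    have hX : 0 < X := by omega
    refine List.map_congr_left (fun k _ => ?_)
    simp [srcIn, Nat.mod_one, Nat.div_add_mod']
  | succ b ih =>
    intro X f h
    have hX : 0 < X := Nat.pos_of_ne_zero (by rintro rfl; omega)
    have hb : 0 < 2 ^ b := by positivity
    have hY' : Y = X * 2 ^ b := by rw [pow_succ, ← mul_assoc] at h; omega
    have e : R * (2 * Y) = R * Y * (2 * 1) := by ring
    rw [iterate_succ_apply', ih (X * 2) _ (by rw [hY']; ring), e,
      regroup_map_range (R' := R) Nat.one_pos hY (by simp)]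
    refine List.map_congr_left (fun k _ => congrArg f ?_)
    obtain ⟨i, j, x, hj, hx, rfl⟩ := exists_mk3 hX (show 0 < 2 ^ (b + 1) by positivity) k
    rw [srcIn_eq (2 ^ (b + 1)), srcOut_mk i hj hx]
    have hc : j / 2 ^ b < 2 := by
      rw [Nat.div_lt_iff_lt_mul hb]; rw [pow_succ] at hj; omega
    have hj' := Nat.mod_lt j hb
    have e0 := Nat.div_add_mod' j (2 ^ b)
    generalize j / 2 ^ b = c at hc e0
    generalize j % 2 ^ b = j' at hj' e0
    subst e0
    have h5 : j' * X + x < Y := by
      have := mk3_lt (B := X) (X := 2 ^ b) (R := 1) (i := 0) Nat.one_pos hj' hx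
      rw [hY', mul_comm X]; simpa using this
    have e1 : (i * 2 ^ (b + 1) + (c * 2 ^ b + j')) * X + x =
        ins Y c (i * Y + (j' * X + x)) := by
      rw [ins, add_comm (i * Y), Nat.add_mul_div_right _ _ hY, Nat.add_mul_mod_self_right,
        Nat.div_eq_of_lt h5, Nat.mod_eq_of_lt h5, hY']
      ring
    have e2 : ins Y c (i * Y + (j' * X + x)) / Y % 2 = c := by rw [ins_div hY]; omega
    have e3 : ins 1 c (i * Y + (j' * X + x)) = (i * 2 ^ b + j') * (X * 2) + (x * 2 + c) := by
      simp only [ins, Nat.mod_one, Nat.div_one, hY']; ring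
    rw [e1, e2, del_ins hY hc, e3, srcIn_eq, srcOut_mk i hj' (by omega)]
    ring

/-- table form of `trOut` -/
theorem trOut_map_range (R b X : ℕ) (f : ℕ → α) :
    trOut b X ((List.range (R * 2 ^ b * X)).map f) =
      (List.range (R * X * 2 ^ b)).map (fun k => f (srcOut (2 ^ b) X k)) := by
  rcases Nat.eq_zero_or_pos X with rfl | hX
  · simp [trOut, iterate_fixed]
  cases b with
  | zero =>
    simp only [trOut, iterate_zero, id_eq, pow_zero, mul_one]
    refine List.map_congr_left (fun k _ => ?_)
    simp [srcOut, Nat.mod_one, Nat.div_add_mod']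
  | succ b =>
    have e1 : R * 2 ^ (b + 1) * X = R * (2 * (X * 2 ^ b)) := by ring
    have e2 : R * X * 2 ^ (b + 1) = R * (2 * (X * 2 ^ b)) := by ring
    rw [trOut, Nat.add_sub_cancel, e1, e2]
    exact iterate_regroup_out (by positivity) R (b + 1) X f (by ring)

/-- table form of `trIn` -/
theorem trIn_map_range (R b X : ℕ) (f : ℕ → α) :
    trIn b X ((List.range (R * X * 2 ^ b)).map f) =
      (List.range (R * 2 ^ b * X)).map (fun k => f (srcIn (2 ^ b) X k)) := by
  rcases Nat.eq_zero_or_pos X with rfl | hX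
  · simp [trIn, iterate_fixed]
  cases b with
  | zero =>
    simp only [trIn, iterate_zero, id_eq, pow_zero, mul_one]
    refine List.map_congr_left (fun k _ => ?_)
    simp [srcIn, Nat.mod_one, Nat.div_add_mod']
  | succ b =>
    have e1 : R * 2 ^ (b + 1) * X = R * (2 * (X * 2 ^ b)) := by ring
    have e2 : R * X * 2 ^ (b + 1) = R * (2 * (X * 2 ^ b)) := by ring
    rw [trIn, Nat.add_sub_cancel, e1, e2]
    exact iterate_regroup_in (by positivity) R (b + 1) X f (by ring)

theorem trOut_eq {R b X : ℕ} {l : List α} (hl : l.length = R * 2 ^ b * X) (d : α) :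
    trOut b X l = (List.range (R * X * 2 ^ b)).map (fun k => l.getD (srcOut (2 ^ b) X k) d) := by
  conv_lhs => rw [← map_getD_range l d, hl]
  exact trOut_map_range R b X _

theorem trIn_eq {R b X : ℕ} {l : List α} (hl : l.length = R * X * 2 ^ b) (d : α) :
    trIn b X l = (List.range (R * 2 ^ b * X)).map (fun k => l.getD (srcIn (2 ^ b) X k) d) := by
  conv_lhs => rw [← map_getD_range l d, hl]
  exact trIn_map_range R b X _

theorem length_trOut {R b X : ℕ} {l : List α} (hl : l.length = R * 2 ^ b * X) :
    (trOut b X l).length = l.length := by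
  cases l with
  | nil => simp [trOut, iterate_fixed]
  | cons a l => rw [trOut_eq hl a, hl]; simp; ring

theorem length_trIn {R b X : ℕ} {l : List α} (hl : l.length = R * X * 2 ^ b) :
    (trIn b X l).length = l.length := by
  cases l with
  | nil => simp [trIn, iterate_fixed]
  | cons a l => rw [trIn_eq hl a, hl]; simp; ring

/-- entry `(i, x, j)` of the output is entry `(i, j, x)` of the input -/
theorem getD_trOut {R b X i x j : ℕ} {l : List α} (hl : l.length = R * 2 ^ b * X) (hi : i < R)
    (hx : x < X) (hj : j < 2 ^ b) (d : α) :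
    (trOut b X l).getD ((i * X + x) * 2 ^ b + j) d = l.getD ((i * 2 ^ b + j) * X + x) d := by
  rw [trOut_eq hl d, getD_map_range _ (mk3_lt hi hx hj), srcOut_mk i hx hj]

/-- entry `(i, j, x)` of the output is entry `(i, x, j)` of the input -/
theorem getD_trIn {R b X i x j : ℕ} {l : List α} (hl : l.length = R * X * 2 ^ b) (hi : i < R)
    (hx : x < X) (hj : j < 2 ^ b) (d : α) :
    (trIn b X l).getD ((i * 2 ^ b + j) * X + x) d = l.getD ((i * X + x) * 2 ^ b + j) d := by
  rw [trIn_eq hl d, getD_map_range _ (mk3_lt hi hj hx), srcIn_eq, srcOut_mk i hj hx]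

/-- the columns of the blocks of `2 ^ b` rows -/
theorem chunks_trOut_map_range (R b X : ℕ) (f : ℕ → α) :
    chunks (2 ^ b) (trOut b X ((List.range (R * 2 ^ b * X)).map f)) =
      (List.range (R * X)).map (fun c => (List.range (2 ^ b)).map
        (fun j => f ((c / X * 2 ^ b + j) * X + c % X))) := by
  rw [trOut_map_range, chunks_map_range (by positivity)]
  refine List.map_congr_left (fun c hc => List.map_congr_left (fun j hj => congrArg f ?_))
  have hX : 0 < X := Nat.pos_of_ne_zero (by rintro rfl; simp at hc)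
  conv_lhs => rw [← Nat.div_add_mod' c X]
  exact srcOut_mk _ (Nat.mod_lt _ hX) (by simpa using hj)

/-- from the columns back to rows -/
theorem trIn_flatten_map_range (R b X : ℕ) (F : ℕ → ℕ → α) :
    trIn b X ((List.range (R * X)).map (fun c => (List.range (2 ^ b)).map (F c))).flatten =
      (List.range (R * 2 ^ b * X)).map
        (fun k => F (k / (2 ^ b * X) * X + k % X) (k / X % 2 ^ b)) := by
  have hb : 0 < 2 ^ b := by positivity
  rw [flatten_map_range, trIn_map_range]
  refine List.map_congr_left (fun k _ => ?_)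
  have h := Nat.mod_lt (k / X) hb
  rw [srcIn, add_comm (_ * 2 ^ b), Nat.add_mul_div_right _ _ hb, Nat.add_mul_mod_self_right,
    Nat.div_eq_of_lt h, Nat.mod_eq_of_lt h, zero_add]

end defs

/-! ### sizes and running times -/

section sizes

variable {α : Type} [PTCode α]

theorem sz_filterBy_add_le (bs : List Bool) (xs : List α) :
    sz (filterBy bs xs) + sz (filterBy (bs.map not) xs) ≤ sz xs := by
  induction bs generalizing xs with
  | nil => simp [filterBy]
  | cons b bs ih =>
    have h1 := Mg.sz_take_one_add_tail xs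
    have := ih xs.tail
    cases b
    · simp only [List.map_cons, Bool.not_false, filterBy, sz_append]; omega
    · simp only [List.map_cons, Bool.not_true, filterBy, sz_append]; omega

theorem sz_regroup_le (A B : ℕ) (l : List α) : sz (regroup A B l) ≤ sz l := by
  refine (sz_mergeBy_le _ _ _).trans ?_
  have := sz_filterBy_add_le (pat true A (nblk A l)) l
  rwa [← pat_not] at this

theorem sz_iterate_regroup_le (A B b : ℕ) (l : List α) : sz ((regroup A B)^[b] l) ≤ sz l := by
  induction b generalizing l with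
  | zero => exact le_rfl
  | succ b ih => exact (ih _).trans (sz_regroup_le A B l)

theorem sz_trOut_le (b X : ℕ) (l : List α) : sz (trOut b X l) ≤ sz l := sz_iterate_regroup_le _ _ _ _

theorem sz_trIn_le (b X : ℕ) (l : List α) : sz (trIn b X l) ≤ sz l := sz_iterate_regroup_le _ _ _ _

omit [PTCode α] in
theorem length_chunks_mul_le (n : ℕ) (l : List α) : (chunks n l).length * n ≤ l.length + n := by
  rcases Nat.eq_zero_or_pos n with rfl | hn
  · simp
  refine chunks_induction hn (p := fun l => (chunks n l).length * n ≤ l.length + n) (by simp)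
    (fun l h ih => ?_) l
  rw [chunks_of_ne hn.ne' h, List.length_cons, add_mul, one_mul]
  by_cases h1 : l.length ≤ n
  · rw [List.drop_of_length_le h1]; simp
  · rw [List.length_drop] at ih; omega

end sizes

section tc

variable {ι α : Type} [PTCode ι] [PTCode α] {P : ι → Prop} {T : ι → ℕ}

theorem TU.trNblk {A : ι → ℕ} {l : ι → List α} (hA : TU P T A) (hl : TC P T l) :
    TU P T (fun x => nblk (A x) (l x)) :=
  TU.length (TC.chunks (hA.const_mul 2) hl)

theorem TC.trPat (c : Bool) {A : ι → ℕ} {l : ι → List α} (hA : TU P T A) (hl : TC P T l) :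
    TC P T (fun x => pat c (A x) (Tr.nblk (A x) (l x))) := by
  refine TC.flatten (TC.replicate (hA.trNblk hl)
    ((TC.replicate_const c hA).append (TC.replicate_const (!c) hA)) ?_)
  refine (((hl.sz.add (hA.bud.const_mul 2)).const_mul 3)).mono (fun x _ => ?_)
  have h1 := length_chunks_mul_le (2 * A x) (l x)
  have h2 := length_le_sz (l x)
  have h3 : ∀ b : Bool, Lib.PT.sz b = 1 := fun _ => rfl
  simp only [sz_append, sz_replicate, h3, Tr.nblk]
  nlinarith

theorem TC.trHalf (c : Bool) {A : ι → ℕ} {l : ι → List α} (hA : TU P T A) (hl : TC P T l) :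
    TC P T (fun x => half c (A x) (l x)) := TC.filterBy (TC.trPat c hA hl) hl

/-- moving one address bit is linear -/
@[fun_prop]
theorem TC.regroup {A B : ι → ℕ} {l : ι → List α} (hA : TU P T A) (hB : TU P T B)
    (hl : TC P T l) : TC P T (fun x => regroup (A x) (B x) (l x)) :=
  TC.mergeBy (TC.trPat true hB hl) (TC.trHalf true hA hl) (TC.trHalf false hA hl)

theorem TC.iterate_regroup {b A B : ι → ℕ} {l : ι → List α} (hb : TU P T b) (hA : TU P T A)
    (hB : TU P T B) (hl : TC P T l)
    (hbud : Bud P T (fun x => b x * (Lib.PT.sz (l x) + A x + B x + 1))) :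
    TC P T (fun x => (X326.regroup (A x) (B x))^[b x] (l x)) := by
  let f : ((Un × Un) × List α) × Unit → ((Un × Un) × List α) × List Unit :=
    fun q => ((q.1.1, X326.regroup q.1.1.1.val q.1.1.2.val q.1.2), [])
  have hf : Lin f :=
    (TC.id.fst.fst.prodMk (TC.regroup (TU.val TC.id.fst.fst.fst) (TU.val TC.id.fst.fst.snd)
      TC.id.fst.snd)).prodMk (TC.const _)
  have key : ∀ (u : Un × Un) (n : ℕ) (l : List α),
      (X326.accumL f (u, l) (List.replicate n ())).1.2 =
        (X326.regroup u.1.val u.2.val)^[n] l := by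
    intro u n
    induction n with
    | zero => intro l; rfl
    | succ n ih => intro l; rw [List.replicate_succ, accumL_cons, iterate_succ_apply]; exact ih _
  have h := TC.accumL_inv hf (s := fun x => ((Un.mk (A x), Un.mk (B x)), l x))
    ((hA.tc.prodMk hB.tc).prodMk hl) hb.units
    (fun x t _ => t.1 = (Un.mk (A x), Un.mk (B x)) ∧ Lib.PT.sz t.2 ≤ Lib.PT.sz (l x))
    (fun x _ => 4 * (Lib.PT.sz (l x) + A x + B x + 1)) (fun x _ => ⟨rfl, le_rfl⟩)
    (fun x _ t a r ht => ⟨trivial, ?_, ht.1, (sz_regroup_le _ _ _).trans ht.2⟩)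
    ((hbud.const_mul 4).mono (fun x _ => by simp; ring_nf; exact le_rfl))
  · exact h.fst.snd.of_eq (fun x => key _ _ _)
  · obtain ⟨u, l'⟩ := t
    obtain ⟨h1, h2⟩ := ht
    simp only at h1 h2
    subst h1
    simp only [sz_prod, sz_un]
    omega

theorem Tr.two_pow_pred_le (X b : ℕ) : X * 2 ^ (b - 1) ≤ X * 2 ^ b :=
  Nat.mul_le_mul_left _ (Nat.pow_le_pow_right (by omega) (by omega))

/-- the unary block size of the passes -/
theorem TU.mul_two_pow_pred {b X : ι → ℕ} (hb : TU P T b) (hX : TU P T X)
    (h0 : ∀ x, P x → 0 < X x) (hbud : Bud P T (fun x => X x * 2 ^ b x)) :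
    TU P T (fun x => X x * 2 ^ (b x - 1)) := by
  have h1 : Bud P T (fun x => X x * 2 ^ (b x - 1)) := hbud.mono (fun x _ => two_pow_pred_le _ _)
  exact TU.mul hX (TU.twoPow (hb.sub (TU.const 1))
    (h1.mono (fun x hx => Nat.le_mul_of_pos_left _ (h0 x hx)))) h1

/-- transposition `[R][2 ^ b][X] → [R][X][2 ^ b]` in `b` passes -/
theorem TC.trOut {b X : ι → ℕ} {l : ι → List α} (hb : TU P T b) (hX : TU P T X) (hl : TC P T l)
    (h0 : ∀ x, P x → 0 < X x)
    (hbud : Bud P T (fun x => (b x + 1) * (Lib.PT.sz (l x) + X x * 2 ^ b x + 1))) :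
    TC P T (fun x => trOut (b x) (X x) (l x)) := by
  refine TC.iterate_regroup hb (TU.mul_two_pow_pred hb hX h0 (hbud.mono (fun x _ => ?_)))
    (TU.const 1) hl ((hbud.const_mul 2).mono (fun x _ => ?_))
  · nlinarith [Nat.zero_le (b x * (Lib.PT.sz (l x) + X x * 2 ^ b x + 1))]
  · have := two_pow_pred_le (X x) (b x)
    rw [mul_left_comm]
    exact Nat.mul_le_mul (by omega) (by omega)

/-- transposition `[R][X][2 ^ b] → [R][2 ^ b][X]` in `b` passes -/
theorem TC.trIn {b X : ι → ℕ} {l : ι → List α} (hb : TU P T b) (hX : TU P T X) (hl : TC P T l)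
    (h0 : ∀ x, P x → 0 < X x)
    (hbud : Bud P T (fun x => (b x + 1) * (Lib.PT.sz (l x) + X x * 2 ^ b x + 1))) :
    TC P T (fun x => trIn (b x) (X x) (l x)) := by
  refine TC.iterate_regroup hb (TU.const 1)
    (TU.mul_two_pow_pred hb hX h0 (hbud.mono (fun x _ => ?_)))
    hl ((hbud.const_mul 2).mono (fun x _ => ?_))
  · nlinarith [Nat.zero_le (b x * (Lib.PT.sz (l x) + X x * 2 ^ b x + 1))]
  · have := two_pow_pred_le (X x) (b x)
    rw [mul_left_comm]
    exact Nat.mul_le_mul (by omega) (by omega)

end tc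

end Crest.Agent.X326
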