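import Crest.Agent.X326.TC.Core

/-!
# Raw programs for unary / binary conversion

* `run_toUn`   : binary to unary in time linear in the value (repeated doubling);
* `LinRaw.count` : the length of a bit string in binary in linear time (amortised counter).
-/

set_option autoImplicit false
set_option linter.dupNamespace false

namespace Crest.Agent.X326

open Crest.Agent.Lib.PT Function

namespace UnRaw

/-! ### binary to unary -/

/-- double the unary number on stack `0` -/
def dbl : Cmd := .seq (mvMap 0 2 (fun _ => [true, true])) (mv 2 0)

theorem flatMap_two (a : ℕ) :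
    (List.replicate a true).flatMap (fun _ => [true, true]) = List.replicate (2 * a) true := by
  induction a with
  | zero => rfl
  | succ a ih =>
    rw [List.replicate_succ, List.flatMap_cons, ih, show 2 * (a + 1) = (2 * a + 1) + 1 by ring]
    rfl

theorem run_dbl (a : ℕ) (l : List Bool) :
    Run dbl (st4 (List.replicate a true) l [] []) (st4 (List.replicate (2 * a) true) l [] [])
      (16 * a + 2) := by
  have h1 : Run (mvMap 0 2 (fun _ => [true, true])) (st4 (List.replicate a true) l [] [])
      (st4 [] l (List.replicate (2 * a) true) []) (8 * a + 1) :=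
    (run_mvMap (by decide) _ _).of_eq (by simp [flatMap_two]) (by simp)
  have h2 : Run (mv 2 0) (st4 [] l (List.replicate (2 * a) true) [])
      (st4 (List.replicate (2 * a) true) l [] []) (8 * a + 1) :=
    (run_mv (by decide) _).of_eq (by simp) (by simp; omega)
  exact (h1.seq h2).mono (by omega)

/-- one round: double, add the next bit -/
def toUnBody : Cmd := .seq dbl (.ite 1 .skip (.seq (.pop 1) (.push 0 true)) (.pop 1))

theorem run_toUnBody (a : ℕ) (b : Bool) (l : List Bool) :
    Run toUnBody (st4 (List.replicate a true) (b :: l) [] [])
      (st4 (List.replicate (Nat.bit b a) true) l [] []) (16 * a + 5) := by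
  refine ((run_dbl a (b :: l)).seq (s'' := st4 (List.replicate (Nat.bit b a) true) l [] [])
    (m := 3) ?_).mono (by omega)
  cases b
  · refine (Run.ite_false (l := l) rfl (run_pop 1 _)).of_eq ?_ (by omega)
    simp [Nat.bit]
  · refine (Run.ite_true (l := l) rfl ((run_pop 1 _).seq (run_push 0 true _))).of_eq ?_ (by omega)
    simp [Nat.bit, List.replicate_succ]

theorem run_toUnLoop (l : List Bool) (a : ℕ) :
    ∃ t, Run (.loop 1 toUnBody) (st4 (List.replicate a true) l [] [])
      (st4 (List.replicate (l.foldl (fun n b => Nat.bit b n) a) true) [] [] []) t ∧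
      t + 16 * a ≤ 16 * (l.foldl (fun n b => Nat.bit b n) a) + 6 * l.length + 1 := by
  induction l generalizing a with
  | nil => exact ⟨1, Run.loop_nil rfl, by simp; omega⟩
  | cons b l ih =>
    obtain ⟨t, ht, hle⟩ := ih (Nat.bit b a)
    refine ⟨_, Run.loop_cons (by simp) (run_toUnBody a b l) ht, ?_⟩
    have : 2 * a ≤ Nat.bit b a := by cases b <;> simp [Nat.bit]
    simp only [List.foldl_cons, List.length_cons]
    omega

/-- binary to unary -/
def toUn : Cmd := .seq (mv 0 1) (.loop 1 toUnBody)

theorem run_toUn (n : ℕ) :
    Run toUn (init n.bits) (init (List.replicate n true)) (16 * n + 10 * n.size + 2) := by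
  have h1 : Run (mv 0 1) (init n.bits) (st4 (List.replicate 0 true) n.bits.reverse [] [])
      (4 * n.size + 1) :=
    (run_mv (by decide) _).of_eq (by simp [init_eq_st4]) (by simp [Nat.size_eq_bits_len])
  obtain ⟨t, ht, hle⟩ := run_toUnLoop n.bits.reverse 0
  have e : n.bits.reverse.foldl (fun n b => Nat.bit b n) 0 = n := Arith.msb_bits_reverse n
  rw [e] at ht hle
  rw [← init_eq_st4] at ht
  refine (h1.seq ht).mono ?_
  simp only [List.length_reverse, Nat.size_eq_bits_len] at hle
  omega

/-! ### the amortised binary counter -/

/-- successor on bit strings, least significant bit first -/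
def incBits : List Bool → List Bool
  | [] => [true]
  | true :: l => false :: incBits l
  | false :: l => true :: l

/-- number of leading ones -/
def lead : List Bool → ℕ
  | true :: l => lead l + 1
  | _ => 0

/-- what is left after the leading ones and the first zero -/
def rest : List Bool → List Bool
  | [] => []
  | true :: l => rest l
  | false :: l => l

theorem incBits_eq (z : List Bool) :
    incBits z = List.replicate (lead z) false ++ true :: rest z := by
  induction z with
  | nil => rfl
  | cons b z ih =>
    cases b
    · rfl
    · simp [incBits, lead, rest, ih, List.replicate_succ]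

theorem count_incBits (z : List Bool) :
    (incBits z).count true + lead z = z.count true + 1 := by
  induction z with
  | nil => rfl
  | cons b z ih =>
    cases b
    · simp [incBits, lead]
    · simp only [incBits, lead, List.count_cons_self]
      rw [List.count_cons_of_ne (by decide)]
      omega

theorem incBits_bits (n : ℕ) : incBits n.bits = (n + 1).bits := by
  induction n using Nat.binaryRec' with
  | zero => rfl
  | bit b n h ih =>
    rw [Nat.bits_append_bit n b h]
    cases b
    · have : Nat.bit false n + 1 = Nat.bit true n := by simp [Nat.bit]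
      rw [this, Nat.bits_append_bit n true (by simp)]
      rfl
    · have : Nat.bit true n + 1 = Nat.bit false (n + 1) := by simp [Nat.bit]; ring
      rw [this, Nat.bits_append_bit (n + 1) false (by simp), ← ih]
      rfl

theorem incBits_iterate (m n : ℕ) : incBits^[m] n.bits = (n + m).bits := by
  induction m generalizing n with
  | zero => rfl
  | succ m ih => rw [Function.iterate_succ_apply, incBits_bits, ih]; congr 1; ring

/-- body of the carry loop; counter on stack `0`, flag on `2`, carried zeros on `3` -/
def incBody : Cmd :=
  .ite 0 (.seq (.pop 2) (.push 0 true)) (.seq (.pop 0) (.push 3 false))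
    (.seq (.pop 2) (.seq (.pop 0) (.push 0 true)))

theorem run_incLoop (z u acc : List Bool) :
    Run (.loop 2 incBody) (st4 z u [true] acc)
      (st4 (true :: rest z) u [] (List.replicate (lead z) false ++ acc)) (4 * lead z + 6) := by
  have fin : ∀ a d : List Bool, Run (.loop 2 incBody) (st4 a u [] d) (st4 a u [] d) 1 :=
    fun a d => Run.loop_nil rfl
  induction z generalizing acc with
  | nil =>
    have hb : Run incBody (st4 [] u [true] acc) (st4 [true] u [] acc) 3 :=
      (Run.ite_nil rfl ((run_pop 2 _).seq (run_push 0 true _))).of_eq (by simp) (by omega)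
    exact (Run.loop_cons (by simp) hb (fin _ _)).of_eq (by simp [rest, lead]) (by omega)
  | cons b z ih =>
    cases b
    · have hb : Run incBody (st4 (false :: z) u [true] acc) (st4 (true :: z) u [] acc) 4 :=
        (Run.ite_false (l := z) rfl ((run_pop 2 _).seq ((run_pop 0 _).seq
          (run_push 0 true _)))).of_eq (by simp) (by omega)
      exact (Run.loop_cons (by simp) hb (fin _ _)).of_eq (by simp [rest, lead]) (by omega)
    · have hb : Run incBody (st4 (true :: z) u [true] acc) (st4 z u [true] (false :: acc)) 3 :=
        (Run.ite_true (l := z) rfl ((run_pop 0 _).seq (run_push 3 false _))).of_eq (by simp)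
          (by omega)
      refine (Run.loop_cons (by simp) hb (ih (false :: acc))).of_eq ?_ ?_
      · simp only [rest, lead, List.replicate_succ', List.append_assoc, List.singleton_append]
      · simp only [lead]; omega

/-- increment the counter on stack `0` -/
def inc : Cmd := .seq (.push 2 true) (.seq (.loop 2 incBody) (mv 3 0))

theorem run_inc (z u : List Bool) :
    Run inc (st4 z u [] []) (st4 (incBits z) u [] []) (8 * lead z + 8) := by
  have h1 : Run (.push 2 true) (st4 z u [] []) (st4 z u [true] []) 1 :=
    (run_push 2 true _).of_eq (by simp) le_rfl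
  have h3 : Run (mv 3 0) (st4 (true :: rest z) u [] (List.replicate (lead z) false ++ []))
      (st4 (incBits z) u [] []) (4 * lead z + 1) :=
    (run_mv (by decide) _).of_eq (by simp [incBits_eq]) (by simp)
  exact (h1.seq ((run_incLoop z u []).seq h3)).mono (by omega)

theorem run_countLoop (u z : List Bool) :
    ∃ t, Run (.loop 1 (.seq (.pop 1) inc)) (st4 z u [] []) (st4 (incBits^[u.length] z) [] [] []) t ∧
      t + 8 * (incBits^[u.length] z).count true ≤ 8 * z.count true + 18 * u.length + 1 := by
  induction u generalizing z with
  | nil => exact ⟨1, Run.loop_nil rfl, by simp; omega⟩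
  | cons b u ih =>
    obtain ⟨t, ht, hle⟩ := ih (incBits z)
    have hb : Run (.seq (.pop 1) inc) (st4 z (b :: u) [] []) (st4 (incBits z) u [] [])
        (1 + (8 * lead z + 8)) :=
      ((run_pop 1 _).of_eq (by simp) le_rfl).seq (run_inc z u)
    refine ⟨_, Run.loop_cons (by simp) hb ht, ?_⟩
    have := count_incBits z
    simp only [List.length_cons, Function.iterate_succ_apply]
    omega

end UnRaw

open UnRaw

/-- the length of a bit string, in binary -/
theorem LinRaw.count : LinRaw (fun x => x.length.bits) := by
  refine LinRaw.of_run (.seq (mv 0 1) (.loop 1 (.seq (.pop 1) inc))) 22 2 (fun x => ?_)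
  have h1 : Run (mv 0 1) (init x) (st4 [] x.reverse [] []) (4 * x.length + 1) :=
    (run_mv (by decide) _).of_eq (by simp [init_eq_st4]) (by simp)
  obtain ⟨t, ht, hle⟩ := run_countLoop x.reverse []
  have e : incBits^[x.reverse.length] [] = x.length.bits := by
    have := incBits_iterate x.length 0
    simpa using this
  rw [e] at ht hle
  rw [← init_eq_st4] at ht
  refine (h1.seq ht).mono ?_
  simp only [List.length_reverse, List.count_nil] at hle
  omega

end Crest.Agent.X326
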